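import Vale.Agent.P355.Defs

/-! Moment axioms for four mutually unbiased bases (three Hadamard matrices). -/

namespace Vale.Agent.P355

open Finset

/-- iterated multiplication by power sums -/
noncomputable def pw (T : V → V → ℝ) : List (ℤ × ℤ) → V → V → ℝ
  | [], a, b => T a b
  | t :: ts, a, b => ∑ r, pw T ts (a + t.1 • e r) (b + t.2 • e r)

/-- `|n|` copies of the signed step `(p, q)` -/
def edge (n p q : ℤ) : List (ℤ × ℤ) := List.replicate n.natAbs (n.sign * p, n.sign * q)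

def L33 (p q r s : ℤ) : List (ℤ × ℤ) := [(p, q), (r, s), (-p - r, -q - s)]

def L221 (p q r s : ℤ) : List (ℤ × ℤ) :=
  [(p, q), (r, s)] ++ edge (p + r) (-1) 0 ++ edge (q + s) 0 (-1)

def L1111 (a b c : ℤ) : List (ℤ × ℤ) :=
  [(a, b)] ++ edge c (-1) 1 ++ edge (a - c) (-1) 0 ++ edge (b + c) 0 (-1)

/-- bilinear form of a kernel -/
noncomputable def QF (T : V → V → ℝ) (ε : ℝ) {n k : ℕ} (x : Fin n → ℝ) (a : Fin n → V)
    (y : Fin k → ℝ) (b : Fin k → V) : ℝ :=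
  ∑ i, ∑ j, x i * y j * (T (a i) (-b j) + ε * T (a i) (b j))

/-- two points in one matrix, the third in another one -/
noncomputable def Cfg.SB {m : ℕ} (c : Cfg m) (a b : V) : ℂ :=
  ∑ i, ∑ j, if i = j then 0 else c.g j a * c.g j b * c.g i (-a - b)

/-- three points in three different matrices -/
noncomputable def Cfg.SC {m : ℕ} (c : Cfg m) (a b : V) : ℂ :=
  ∑ i, ∑ j, ∑ k, if i = j ∨ i = k ∨ j = k then 0 else c.g j a * c.g k b * c.g i (-a - b)

/-- linear identities (one frame) -/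
structure AxL (A B C : V → V → ℝ) : Prop where
  symA : Sym A
  symB : Sym B
  symC : Sym C
  rotA : ∀ a b, A a (-a - b) = A a b
  rotC : ∀ a b, C a (-a - b) = C a b
  vA : ∀ r t, r ≠ t → ∀ b, A (e r - e t) b = 0
  vB : ∀ r t, r ≠ t → ∀ b, B (e r - e t) b = 0
  vB3 : ∀ r t, r ≠ t → ∀ a, B a (-a - (e r - e t)) = 0
  vC : ∀ r t, r ≠ t → ∀ b, C (e r - e t) b = 0
  oA : ∀ x y, ∑ r, A (x + e r) (y - e r) = A 0 (x + y)
  oB : ∀ x y, ∑ r, B (x + e r) (y - e r) = B 0 (x + y)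
  uB : ∀ x y, ∑ r, ∑ t, B (x + e r - e t) y = 6 * B x y
  uC : ∀ x y, ∑ r, ∑ t, C (x + e r - e t) y = 6 * C x y
  z1 : ∀ x, B x (-x) = 2 * A x (-x)
  z2 : ∀ x, C 0 x = B 0 x

/-- bounds, values at zero, positivity (one frame) -/
structure AxP (A B C : V → V → ℝ) : Prop where
  bdA : ∀ a b, |A a b| ≤ 648
  bdB : ∀ a b, |B a b| ≤ 1296
  bdC : ∀ a b, |C a b| ≤ 1296
  zA : A 0 0 = 648
  zB : B 0 0 = 1296
  zC : C 0 0 = 1296
  psdJ : ∀ ε : ℝ, (ε = 1 ∨ ε = -1) → ∀ (n k : ℕ) (x : Fin n → ℝ) (a : Fin n → V)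
    (y : Fin k → ℝ) (b : Fin k → V),
    0 ≤ QF A ε x a x a + 2 * QF (fun a b => B a (-a - b)) ε x a y b +
      QF (fun a b => B a b + C a b) ε y b y b
  psdS : Psd (fun a b => B a b - C a b)

/-- change of frame identities -/
structure AxF (A B C : V → V → ℝ) : Prop where
  f33 : ∀ p q r s : ℤ, pw A (L33 p q r s) 0 0 = pw A (L33 p r q s) 0 0
  f221 : ∀ p q r s : ℤ,
    √6 ^ ((p + q).natAbs + (r + s).natAbs) * pw B (L221 p q r s) 0 0 =
      √6 ^ ((p + r).natAbs + (q + s).natAbs) * pw B (L221 p r q s) 0 0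
  f1111 : ∀ a b c : ℤ,
    √6 ^ (b.natAbs + (a + b).natAbs) * pw C (L1111 a b c) 0 0 =
      √6 ^ (c.natAbs + (a - c).natAbs) * pw C (L1111 (-a) c b) 0 0

/-- normalised transition matrices of four mutually unbiased bases -/
structure Sys where
  H : Fin 4 → Fin 4 → Fin 6 → Fin 6 → ℂ
  uni : ∀ i j, i ≠ j → ∀ x y, ‖H i j x y‖ = 1
  adj : ∀ i j x y, H j i y x = (starRingEnd ℂ) (H i j x y)
  orth : ∀ i j, i ≠ j → ∀ x z, ∑ y, H i j x y * H j i y z = if x = z then 6 else 0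
  comp : ∀ i j k, i ≠ j → j ≠ k → i ≠ k → ∀ x z,
    ∑ y, H i j x y * H j k y z = (√6 : ℝ) * H i k x z

/-- `c f` is the configuration seen from basis `f` -/
def Sys.Frames (S : Sys) (c : Fin 4 → Cfg 3) : Prop :=
  ∀ f i k r, (c f).u i k r = S.H f (f.succAbove i) r k

noncomputable def mA (c : Fin 4 → Cfg 3) (a b : V) : ℝ := (∑ f, avg (c f).TA a b) / 4
noncomputable def mB (c : Fin 4 → Cfg 3) (a b : V) : ℝ := (∑ f, avg (c f).SB a b) / 4
noncomputable def mC (c : Fin 4 → Cfg 3) (a b : V) : ℝ := (∑ f, avg (c f).SC a b) / 4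

end Vale.Agent.P355
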