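import Vale.Agent.P355.AxPw

namespace Vale.Agent.P355

open Finset

theorem f4_ne (S : Sys) {i j : Fin 4} (h : i ≠ j) (x y : Fin 6) : S.H i j x y ≠ 0 := by
  intro h0
  have := S.uni i j h x y
  rw [h0, norm_zero] at this
  exact zero_ne_one this

theorem f4_inv (S : Sys) {i j : Fin 4} (h : i ≠ j) (x y : Fin 6) :
    (S.H i j x y)⁻¹ = S.H j i y x := by
  rw [S.adj i j x y, Complex.inv_eq_conj (S.uni i j h x y)]

theorem f4_pair (S : Sys) {f g h : Fin 4} (hfg : f ≠ g) (hfh : f ≠ h) (hgh : g ≠ h)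
    (x y : Fin 6) : ∑ r, (S.H f g r x)⁻¹ * S.H f h r y = (√6 : ℝ) * S.H g h x y := by
  simp only [f4_inv S hfg]
  exact S.comp g f h hfg.symm hfh hgh x y

theorem f4_pair' (S : Sys) {f g h : Fin 4} (hfg : f ≠ g) (hfh : f ≠ h) (hgh : g ≠ h)
    (x y : Fin 6) : ∑ r, S.H f g r x * (S.H f h r y)⁻¹ = (√6 : ℝ) * (S.H g h x y)⁻¹ := by
  rw [f4_inv S hgh, ← f4_pair S hfh hfg hgh.symm]
  exact sum_congr rfl fun r _ => mul_comm _ _

theorem f4_edge (F : ℤ × ℤ → ℂ) (s a : ℂ) (p q : ℤ) (h1 : F (p, q) = s * a)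
    (h2 : F (-p, -q) = s * a⁻¹) (n : ℤ) :
    ((edge n p q).map F).prod = s ^ n.natAbs * a ^ n := by
  unfold edge
  rw [List.map_replicate, List.prod_replicate]
  obtain ⟨m, rfl | rfl⟩ := Int.eq_nat_or_neg n
  · rcases m with _ | m
    · simp
    · rw [Int.sign_natCast_of_ne_zero m.succ_ne_zero, one_mul, one_mul, h1, Int.natAbs_natCast,
        zpow_natCast, mul_pow]
  · rcases m with _ | m
    · simp
    · rw [Int.sign_neg, Int.sign_natCast_of_ne_zero m.succ_ne_zero, neg_one_mul, neg_one_mul, h2,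
        Int.natAbs_neg, Int.natAbs_natCast, zpow_neg, zpow_natCast, mul_pow, inv_pow]

/-- the symmetric four point sum -/
noncomputable def f4D (S : Sys) (a b d : ℤ) (f g h l : Fin 4) : ℂ :=
  ∑ x, ∑ r, ∑ y, ∑ z, S.H f g r x ^ a * S.H f h r y ^ b * S.H f l r z ^ (-a - b) *
    S.H g h x y ^ d * S.H g l x z ^ (a - d) * S.H h l y z ^ (b + d)

theorem f4_swap (S : Sys) (a b d : ℤ) {f g : Fin 4} (hfg : f ≠ g) (h l : Fin 4) :
    f4D S (-a) d b g f h l = f4D S a b d f g h l := by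
  unfold f4D
  rw [sum_comm]
  refine sum_congr rfl fun x _ => sum_congr rfl fun r _ => sum_congr rfl fun y _ =>
    sum_congr rfl fun z _ => ?_
  rw [← f4_inv S hfg, inv_zpow', neg_neg, add_comm d b]
  ring

theorem f4_prod (S : Sys) (a b d : ℤ) {f g h l : Fin 4} (hfg : f ≠ g) (hfh : f ≠ h) (hfl : f ≠ l)
    (hgh : g ≠ h) (hgl : g ≠ l) (hhl : h ≠ l) :
    ∑ x, ∑ y, ∑ z, ((L1111 a b d).map
      (PS (fun r => S.H f g r x) (fun r => S.H f h r y) (fun r => S.H f l r z))).prod =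
      ((√6 : ℝ) : ℂ) ^ (d.natAbs + (a - d).natAbs + (b + d).natAbs) * f4D S a b d f g h l := by
  unfold f4D
  rw [mul_sum]
  refine sum_congr rfl fun x _ => ?_
  rw [sum_comm (γ := Fin 6) (s := univ) (t := univ) (f := fun r y => ∑ z, S.H f g r x ^ a *
    S.H f h r y ^ b * S.H f l r z ^ (-a - b) * S.H g h x y ^ d * S.H g l x z ^ (a - d) *
      S.H h l y z ^ (b + d)), mul_sum]
  refine sum_congr rfl fun y _ => ?_
  rw [sum_comm, mul_sum]
  refine sum_congr rfl fun z _ => ?_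
  unfold L1111
  simp only [List.map_append, List.prod_append, List.map_cons, List.map_nil, List.prod_cons,
    List.prod_nil, mul_one]
  rw [f4_edge _ (√6 : ℝ) (S.H g h x y) (-1) 1, f4_edge _ (√6 : ℝ) (S.H g l x z) (-1) 0,
    f4_edge _ (√6 : ℝ) (S.H h l y z) 0 (-1)]
  · unfold PS
    simp only [← sum_mul]
    ring
  · rw [← f4_pair S hfh hfl hhl]
    simp [PS]
  · rw [← f4_pair' S hfh hfl hhl]
    simp [PS]
  · rw [← f4_pair S hfg hfl hgl]
    simp [PS]
  · rw [← f4_pair' S hfg hfl hgl]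
    simp [PS]
  · rw [← f4_pair S hfg hfh hgh]
    simp [PS]
  · rw [← f4_pair' S hfg hfh hgh]
    simp [PS]

theorem f4_pw (S : Sys) (c : Fin 4 → Cfg 3) (h : S.Frames c) (a b d : ℤ) :
    pw (mC c) (L1111 a b d) 0 0 = √6 ^ (d.natAbs + (a - d).natAbs + (b + d).natAbs) *
      (∑ f : Fin 4, ∑ i : Fin 3, ∑ j : Fin 3, ∑ k : Fin 3, if i = j ∨ i = k ∨ j = k then 0 else
        f4D S a b d f (f.succAbove j) (f.succAbove k) (f.succAbove i)).re / 4 := by
  rw [pw_mC, ← Complex.re_ofReal_mul]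
  congr 2
  simp only [mul_sum]
  refine sum_congr rfl fun f _ => sum_congr rfl fun i _ => sum_congr rfl fun j _ =>
    sum_congr rfl fun k _ => ?_
  split_ifs with hc
  · rw [mul_zero]
  · have hu : ∀ i x, (c f).u i x = fun r => S.H f (f.succAbove i) r x :=
      fun i x => funext fun r => h f i x r
    simp only [not_or] at hc
    simp only [hu]
    rw [f4_prod S a b d (Fin.ne_succAbove f j) (Fin.ne_succAbove f k) (Fin.ne_succAbove f i)
      (Fin.succAbove_right_injective.ne hc.2.2) (Fin.succAbove_right_injective.ne (Ne.symm hc.1))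
      (Fin.succAbove_right_injective.ne (Ne.symm hc.2.1)), Complex.ofReal_pow]

theorem f4_sum (Φ : Fin 4 → Fin 4 → Fin 4 → Fin 4 → ℂ) :
    (∑ f : Fin 4, ∑ i : Fin 3, ∑ j : Fin 3, ∑ k : Fin 3, if i = j ∨ i = k ∨ j = k then 0 else
      Φ f (f.succAbove j) (f.succAbove k) (f.succAbove i)) =
    ∑ f : Fin 4, ∑ i : Fin 3, ∑ j : Fin 3, ∑ k : Fin 3, if i = j ∨ i = k ∨ j = k then 0 else
      Φ (f.succAbove j) f (f.succAbove k) (f.succAbove i) := by
  have h00 : (0 : Fin 4).succAbove 0 = 1 := rfl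
  have h01 : (0 : Fin 4).succAbove 1 = 2 := rfl
  have h02 : (0 : Fin 4).succAbove 2 = 3 := rfl
  have h10 : (1 : Fin 4).succAbove 0 = 0 := rfl
  have h11 : (1 : Fin 4).succAbove 1 = 2 := rfl
  have h12 : (1 : Fin 4).succAbove 2 = 3 := rfl
  have h20 : (2 : Fin 4).succAbove 0 = 0 := rfl
  have h21 : (2 : Fin 4).succAbove 1 = 1 := rfl
  have h22 : (2 : Fin 4).succAbove 2 = 3 := rfl
  have h30 : (3 : Fin 4).succAbove 0 = 0 := rfl
  have h31 : (3 : Fin 4).succAbove 1 = 1 := rfl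
  have h32 : (3 : Fin 4).succAbove 2 = 2 := rfl
  simp only [Fin.sum_univ_four, Fin.sum_univ_three, h00, h01, h02, h10, h11, h12, h20, h21, h22,
    h30, h31, h32, Fin.reduceEq, true_or, or_true, or_self, if_true, if_false, zero_add, add_zero]
  ring

theorem f1111_of_sys (S : Sys) (c : Fin 4 → Cfg 3) (h : S.Frames c) (a b d : ℤ) :
    √6 ^ (b.natAbs + (a + b).natAbs) * pw (mC c) (L1111 a b d) 0 0 =
      √6 ^ (d.natAbs + (a - d).natAbs) * pw (mC c) (L1111 (-a) d b) 0 0 := by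
  rw [f4_pw S c h, f4_pw S c h, f4_sum (f4D S (-a) d b)]
  simp only [f4_swap S a b d (Fin.ne_succAbove _ _)]
  rw [show -a - b = -(a + b) by ring, Int.natAbs_neg, add_comm d b]
  ring

end Vale.Agent.P355
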