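import Vale.Agent.P355.AxPw

/-! The change of frame identity for two points in one matrix. -/

namespace Vale.Agent.P355

open Finset

namespace F221

variable (S : Sys) {f g h : Fin 4}

theorem conj_eq (hfg : f ≠ g) (x y : Fin 6) :
    (starRingEnd ℂ) (S.H f g x y) = (S.H f g x y)⁻¹ :=
  (Complex.inv_eq_conj (S.uni f g hfg x y)).symm

theorem inv_eq (hfg : f ≠ g) (x y : Fin 6) : (S.H f g x y)⁻¹ = S.H g f y x := by
  rw [S.adj f g x y, conj_eq S hfg]

theorem step (hfg : f ≠ g) (hfh : f ≠ h) (hgh : g ≠ h) (x z : Fin 6) (n : ℤ) :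
    (∑ r, S.H f g r x ^ (-n.sign) * S.H f h r z ^ n.sign) ^ n.natAbs =
      ((√6 : ℝ) : ℂ) ^ n.natAbs * S.H g h x z ^ n := by
  rcases lt_trichotomy n 0 with hn | rfl | hn
  · obtain ⟨k, rfl⟩ := Int.exists_eq_neg_ofNat hn.le
    rw [Int.sign_eq_neg_one_of_neg hn, Int.natAbs_neg, Int.natAbs_natCast, zpow_neg, zpow_natCast,
      ← inv_pow, ← mul_pow, inv_eq S hgh, ← S.comp h f g hfh.symm hfg hgh.symm]
    simp only [neg_neg, zpow_one, zpow_neg, inv_eq S hfh, mul_comm]
  · simp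
  · obtain ⟨k, rfl⟩ := Int.eq_ofNat_of_zero_le hn.le
    rw [Int.sign_eq_one_of_pos hn, Int.natAbs_natCast, zpow_natCast, ← mul_pow,
      ← S.comp g f h hfg.symm hfh hgh]
    simp only [zpow_one, zpow_neg, inv_eq S hfg]

theorem edge1 (u v w : Fin 6 → ℂ) (n : ℤ) : ((edge n (-1) 0).map (PS u v w)).prod =
    (∑ r, u r ^ (-n.sign) * w r ^ n.sign) ^ n.natAbs := by
  simp [edge, PS]

theorem edge2 (u v w : Fin 6 → ℂ) (n : ℤ) : ((edge n 0 (-1)).map (PS u v w)).prod =
    (∑ r, v r ^ (-n.sign) * w r ^ n.sign) ^ n.natAbs := by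
  simp [edge, PS]

/-- the summand of the closed diagram -/
noncomputable def tm (p q r s : ℤ) (f g h : Fin 4) (z : Fin 6) (a b : Fin 6 × Fin 6) : ℂ :=
  S.H f g b.1 a.1 ^ p * S.H f g b.1 a.2 ^ q * S.H f h b.1 z ^ (-p - q) *
    (S.H f g b.2 a.1 ^ r * S.H f g b.2 a.2 ^ s * S.H f h b.2 z ^ (-r - s)) *
    (S.H g h a.1 z ^ (p + r) * S.H g h a.2 z ^ (q + s))

/-- the closed diagram -/
noncomputable def D (p q r s : ℤ) (f g h : Fin 4) : ℂ := ∑ z, ∑ a, ∑ b, tm S p q r s f g h z a b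

theorem conj_D (hfg : f ≠ g) (hfh : f ≠ h) (hgh : g ≠ h) (p q r s : ℤ) :
    (starRingEnd ℂ) (D S p q r s f g h) = D S p r q s g f h := by
  simp only [D, map_sum]
  refine sum_congr rfl fun z _ => ?_
  rw [sum_comm]
  refine sum_congr rfl fun b _ => sum_congr rfl fun a _ => ?_
  simp only [tm, map_mul, map_zpow₀, conj_eq S hfg, conj_eq S hfh, conj_eq S hgh, inv_eq S hfg,
    inv_zpow', neg_sub, neg_add', sub_neg_eq_add, add_comm q p, add_comm s r]
  ring

theorem sum_eq (hfg : f ≠ g) (hfh : f ≠ h) (hgh : g ≠ h) (p q r s : ℤ) :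
    ∑ x, ∑ y, ∑ z, ((L221 p q r s).map
      (PS (fun t => S.H f g t x) (fun t => S.H f g t y) fun t => S.H f h t z)).prod =
      ((√6 ^ ((p + r).natAbs + (q + s).natAbs) : ℝ) : ℂ) * D S p q r s f g h := by
  rw [D, sum_comm (γ := Fin 6) (α := Fin 6 × Fin 6), Fintype.sum_prod_type]
  simp only [mul_sum]
  refine sum_congr rfl fun x _ => sum_congr rfl fun y _ => sum_congr rfl fun z _ => ?_
  simp only [L221, List.map_append, List.prod_append, edge1, edge2, step S hfg hfh hgh,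
    List.map_cons, List.map_nil, List.prod_cons, List.prod_nil, mul_one, PS,
    Fintype.sum_prod_type, tm]
  rw [sum_mul_sum]
  simp only [sum_mul]
  refine sum_congr rfl fun a _ => sum_congr rfl fun b _ => ?_
  push_cast
  ring

theorem reindex (F : Fin 4 → Fin 4 → Fin 4 → ℂ) :
    (∑ f : Fin 4, ∑ i : Fin 3, ∑ j : Fin 3,
      if i = j then 0 else F f (f.succAbove j) (f.succAbove i)) =
      ∑ f, ∑ g, ∑ h, if f = g ∨ f = h ∨ g = h then 0 else F f g h := by
  refine sum_congr rfl fun f _ => ?_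
  rw [Fin.sum_univ_succAbove _ f, sum_comm]
  simp only [true_or, if_true, sum_const_zero, zero_add]
  refine sum_congr rfl fun j _ => ?_
  rw [Fin.sum_univ_succAbove _ f]
  simp only [true_or, or_true, if_true, zero_add, (Fin.succAbove_ne f _).symm, false_or,
    Fin.succAbove_right_inj, eq_comm]

/-- the sum over ordered triples of distinct bases -/
noncomputable def T (p q r s : ℤ) : ℝ :=
  (∑ f, ∑ g, ∑ h, if f = g ∨ f = h ∨ g = h then 0 else D S p q r s f g h).re

theorem T_swap (p q r s : ℤ) : T S p q r s = T S p r q s := by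
  rw [T, T, ← Complex.conj_re, sum_comm]
  simp only [map_sum]
  congr 1
  refine sum_congr rfl fun g _ => sum_congr rfl fun f _ => sum_congr rfl fun h _ => ?_
  by_cases hc : f = g ∨ f = h ∨ g = h
  · rw [if_pos hc, if_pos (by tauto), map_zero]
  · rw [if_neg hc, if_neg (by tauto), conj_D S (by tauto) (by tauto) (by tauto)]

theorem pw_eq (c : Fin 4 → Cfg 3) (hc : S.Frames c) (p q r s : ℤ) :
    pw (mB c) (L221 p q r s) 0 0 = √6 ^ ((p + r).natAbs + (q + s).natAbs) * T S p q r s / 4 := by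
  have e : ∀ f i k, (c f).u i k = fun t => S.H f (f.succAbove i) t k :=
    fun f i k => funext fun t => hc f i k t
  rw [pw_mB, T, ← Complex.re_ofReal_mul, ← reindex]
  simp only [e, mul_sum]
  congr 2
  refine sum_congr rfl fun f _ => sum_congr rfl fun i _ => sum_congr rfl fun j _ => ?_
  split_ifs with hij
  · rw [mul_zero]
  · exact sum_eq S (Fin.succAbove_ne f _).symm (Fin.succAbove_ne f _).symm
      (fun h => hij (Fin.succAbove_right_inj.1 h).symm) p q r s

end F221

theorem f221_of_sys (S : Sys) (c : Fin 4 → Cfg 3) (h : S.Frames c) (p q r s : ℤ) :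
    √6 ^ ((p + q).natAbs + (r + s).natAbs) * pw (mB c) (L221 p q r s) 0 0 =
      √6 ^ ((p + r).natAbs + (q + s).natAbs) * pw (mB c) (L221 p r q s) 0 0 := by
  rw [F221.pw_eq S c h, F221.pw_eq S c h, F221.T_swap S p q r s]
  ring

end Vale.Agent.P355
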