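import Vale.Agent.P355.AxPw

/-! The change of frame identity for three points in one matrix. -/

namespace Vale.Agent.P355

open Finset

namespace F33X

/-- the moment of one transition matrix -/
noncomputable def Val (M : Fin 6 → Fin 6 → ℂ) (p q r s : ℤ) : ℂ :=
  ∑ x : Fin 6 × Fin 6 × Fin 6, ∑ a : Fin 6 × Fin 6 × Fin 6,
    (M a.1 x.1 ^ p * M a.1 x.2.1 ^ q * M a.1 x.2.2 ^ (-p - q)) *
    (M a.2.1 x.1 ^ r * M a.2.1 x.2.1 ^ s * M a.2.1 x.2.2 ^ (-r - s)) *
    (M a.2.2 x.1 ^ (-p - r) * M a.2.2 x.2.1 ^ (-q - s) * M a.2.2 x.2.2 ^ (p + q + r + s))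

theorem val_eq (M : Fin 6 → Fin 6 → ℂ) (p q r s : ℤ) :
    ∑ x, ∑ y, ∑ z, ((L33 p q r s).map
      (PS (fun a => M a x) (fun a => M a y) (fun a => M a z))).prod = Val M p q r s := by
  simp only [Val, Fintype.sum_prod_type]
  refine sum_congr rfl fun x _ => sum_congr rfl fun y _ => sum_congr rfl fun z _ => ?_
  simp only [L33, List.map_cons, List.map_nil, List.prod_cons, List.prod_nil, mul_one, PS]
  rw [show -(-p - r) - (-q - s) = p + q + r + s by ring]
  rw [sum_mul]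
  refine sum_congr rfl fun a _ => ?_
  rw [sum_mul_sum, mul_sum]
  refine sum_congr rfl fun b _ => ?_
  rw [mul_sum]
  refine sum_congr rfl fun c _ => ?_
  ring

theorem val_adj (M : Fin 6 → Fin 6 → ℂ) (p q r s : ℤ) :
    Val (fun a x => (starRingEnd ℂ) (M x a)) p r q s = (starRingEnd ℂ) (Val M p q r s) := by
  simp only [Val, map_sum, map_mul, map_zpow₀]
  rw [sum_comm, show p + r + q + s = p + q + r + s by ring]
  refine sum_congr rfl fun x _ => sum_congr rfl fun a _ => ?_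
  ring

theorem sum_pairs (Φ : Fin 4 → Fin 4 → ℂ) :
    ∑ f : Fin 4, ∑ i : Fin 3, Φ f (f.succAbove i) = ∑ f, ∑ g, Φ f g - ∑ f, Φ f f := by
  rw [← sum_sub_distrib]
  refine sum_congr rfl fun f _ => ?_
  rw [Fin.sum_univ_succAbove _ f]
  ring

theorem pw_eq (S : Sys) (c : Fin 4 → Cfg 3) (h : S.Frames c) (p q r s : ℤ) :
    pw (mA c) (L33 p q r s) 0 0 =
      (∑ f, ∑ g, Val (S.H f g) p q r s - ∑ f, Val (S.H f f) p q r s).re / 4 := by
  rw [pw_mA, ← sum_pairs fun f g => Val (S.H f g) p q r s]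
  have h1 : ∀ f i k, (c f).u i k = fun a => S.H f (f.succAbove i) a k :=
    fun f i k => funext (h f i k)
  simp only [h1, val_eq]

end F33X

theorem f33_of_sys (S : Sys) (c : Fin 4 → Cfg 3) (h : S.Frames c) (p q r s : ℤ) :
    pw (mA c) (L33 p q r s) 0 0 = pw (mA c) (L33 p r q s) 0 0 := by
  have h1 : ∀ f g, F33X.Val (S.H g f) p r q s = (starRingEnd ℂ) (F33X.Val (S.H f g) p q r s) := by
    intro f g
    rw [← F33X.val_adj]
    congr 1
    funext a x
    exact S.adj f g x a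
  rw [F33X.pw_eq S c h, F33X.pw_eq S c h, sum_comm (f := fun f g => F33X.Val (S.H f g) p r q s)]
  simp only [h1, ← map_sum, ← map_sub, Complex.conj_re]

end Vale.Agent.P355
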