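import Vale.Agent.P355.Defs

/-! P355: linear identities between the moments. -/

namespace Vale.Agent.P355

open Finset

namespace LinP

variable {m : ℕ}

theorem u_ne (c : Cfg m) (i : Fin m) (k r : Fin 6) : c.u i k r ≠ 0 := by
  intro h
  have := c.uni i k r
  rw [h, norm_zero] at this
  exact zero_ne_one this

theorem conj_u (c : Cfg m) (i : Fin m) (k r : Fin 6) :
    (starRingEnd ℂ) (c.u i k r) = (c.u i k r)⁻¹ :=
  (Complex.inv_eq_conj (c.uni i k r)).symm

theorem mon_add (c : Cfg m) (i : Fin m) (k : Fin 6) (a b : V) :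
    mon (c.u i k) (a + b) = mon (c.u i k) a * mon (c.u i k) b := by
  unfold mon
  rw [← prod_mul_distrib]
  exact prod_congr rfl fun r _ => zpow_add₀ (u_ne c i k r) _ _

theorem mon_neg (c : Cfg m) (i : Fin m) (k : Fin 6) (a : V) :
    mon (c.u i k) (-a) = (starRingEnd ℂ) (mon (c.u i k) a) := by
  unfold mon
  rw [map_prod]
  refine prod_congr rfl fun r _ => ?_
  rw [map_zpow₀, conj_u, Pi.neg_apply, zpow_neg, inv_zpow]

theorem mon_e (w : Fin 6 → ℂ) (r : Fin 6) : mon w (e r) = w r := by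
  unfold mon e
  rw [prod_eq_single r]
  · simp
  · intro b _ hb
    simp [hb]
  · simp

theorem mon_add_e (c : Cfg m) (i : Fin m) (k : Fin 6) (a : V) (r : Fin 6) :
    mon (c.u i k) (a + e r) = mon (c.u i k) a * c.u i k r := by
  rw [mon_add, mon_e]

theorem mon_sub_e (c : Cfg m) (i : Fin m) (k : Fin 6) (a : V) (r : Fin 6) :
    mon (c.u i k) (a - e r) = mon (c.u i k) a * (starRingEnd ℂ) (c.u i k r) := by
  rw [sub_eq_add_neg, mon_add, mon_neg, mon_e]

theorem g_zero (c : Cfg m) (i : Fin m) : c.g i 0 = 6 := by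
  simp [Cfg.g, mon]

theorem F_zero (c : Cfg m) : c.F 0 = 6 * m := by
  simp [Cfg.F, g_zero, mul_comm]

theorem g_neg (c : Cfg m) (i : Fin m) (a : V) : c.g i (-a) = (starRingEnd ℂ) (c.g i a) := by
  simp only [Cfg.g, map_sum, mon_neg]

theorem F_neg (c : Cfg m) (a : V) : c.F (-a) = (starRingEnd ℂ) (c.F a) := by
  simp only [Cfg.F, map_sum, g_neg]

theorem L1 (c : Cfg m) (i : Fin m) (x y : V) :
    ∑ r, c.g i (x + e r) * c.g i (y - e r) = 6 * c.g i (x + y) := by
  have h : ∀ k l, ∑ r, mon (c.u i k) (x + e r) * mon (c.u i l) (y - e r) =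
      mon (c.u i k) x * mon (c.u i l) y * if k = l then 6 else 0 := by
    intro k l
    rw [← c.orth i k l, mul_sum]
    refine sum_congr rfl fun r _ => ?_
    rw [mon_add_e, mon_sub_e]
    ring
  simp only [Cfg.g, sum_mul_sum]
  rw [sum_comm, mul_sum]
  refine sum_congr rfl fun k _ => ?_
  rw [sum_comm]
  simp only [h]
  rw [sum_eq_single k]
  · rw [if_pos rfl, mon_add]
    ring
  · intro b _ hb
    rw [if_neg (Ne.symm hb), mul_zero]
  · simp

theorem L2 (c : Cfg m) (i j : Fin m) (x z : V) :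
    ∑ r, ∑ t, c.g i (x + e r - e t) * c.g j (z - e r + e t) =
      if i = j then 36 * c.g i (x + z) else 6 * c.g i x * c.g j z := by
  have h : ∀ k l, ∑ r, ∑ t, mon (c.u i k) (x + e r - e t) * mon (c.u j l) (z - e r + e t) =
      mon (c.u i k) x * mon (c.u j l) z * ((∑ r, c.u i k r * (starRingEnd ℂ) (c.u j l r)) *
        (starRingEnd ℂ) (∑ r, c.u i k r * (starRingEnd ℂ) (c.u j l r))) := by
    intro k l
    rw [map_sum, sum_mul_sum, mul_sum]
    refine sum_congr rfl fun r _ => ?_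
    rw [mul_sum]
    refine sum_congr rfl fun t _ => ?_
    rw [mon_sub_e, mon_add_e, mon_add_e, mon_sub_e, map_mul, Complex.conj_conj]
    ring
  have h2 : ∑ r, ∑ t, c.g i (x + e r - e t) * c.g j (z - e r + e t) =
      ∑ k, ∑ l, ∑ r, ∑ t, mon (c.u i k) (x + e r - e t) * mon (c.u j l) (z - e r + e t) := by
    simp only [Cfg.g, sum_mul_sum]
    calc _ = ∑ r, ∑ k, ∑ l, ∑ t,
          mon (c.u i k) (x + e r - e t) * mon (c.u j l) (z - e r + e t) := by
          refine sum_congr rfl fun r _ => ?_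
          rw [sum_comm]
          exact sum_congr rfl fun k _ => sum_comm
      _ = _ := by
          rw [sum_comm]
          exact sum_congr rfl fun k _ => sum_comm
  rw [h2]
  simp only [h]
  split_ifs with hij
  · subst hij
    simp only [c.orth, Cfg.g, mul_sum]
    refine sum_congr rfl fun k _ => ?_
    rw [sum_eq_single k]
    · rw [if_pos rfl, mon_add, map_ofNat]
      ring
    · intro b _ hb
      rw [if_neg (Ne.symm hb), zero_mul, mul_zero]
    · simp
  · have h3 : ∀ k l, (∑ r, c.u i k r * (starRingEnd ℂ) (c.u j l r)) *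
        (starRingEnd ℂ) (∑ r, c.u i k r * (starRingEnd ℂ) (c.u j l r)) = 6 := by
      intro k l
      rw [Complex.mul_conj, Complex.normSq_eq_norm_sq, c.unb i j k l hij]
      norm_num
    simp only [h3, Cfg.g]
    rw [mul_assoc, sum_mul_sum, mul_sum]
    refine sum_congr rfl fun k _ => ?_
    rw [mul_sum]
    exact sum_congr rfl fun l _ => by ring

theorem L2' (c : Cfg m) (i : Fin m) (x z : V) :
    ∑ r, ∑ t, c.g i (x + e r - e t) * c.F (z - e r + e t) =
      36 * c.g i (x + z) + 6 * c.g i x * (c.F z - c.g i z) := by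
  have h : ∑ r, ∑ t, c.g i (x + e r - e t) * c.F (z - e r + e t) =
      ∑ j, ∑ r, ∑ t, c.g i (x + e r - e t) * c.g j (z - e r + e t) := by
    simp only [Cfg.F, mul_sum]
    calc _ = ∑ r, ∑ j, ∑ t, c.g i (x + e r - e t) * c.g j (z - e r + e t) :=
          sum_congr rfl fun r _ => sum_comm
      _ = _ := sum_comm
  rw [h]
  simp only [L2]
  have h2 : ∀ j, (if i = j then 36 * c.g i (x + z) else 6 * c.g i x * c.g j z) =
      6 * c.g i x * c.g j z +
        if i = j then 36 * c.g i (x + z) - 6 * c.g i x * c.g i z else 0 := by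
    intro j
    split_ifs with hij
    · subst hij
      ring
    · ring
  simp only [h2, sum_add_distrib, sum_ite_eq, mem_univ, if_true, ← mul_sum, Cfg.F]
  ring

theorem L3 (c : Cfg m) (i : Fin m) (r t : Fin 6) (h : r ≠ t) : c.g i (e r - e t) = 0 := by
  let U : Matrix (Fin 6) (Fin 6) ℂ := Matrix.of fun k s => c.u i k s
  let W : Matrix (Fin 6) (Fin 6) ℂ := Matrix.of fun s l => (starRingEnd ℂ) (c.u i l s) / 6
  have h1 : U * W = 1 := by
    ext k l
    simp only [Matrix.mul_apply, U, W, Matrix.of_apply, ← mul_div_assoc, ← sum_div, c.orth,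
      Matrix.one_apply]
    split_ifs <;> norm_num
  have h2 : W * U = 1 := mul_eq_one_comm.1 h1
  have h3 := congrFun (congrFun h2 t) r
  simp only [Matrix.mul_apply, U, W, Matrix.of_apply, Matrix.one_apply, if_neg (Ne.symm h)] at h3
  have h4 : c.g i (e r - e t) = 6 * ∑ k, (starRingEnd ℂ) (c.u i k t) / 6 * c.u i k r := by
    rw [Cfg.g, mul_sum]
    refine sum_congr rfl fun k _ => ?_
    rw [mon_sub_e, mon_e]
    ring
  rw [h4, h3, mul_zero]

theorem e_comp (r : Fin 6) (σ : Equiv.Perm (Fin 6)) : e r ∘ σ = e (σ.symm r) := by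
  ext s
  simp only [e, Function.comp_apply, Pi.single_apply, Equiv.eq_symm_apply]

theorem add_comp' (a b : V) (σ : Equiv.Perm (Fin 6)) : (a + b) ∘ σ = a ∘ σ + b ∘ σ := rfl
theorem sub_comp' (a b : V) (σ : Equiv.Perm (Fin 6)) : (a - b) ∘ σ = a ∘ σ - b ∘ σ := rfl
theorem neg_comp' (a : V) (σ : Equiv.Perm (Fin 6)) : (-a) ∘ σ = -(a ∘ σ) := rfl
theorem zero_comp' (σ : Equiv.Perm (Fin 6)) : (0 : V) ∘ σ = 0 := rfl

theorem sym_avg (T : V → V → ℂ) (h1 : ∀ a b, T (-a) (-b) = (starRingEnd ℂ) (T a b))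
    (h2 : ∀ a b, T b a = T a b) : Sym (avg T) where
  perm φ hφ a b := by
    unfold avg
    rw [← Equiv.sum_comp (Equiv.mulLeft (Equiv.ofBijective φ hφ))
      (fun σ : Equiv.Perm (Fin 6) => (T (a ∘ σ) (b ∘ σ)).re)]
    rfl
  neg a b := by
    simp only [avg, neg_comp', h1, Complex.conj_re]
  swap a b := by
    simp only [avg, h2 (a ∘ _)]

theorem avg_o (T : V → V → ℂ) (h : ∀ x y, ∑ r, T (x + e r) (y - e r) = T 0 (x + y)) (x y : V) :
    ∑ r, avg T (x + e r) (y - e r) = avg T 0 (x + y) := by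
  simp only [avg, ← sum_div, add_comp', sub_comp', zero_comp', e_comp, ← h, Complex.re_sum]
  rw [sum_comm]
  refine congrArg (· / 720) (sum_congr rfl fun σ _ => ?_)
  exact Equiv.sum_comp σ.symm (fun r => (T (x ∘ σ + e r) (y ∘ σ - e r)).re)

theorem avg_u (T : V → V → ℂ) (x y : V) :
    ∑ r, ∑ t, avg T (x + e r - e t) y =
      (∑ σ : Equiv.Perm (Fin 6), (∑ r, ∑ t, T (x ∘ σ + e r - e t) (y ∘ σ)).re) / 720 := by
  simp only [avg, ← sum_div, add_comp', sub_comp', e_comp, Complex.re_sum]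
  refine congrArg (· / 720) ?_
  calc _ = ∑ r, ∑ σ : Equiv.Perm (Fin 6), ∑ t,
        (T (x ∘ σ + e (σ.symm r) - e (σ.symm t)) (y ∘ σ)).re :=
        sum_congr rfl fun r _ => sum_comm
    _ = _ := by
        rw [sum_comm]
        refine sum_congr rfl fun σ _ => ?_
        rw [← Equiv.sum_comp σ.symm
          (fun r => ∑ t, (T (x ∘ σ + e r - e t) (y ∘ σ)).re)]
        refine sum_congr rfl fun r _ => ?_
        exact Equiv.sum_comp σ.symm (fun t => (T (x ∘ σ + e (σ.symm r) - e t) (y ∘ σ)).re)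

theorem arg1 (x y : V) (r : Fin 6) : -(x + e r) - (y - e r) = -0 - (x + y) := by abel

theorem arg2 (x y : V) (r t : Fin 6) : -(x + e r - e t) - y = (-x - y) - e r + e t := by abel

theorem uB (c : Cfg m) (x y : V) : ∑ r, ∑ t, c.TB (x + e r - e t) y =
    6 * c.TA 0 y + 6 * c.TB x y - 6 * c.TA x y := by
  have h : ∑ r, ∑ t, c.TB (x + e r - e t) y =
      ∑ i, c.g i y * ∑ r, ∑ t, c.g i (x + e r - e t) * c.F ((-x - y) - e r + e t) := by
    simp only [Cfg.TB, arg2, mul_sum]
    calc _ = ∑ r, ∑ i, ∑ t, c.g i (x + e r - e t) * c.g i y * c.F ((-x - y) - e r + e t) :=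
          sum_congr rfl fun r _ => sum_comm
      _ = _ := by
          rw [sum_comm]
          exact sum_congr rfl fun i _ => sum_congr rfl fun r _ => sum_congr rfl fun t _ => by ring
  rw [h]
  simp only [L2', Cfg.TA, Cfg.TB, mul_sum, ← sum_add_distrib, ← sum_sub_distrib, g_zero]
  refine sum_congr rfl fun i _ => ?_
  have : x + (-x - y) = -0 - y := by abel
  rw [this]
  ring

theorem TB_zero (c : Cfg m) (y : V) : c.TB 0 y = 6 * c.F y * c.F (-y) := by
  simp only [Cfg.TB, g_zero, neg_zero, zero_sub, ← sum_mul, ← mul_sum]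
  rfl

theorem uC (c : Cfg m) (x y : V) : ∑ r, ∑ t, c.TC (x + e r - e t) y =
    6 * c.TB 0 y + 6 * c.TC x y - 6 * c.TB x (-x - y) := by
  have h : ∑ r, ∑ t, c.TC (x + e r - e t) y =
      ∑ i, c.F y * ∑ r, ∑ t, c.g i (x + e r - e t) * c.F ((-x - y) - e r + e t) := by
    have e1 : ∀ r t, c.TC (x + e r - e t) y =
        ∑ i, c.F y * (c.g i (x + e r - e t) * c.F ((-x - y) - e r + e t)) := by
      intro r t
      rw [← mul_sum, ← sum_mul, Cfg.TC, arg2]
      change _ = c.F y * (c.F (x + e r - e t) * _)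
      ring
    simp only [e1, mul_sum]
    calc _ = ∑ r, ∑ i, ∑ t, c.F y * (c.g i (x + e r - e t) * c.F ((-x - y) - e r + e t)) :=
          sum_congr rfl fun r _ => sum_comm
      _ = _ := sum_comm
  have e2 : x + (-x - y) = -y := by abel
  have e3 : -x - (-x - y) = y := by abel
  have e4 : ∀ i, c.F y * (36 * c.g i (-y) + 6 * c.g i x * (c.F (-x - y) - c.g i (-x - y))) =
      36 * c.F y * c.g i (-y) + 6 * c.F y * c.F (-x - y) * c.g i x -
        6 * (c.g i x * c.g i (-x - y) * c.F y) := fun i => by ring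
  rw [h, TB_zero]
  simp only [L2', e2, e4, sum_add_distrib, sum_sub_distrib, ← mul_sum, Cfg.TB, Cfg.TC, e3]
  change 36 * c.F y * c.F (-y) + 6 * c.F y * c.F (-x - y) * c.F x - _ = _
  ring

theorem re_comb (p q s : Equiv.Perm (Fin 6) → ℂ) :
    (∑ σ, (6 * p σ + 6 * q σ - 6 * s σ).re) / 720 =
      6 * ((∑ σ, (p σ).re) / 720) + 6 * ((∑ σ, (q σ).re) / 720) -
        6 * ((∑ σ, (s σ).re) / 720) := by
  have : ∀ σ, (6 * p σ + 6 * q σ - 6 * s σ).re = 6 * (p σ).re + 6 * (q σ).re - 6 * (s σ).re := by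
    intro σ
    simp
  simp only [this, sum_add_distrib, sum_sub_distrib, ← mul_sum]
  ring

theorem re_nat (k : ℕ) (p : Equiv.Perm (Fin 6) → ℂ) :
    (∑ σ, ((k : ℂ) * p σ).re) / 720 = k * ((∑ σ, (p σ).re) / 720) := by
  have : ∀ σ, ((k : ℂ) * p σ).re = k * (p σ).re := by
    intro σ
    simp
  simp only [this, ← mul_sum]
  ring

theorem arg3 (a b : V) : -(-a) - (-b) = -(-a - b) := by abel

theorem arg4 (a b : V) : -b - a = -a - b := by abel

theorem arg5 (a b : V) : -a - (-a - b) = b := by abel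

end LinP

open LinP in
theorem lin_of_cfg {m : ℕ} (c : Cfg m) : Lin m (avg c.TA) (avg c.TB) (avg c.TC) where
  symA := sym_avg _ (fun a b => by simp only [Cfg.TA, arg3, g_neg, map_sum, map_mul])
    (fun a b => by simp only [Cfg.TA, arg4 a b, mul_comm (c.g _ b)])
  symB := sym_avg _ (fun a b => by simp only [Cfg.TB, arg3, g_neg, F_neg, map_sum, map_mul])
    (fun a b => by simp only [Cfg.TB, arg4 a b, mul_comm (c.g _ b)])
  symC := sym_avg _ (fun a b => by simp only [Cfg.TC, arg3, F_neg, map_mul])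
    (fun a b => by simp only [Cfg.TC, arg4 a b, mul_comm (c.F b)])
  rotA a b := by
    simp only [avg, sub_comp', neg_comp', Cfg.TA, arg5, mul_right_comm (c.g _ (a ∘ _))]
  rotC a b := by
    simp only [avg, sub_comp', neg_comp', Cfg.TC, arg5, mul_right_comm (c.F (a ∘ _))]
  vA r t h b := by
    have : ∀ (σ : Equiv.Perm (Fin 6)) i, c.g i (e (σ.symm r) - e (σ.symm t)) = 0 :=
      fun σ i => L3 c i _ _ fun h' => h (σ.symm.injective h')
    simp [avg, sub_comp', e_comp, Cfg.TA, this]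
  vB r t h b := by
    have : ∀ (σ : Equiv.Perm (Fin 6)) i, c.g i (e (σ.symm r) - e (σ.symm t)) = 0 :=
      fun σ i => L3 c i _ _ fun h' => h (σ.symm.injective h')
    simp [avg, sub_comp', e_comp, Cfg.TB, this]
  oA := avg_o _ fun x y => by
    simp only [Cfg.TA, arg1, g_zero]
    rw [sum_comm]
    exact sum_congr rfl fun i _ => by rw [← sum_mul, L1]
  oB := avg_o _ fun x y => by
    simp only [Cfg.TB, arg1, g_zero]
    rw [sum_comm]
    exact sum_congr rfl fun i _ => by rw [← sum_mul, L1]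
  uB x y := by
    rw [avg_u]
    simp only [uB]
    exact re_comb _ _ _
  uC x y := by
    rw [avg_u]
    simp only [uC]
    exact re_comb _ _ _
  z1 x := by
    have h : ∀ a : V, c.TB a (-a) = m * c.TA a (-a) := by
      intro a
      simp only [Cfg.TB, Cfg.TA, sub_self, F_zero, g_zero, mul_sum]
      exact sum_congr rfl fun i _ => by ring
    simp only [avg, neg_comp', h]
    exact re_nat _ _
  z2 x := by
    have h : ∀ a : V, c.TC 0 a = m * c.TB 0 a := by
      intro a
      rw [TB_zero, Cfg.TC, F_zero, neg_zero, zero_sub]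
      ring
    simp only [avg, zero_comp', h]
    exact re_nat _ _

end Vale.Agent.P355
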