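import Vale.Agent.P355.Ax
import Vale.Agent.P355.LinP

/-! P355: the linear identities for three matrices. -/

namespace Vale.Agent.P355

open Finset

namespace AxLin

open LinP

theorem TA3 (c : Cfg 3) (a b : V) : c.TA a b = c.g 0 a * c.g 0 b * c.g 0 (-a - b) +
    c.g 1 a * c.g 1 b * c.g 1 (-a - b) + c.g 2 a * c.g 2 b * c.g 2 (-a - b) := by
  rw [Cfg.TA, Fin.sum_univ_three]

theorem SB3 (c : Cfg 3) (a b : V) : c.SB a b =
    c.g 1 a * c.g 1 b * c.g 0 (-a - b) + c.g 2 a * c.g 2 b * c.g 0 (-a - b) +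
    c.g 0 a * c.g 0 b * c.g 1 (-a - b) + c.g 2 a * c.g 2 b * c.g 1 (-a - b) +
    c.g 0 a * c.g 0 b * c.g 2 (-a - b) + c.g 1 a * c.g 1 b * c.g 2 (-a - b) := by
  simp only [Cfg.SB, Fin.sum_univ_three, Fin.isValue, Fin.reduceEq, ↓reduceIte]
  ring

theorem SC3 (c : Cfg 3) (a b : V) : c.SC a b =
    c.g 1 a * c.g 2 b * c.g 0 (-a - b) + c.g 2 a * c.g 1 b * c.g 0 (-a - b) +
    c.g 0 a * c.g 2 b * c.g 1 (-a - b) + c.g 2 a * c.g 0 b * c.g 1 (-a - b) +
    c.g 0 a * c.g 1 b * c.g 2 (-a - b) + c.g 1 a * c.g 0 b * c.g 2 (-a - b) := by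
  simp only [Cfg.SC, Fin.sum_univ_three, Fin.isValue, Fin.reduceEq, or_true, or_false,
    or_self, ↓reduceIte]
  ring

theorem U1 (c : Cfg 3) {i j : Fin 3} (h : j ≠ i) (x y : V) (w : ℂ) :
    ∑ r, ∑ t, c.g j (x + e r - e t) * w * c.g i (-(x + e r - e t) - y) =
      6 * (c.g j x * w * c.g i (-x - y)) := by
  have h1 := L2 c j i x (-x - y)
  rw [if_neg h] at h1
  simp only [arg2, mul_right_comm _ w, ← sum_mul]
  rw [h1]
  ring

theorem avg_congr {T T' : V → V → ℂ} (k : ℕ) {a b a' b' : V}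
    (h : ∀ σ : Equiv.Perm (Fin 6), T (a ∘ σ) (b ∘ σ) = k * T' (a' ∘ σ) (b' ∘ σ)) :
    avg T a b = k * avg T' a' b' := by
  simp only [avg, h]
  exact re_nat _ _

theorem avg_eq {T T' : V → V → ℂ} {a b a' b' : V}
    (h : ∀ σ : Equiv.Perm (Fin 6), T (a ∘ σ) (b ∘ σ) = T' (a' ∘ σ) (b' ∘ σ)) :
    avg T a b = avg T' a' b' := by
  simp only [avg, h]

theorem avg_van {T : V → V → ℂ} {a b : V}
    (h : ∀ σ : Equiv.Perm (Fin 6), T (a ∘ σ) (b ∘ σ) = 0) : avg T a b = 0 := by
  simp only [avg, h, Complex.zero_re, sum_const_zero, zero_div]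

theorem avg_six {T : V → V → ℂ}
    (h : ∀ x y, ∑ r, ∑ t, T (x + e r - e t) y = (6 : ℕ) * T x y) (x y : V) :
    ∑ r, ∑ t, avg T (x + e r - e t) y = 6 * avg T x y := by
  rw [avg_u]
  simp only [h]
  exact re_nat 6 _

theorem van (c : Cfg 3) {r t : Fin 6} (h : r ≠ t) (σ : Equiv.Perm (Fin 6)) (i : Fin 3) :
    c.g i ((e r - e t) ∘ σ) = 0 := by
  rw [sub_comp', e_comp, e_comp]
  exact L3 c i _ _ fun h' => h (σ.symm.injective h')

end AxLin

open LinP AxLin in
theorem axL_of_cfg (c : Cfg 3) : AxL (avg c.TA) (avg c.SB) (avg c.SC) where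
  symA := (lin_of_cfg c).symA
  symB := sym_avg _ (fun a b => by simp only [SB3, arg3, g_neg, map_add, map_mul])
    (fun a b => by
      rw [SB3, SB3, arg4 a b]
      ring)
  symC := sym_avg _ (fun a b => by simp only [SC3, arg3, g_neg, map_add, map_mul])
    (fun a b => by
      rw [SC3, SC3, arg4 a b]
      ring)
  rotA := (lin_of_cfg c).rotA
  rotC a b := avg_eq fun σ => by
    rw [sub_comp', neg_comp', SC3, SC3, arg5]
    ring
  vA := (lin_of_cfg c).vA
  vB r t h b := avg_van fun σ => by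
    simp only [SB3, van c h σ, zero_mul, add_zero]
  vB3 r t h a := avg_van fun σ => by
    rw [sub_comp' (-a), neg_comp', SB3, arg5]
    simp only [van c h σ, mul_zero, add_zero]
  vC r t h b := avg_van fun σ => by
    simp only [SC3, van c h σ, zero_mul, add_zero]
  oA := (lin_of_cfg c).oA
  oB := avg_o _ fun x y => by
    simp only [SB3, arg1, sum_add_distrib, ← sum_mul, L1, g_zero]
  uB := avg_six fun x y => by
    simp only [SB3, sum_add_distrib]
    rw [U1 c (by decide), U1 c (by decide), U1 c (by decide), U1 c (by decide), U1 c (by decide),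
      U1 c (by decide), Nat.cast_ofNat]
    ring
  uC := avg_six fun x y => by
    simp only [SC3, sum_add_distrib]
    rw [U1 c (by decide), U1 c (by decide), U1 c (by decide), U1 c (by decide), U1 c (by decide),
      U1 c (by decide), Nat.cast_ofNat]
    ring
  z1 x := avg_congr 2 fun σ => by
    rw [neg_comp', SB3, TA3, sub_self, g_zero, g_zero, g_zero, Nat.cast_ofNat]
    ring
  z2 x := avg_eq fun σ => by
    rw [zero_comp', SC3, SB3, g_zero, g_zero, g_zero]
    ring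

end Vale.Agent.P355
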