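import Vale.Agent.P355.Defs

namespace Vale.Agent.P355

open Finset

namespace PosP

lemma ne0 {w : Fin 6 → ℂ} (hw : ∀ r, ‖w r‖ = 1) (r : Fin 6) : w r ≠ 0 := by
  intro h; have := hw r; rw [h] at this; simp at this

lemma mon_add {w : Fin 6 → ℂ} (hw : ∀ r, ‖w r‖ = 1) (a b : V) :
    mon w (a + b) = mon w a * mon w b := by
  unfold mon
  rw [← prod_mul_distrib]
  exact prod_congr rfl fun r _ => zpow_add₀ (ne0 hw r) _ _

lemma norm_mon {w : Fin 6 → ℂ} (hw : ∀ r, ‖w r‖ = 1) (a : V) : ‖mon w a‖ = 1 := by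
  unfold mon
  simp [norm_prod, norm_zpow, hw]

lemma mon_neg {w : Fin 6 → ℂ} (hw : ∀ r, ‖w r‖ = 1) (a : V) :
    mon w (-a) = (starRingEnd ℂ) (mon w a) := by
  rw [← Complex.inv_eq_conj (norm_mon hw a)]
  unfold mon
  simp [prod_inv_distrib]

lemma mon_zero (w : Fin 6 → ℂ) : mon w 0 = 1 := by simp [mon]

lemma mon_e (w : Fin 6 → ℂ) (p : Fin 6) : mon w (e p) = w p := by
  unfold mon e
  rw [prod_eq_single p (fun r _ h => by rw [Pi.single_eq_of_ne h, zpow_zero]) (by simp)]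
  simp

variable {m : ℕ} (c : Cfg m)

lemma g_le (i : Fin m) (a : V) : ‖c.g i a‖ ≤ 6 := by
  refine (norm_sum_le _ _).trans ?_
  simp [norm_mon (c.uni i _)]

lemma F_le (a : V) : ‖c.F a‖ ≤ 6 * m := by
  refine (norm_sum_le _ _).trans ((sum_le_sum fun i _ => g_le c i a).trans ?_)
  simp [mul_comm]

lemma g_zero (i : Fin m) : c.g i 0 = 6 := by simp [Cfg.g, mon_zero]

lemma F_zero : c.F 0 = 6 * m := by simp [Cfg.F, g_zero, mul_comm]

lemma g_neg (i : Fin m) (a : V) : c.g i (-a) = (starRingEnd ℂ) (c.g i a) := by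
  simp [Cfg.g, mon_neg (c.uni i _)]

lemma F_neg (a : V) : c.F (-a) = (starRingEnd ℂ) (c.F a) := by
  simp [Cfg.F, g_neg]

lemma card_perm : Fintype.card (Equiv.Perm (Fin 6)) = 720 := by
  rw [Fintype.card_perm, Fintype.card_fin]; rfl

lemma avg_le {T : V → V → ℂ} {M : ℝ} (h : ∀ a b, ‖T a b‖ ≤ M) (a b : V) : |avg T a b| ≤ M := by
  unfold avg
  rw [abs_div, div_le_iff₀ (by norm_num)]
  refine (abs_sum_le_sum_abs _ _).trans ((sum_le_sum fun σ _ =>
    (Complex.abs_re_le_norm _).trans (h _ _)).trans ?_)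
  rw [sum_const, card_univ, card_perm, nsmul_eq_mul, mul_comm]
  norm_num

lemma avg_zero (T : V → V → ℂ) : avg T 0 0 = (T 0 0).re := by
  unfold avg
  rw [sum_congr rfl fun (σ : Equiv.Perm (Fin 6)) _ =>
    show (T ((0 : V) ∘ σ) ((0 : V) ∘ σ)).re = (T 0 0).re from rfl, sum_const,
    card_univ, card_perm, nsmul_eq_mul]
  push_cast
  ring

lemma psd_avg {T : V → V → ℂ} (h : Psd fun a b => (T a b).re) : Psd (avg T) := by
  intro ε hε n y a
  have h1 : 0 ≤ ∑ σ : Equiv.Perm (Fin 6), ∑ i, ∑ j, y i * y j *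
      ((T (a i ∘ σ) (-(a j ∘ σ))).re + ε * (T (a i ∘ σ) (a j ∘ σ)).re) :=
    sum_nonneg fun σ _ => h ε hε n y fun i => a i ∘ σ
  refine (div_nonneg h1 (show (0 : ℝ) ≤ 720 by norm_num)).trans (le_of_eq ?_)
  rw [sum_comm, sum_div]
  refine sum_congr rfl fun i _ => ?_
  rw [sum_comm, sum_div]
  refine sum_congr rfl fun j _ => ?_
  rw [← mul_sum, sum_add_distrib, ← mul_sum]
  unfold avg
  rw [show ∑ σ : Equiv.Perm (Fin 6), (T (a i ∘ σ) ((-a j) ∘ σ)).re
    = ∑ σ : Equiv.Perm (Fin 6), (T (a i ∘ σ) (-(a j ∘ σ))).re from rfl]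
  ring

lemma quad {h : V → ℂ} (hh : ∀ a, h (-a) = (starRingEnd ℂ) (h a)) (ε : ℝ) {n : ℕ} (y : Fin n → ℝ)
    (a : Fin n → V) :
    ∑ i, ∑ j, y i * y j * ((h (a i) * h (-a j)).re + ε * (h (a i) * h (a j)).re)
      = (1 + ε) * (∑ i, y i * (h (a i)).re) ^ 2 + (1 - ε) * (∑ i, y i * (h (a i)).im) ^ 2 := by
  rw [sq, sq, sum_mul_sum, sum_mul_sum]
  simp only [mul_sum, ← sum_add_distrib]
  refine sum_congr rfl fun i _ => sum_congr rfl fun j _ => ?_
  simp only [hh, Complex.mul_re, Complex.conj_re, Complex.conj_im]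
  ring

/-- twisted transform -/
noncomputable def hh (w : Fin m × Fin 6) (j : Fin m) (a : V) : ℂ :=
  c.g j a * mon (c.u w.1 w.2) (-a)

lemma hh_neg (w : Fin m × Fin 6) (j : Fin m) (a : V) :
    hh c w j (-a) = (starRingEnd ℂ) (hh c w j a) := by
  unfold hh
  rw [map_mul, g_neg, mon_neg (c.uni _ _)]

lemma F_split (a b : V) : c.F (-a - b)
    = ∑ w : Fin m × Fin 6, mon (c.u w.1 w.2) (-a) * mon (c.u w.1 w.2) (-b) := by
  rw [Fintype.sum_prod_type]
  refine sum_congr rfl fun i _ => sum_congr rfl fun k _ => ?_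
  rw [sub_eq_add_neg, mon_add (c.uni _ _)]

lemma TB_eq (a b : V) : c.TB a b = ∑ w, ∑ j, hh c w j a * hh c w j b := by
  unfold Cfg.TB
  rw [sum_comm, F_split]
  refine sum_congr rfl fun j _ => ?_
  rw [mul_sum]
  refine sum_congr rfl fun w _ => ?_
  unfold hh
  ring

lemma TC_eq (a b : V) : c.TC a b = ∑ w, (∑ j, hh c w j a) * ∑ j, hh c w j b := by
  unfold Cfg.TC
  rw [F_split, mul_sum]
  refine sum_congr rfl fun w _ => ?_
  unfold hh Cfg.F
  rw [← sum_mul, ← sum_mul]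
  ring

lemma comm3 {α β : Type*} [Fintype α] [Fintype β] (f : α → β → β → ℝ) :
    ∑ i, ∑ j, ∑ w, f w i j = ∑ w, ∑ i, ∑ j, f w i j := by
  rw [sum_comm (f := fun w i => ∑ j, f w i j)]
  exact sum_congr rfl fun i _ => sum_comm

lemma qC (ε : ℝ) {n : ℕ} (y : Fin n → ℝ) (a : Fin n → V) :
    ∑ i, ∑ j, y i * y j * ((c.TC (a i) (-a j)).re + ε * (c.TC (a i) (a j)).re)
      = ∑ w, ((1 + ε) * (∑ l, ∑ i, y i * (hh c w l (a i)).re) ^ 2
        + (1 - ε) * (∑ l, ∑ i, y i * (hh c w l (a i)).im) ^ 2) := by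
  have := fun w => quad (h := fun a => ∑ l, hh c w l a) (fun a => by simp [hh_neg]) ε y a
  simp only [Complex.re_sum, Complex.im_sum, mul_sum] at this
  simp only [sum_comm (γ := Fin m) (α := Fin n), ← this, ← comm3, TC_eq, Complex.re_sum, mul_sum,
    ← sum_add_distrib]

lemma qB (ε : ℝ) {n : ℕ} (y : Fin n → ℝ) (a : Fin n → V) :
    ∑ i, ∑ j, y i * y j * ((c.TB (a i) (-a j)).re + ε * (c.TB (a i) (a j)).re)
      = ∑ w, ∑ l, ((1 + ε) * (∑ i, y i * (hh c w l (a i)).re) ^ 2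
        + (1 - ε) * (∑ i, y i * (hh c w l (a i)).im) ^ 2) := by
  simp only [← fun w l => quad (hh_neg c w l) ε y a, ← comm3, TB_eq, Complex.re_sum, mul_sum,
    ← sum_add_distrib]

lemma psdC : Psd fun a b => (c.TC a b).re := by
  intro ε hε n y a
  rw [qC]
  refine sum_nonneg fun w _ => ?_
  rcases hε with rfl | rfl <;> positivity

lemma psdS : Psd fun a b => ((m : ℂ) * c.TB a b - c.TC a b).re := by
  intro ε hε n y a
  have e : ∑ i, ∑ j, y i * y j * (((m : ℂ) * c.TB (a i) (-a j) - c.TC (a i) (-a j)).re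
      + ε * ((m : ℂ) * c.TB (a i) (a j) - c.TC (a i) (a j)).re)
      = m * ∑ i, ∑ j, y i * y j * ((c.TB (a i) (-a j)).re + ε * (c.TB (a i) (a j)).re)
        - ∑ i, ∑ j, y i * y j * ((c.TC (a i) (-a j)).re + ε * (c.TC (a i) (a j)).re) := by
    simp only [mul_sum, ← sum_sub_distrib]
    refine sum_congr rfl fun i _ => sum_congr rfl fun j _ => ?_
    simp only [Complex.sub_re, Complex.mul_re, Complex.natCast_re, Complex.natCast_im]
    ring
  rw [e, qB, qC, mul_sum, ← sum_sub_distrib]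
  refine sum_nonneg fun w _ => ?_
  have h1 := sq_sum_le_card_mul_sum_sq (s := univ) (f := fun l => ∑ i, y i * (hh c w l (a i)).re)
  have h2 := sq_sum_le_card_mul_sum_sq (s := univ) (f := fun l => ∑ i, y i * (hh c w l (a i)).im)
  rw [card_univ, Fintype.card_fin] at h1 h2
  rw [sum_add_distrib, ← mul_sum, ← mul_sum]
  rcases hε with rfl | rfl <;> linarith

lemma F_four (p q r t : Fin 6) : c.F (e p + e q - e r - e t) = ∑ w : Fin m × Fin 6,
    c.u w.1 w.2 p * c.u w.1 w.2 q * (starRingEnd ℂ) (c.u w.1 w.2 r)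
      * (starRingEnd ℂ) (c.u w.1 w.2 t) := by
  rw [Fintype.sum_prod_type]
  refine sum_congr rfl fun i _ => sum_congr rfl fun k _ => ?_
  have h := c.uni i k
  rw [sub_eq_add_neg, sub_eq_add_neg, mon_add h, mon_add h, mon_add h, mon_neg h, mon_neg h]
  simp only [mon_e]

lemma S_eq : ∑ x : Fin 6 × Fin 6 × Fin 6 × Fin 6, ‖c.F (e x.1 + e x.2.1 - e x.2.2.1 - e x.2.2.2)‖ ^ 2
    = ∑ w : Fin m × Fin 6, ∑ w' : Fin m × Fin 6,
      (‖∑ r, c.u w.1 w.2 r * (starRingEnd ℂ) (c.u w'.1 w'.2 r)‖ ^ 2) ^ 2 := by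
  apply Complex.ofReal_injective
  push_cast
  simp only [← Complex.mul_conj', F_four, map_sum, map_mul, Complex.conj_conj]
  simp only [sum_mul_sum (s := (univ : Finset (Fin m × Fin 6)))]
  rw [sum_comm]
  refine sum_congr rfl fun w _ => ?_
  rw [sum_comm]
  refine sum_congr rfl fun w' _ => ?_
  set A := ∑ r, c.u w.1 w.2 r * (starRingEnd ℂ) (c.u w'.1 w'.2 r) with hA
  set B := ∑ r, (starRingEnd ℂ) (c.u w.1 w.2 r) * c.u w'.1 w'.2 r with hB
  rw [show (A * B) ^ 2 = B * (B * (A * A)) by ring, hA, hB]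
  simp only [Fintype.sum_prod_type, sum_mul, mul_sum]
  refine sum_congr rfl fun p _ => sum_congr rfl fun q _ => sum_congr rfl fun r _ =>
    sum_congr rfl fun t _ => by ring

lemma F_van (c : Cfg 6) (p q r t : Fin 6) (h : e p + e q - e r - e t ≠ 0) :
    c.F (e p + e q - e r - e t) = 0 := by
  have h1 := S_eq c
  have h2 : ∀ w w' : Fin 6 × Fin 6,
      (‖∑ r, c.u w.1 w.2 r * (starRingEnd ℂ) (c.u w'.1 w'.2 r)‖ ^ 2) ^ 2
        = if w.1 = w'.1 then (if w.2 = w'.2 then 1296 else 0) else 36 := by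
    rintro ⟨i, k⟩ ⟨j, l⟩
    by_cases e1 : i = j
    · subst e1
      rw [c.orth]
      by_cases e2 : k = l <;> simp [e2]
      norm_num
    · rw [c.unb i j k l e1]
      simp [e1]
      norm_num
  have h3 : ∑ w : Fin 6 × Fin 6, ∑ w' : Fin 6 × Fin 6,
      (if w.1 = w'.1 then (if w.2 = w'.2 then 1296 else 0) else 36 : ℝ) = 85536 := by
    simp only [Fintype.sum_prod_type]
    simp [Fin.sum_univ_six]
    norm_num
  simp only [h2, h3] at h1
  let P : Fin 6 × Fin 6 × Fin 6 × Fin 6 → Prop := fun x =>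
    (x.1 = x.2.2.1 ∧ x.2.1 = x.2.2.2) ∨ (x.1 = x.2.2.2 ∧ x.2.1 = x.2.2.1)
  have hP : ∀ x, P x → e x.1 + e x.2.1 - e x.2.2.1 - e x.2.2.2 = 0 := by
    rintro ⟨p, q, r, t⟩ (⟨h1, h2⟩ | ⟨h1, h2⟩) <;> simp only at h1 h2 <;> subst h1 h2 <;> simp
  have hc : (univ.filter P).card = 66 := by decide +kernel
  rw [← sum_filter_add_sum_filter_not univ P, sum_congr rfl fun x hx => by
    rw [hP x (mem_filter.1 hx).2], sum_const, hc, F_zero] at h1
  have h4 : ∑ x ∈ univ.filter (fun x => ¬ P x),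
      ‖c.F (e x.1 + e x.2.1 - e x.2.2.1 - e x.2.2.2)‖ ^ 2 = 0 := by
    norm_num at h1 ⊢
    linarith
  have h5 := (sum_eq_zero_iff_of_nonneg fun _ _ => sq_nonneg _).1 h4 (p, q, r, t)
    (mem_filter.2 ⟨mem_univ _, fun hx => h (hP _ hx)⟩)
  simpa using h5

lemma e_comp (p : Fin 6) (σ : Equiv.Perm (Fin 6)) : e p ∘ σ = e (σ.symm p) := by
  funext r
  simp only [e, Function.comp, Pi.single_apply, Equiv.eq_symm_apply]

lemma F_van' (c : Cfg 6) (p q r t : Fin 6) (h : e p + e q - e r - e t ≠ 0)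
    (σ : Equiv.Perm (Fin 6)) : c.F ((e p + e q - e r - e t) ∘ σ) = 0 := by
  have e1 : (e p + e q - e r - e t) ∘ σ
      = e (σ.symm p) + e (σ.symm q) - e (σ.symm r) - e (σ.symm t) := by
    simp only [← e_comp]; rfl
  rw [e1]
  refine F_van c _ _ _ _ fun h' => h (funext fun x => ?_)
  have := congrFun (e1.trans h') (σ.symm x)
  simpa using this

end PosP

open PosP

theorem pos_of_cfg {m : ℕ} (c : Cfg m) : Pos m (avg c.TA) (avg c.TB) (avg c.TC) := by
  have hg := g_le c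
  have hF := F_le c
  refine ⟨avg_le fun a b => ?_, avg_le fun a b => ?_, avg_le fun a b => ?_, ?_, ?_, ?_,
    psd_avg (psdC c), ?_⟩
  · refine (norm_sum_le _ _).trans ((sum_le_sum (g := fun _ => (6 * 6 * 6 : ℝ)) fun i _ => ?_).trans
      (le_of_eq (by simp; ring)))
    rw [norm_mul, norm_mul]
    gcongr <;> apply hg
  · refine (norm_sum_le _ _).trans ((sum_le_sum (g := fun _ => (6 * 6 * (6 * m) : ℝ))
      fun i _ => ?_).trans (le_of_eq (by simp; ring)))
    rw [norm_mul, norm_mul]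
    gcongr
    exacts [hg _ _, hg _ _, hF _]
  · refine le_trans ?_ (le_of_eq (show (6 * m * (6 * m) * (6 * m) : ℝ) = _ by ring))
    unfold Cfg.TC
    rw [norm_mul, norm_mul]
    gcongr <;> apply hF
  · rw [avg_zero]; simp [Cfg.TA, g_zero]; ring
  · rw [avg_zero]; simp [Cfg.TB, g_zero, F_zero]; ring
  · rw [avg_zero]; simp [Cfg.TC, F_zero]; ring
  · have := psd_avg (psdS c)
    convert this using 3 with a b
    unfold avg
    simp only [Complex.sub_re, Complex.mul_re, Complex.natCast_re, Complex.natCast_im, zero_mul,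
      sub_zero, sum_sub_distrib, ← mul_sum]
    ring

theorem van_of_cfg (c : Cfg 6) : Van (avg c.TB) (avg c.TC) := by
  refine ⟨fun p q r t h a => ?_, fun p q r t h b => ?_⟩
  · unfold avg
    rw [sum_eq_zero, zero_div]
    intro σ _
    have : -(a ∘ σ) - (-a - (e p + e q - e r - e t)) ∘ σ = (e p + e q - e r - e t) ∘ σ := by
      funext x; simp
    simp [Cfg.TB, this, F_van' c p q r t h σ]
  · unfold avg
    rw [sum_eq_zero, zero_div]
    intro σ _
    simp [Cfg.TC, F_van' c p q r t h σ]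

end Vale.Agent.P355
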