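import Vale.Agent.P355.Ax
import Vale.Agent.P355.PosP

namespace Vale.Agent.P355

open Finset PosP

namespace AxPos

variable (c : Cfg 3)

/-- kernel rooted at the third point -/
noncomputable def Kk (P Q : Fin 3 → V → ℂ) (a b : V) : ℂ := ∑ i, P i a * Q i b * c.g i (-a - b)

/-- twisted function -/
noncomputable def tw (P : Fin 3 → V → ℂ) (w : Fin 3 × Fin 6) (a : V) : ℂ :=
  P w.1 a * mon (c.u w.1 w.2) (-a)

lemma Kk_eq (P Q : Fin 3 → V → ℂ) (a b : V) : Kk c P Q a b = ∑ w, tw c P w a * tw c Q w b := by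
  rw [Fintype.sum_prod_type]
  refine sum_congr rfl fun i _ => ?_
  rw [Cfg.g, mul_sum]
  refine sum_congr rfl fun k _ => ?_
  rw [sub_eq_add_neg, mon_add (c.uni _ _), tw, tw]
  ring

lemma tw_neg {P : Fin 3 → V → ℂ} (hP : ∀ i a, P i (-a) = (starRingEnd ℂ) (P i a))
    (w : Fin 3 × Fin 6) (a : V) : tw c P w (-a) = (starRingEnd ℂ) (tw c P w a) := by
  rw [tw, tw, map_mul, hP, mon_neg (c.uni _ _)]

lemma quad2 (h : V → ℂ) {h' : V → ℂ} (hh : ∀ a, h' (-a) = (starRingEnd ℂ) (h' a)) (ε : ℝ)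
    {n k : ℕ} (x : Fin n → ℝ) (a : Fin n → V) (y : Fin k → ℝ) (b : Fin k → V) :
    ∑ i, ∑ j, x i * y j * ((h (a i) * h' (-b j)).re + ε * (h (a i) * h' (b j)).re)
      = (1 + ε) * ((∑ i, x i * (h (a i)).re) * ∑ j, y j * (h' (b j)).re)
        + (1 - ε) * ((∑ i, x i * (h (a i)).im) * ∑ j, y j * (h' (b j)).im) := by
  rw [sum_mul_sum, sum_mul_sum]
  simp only [mul_sum, ← sum_add_distrib]
  refine sum_congr rfl fun i _ => sum_congr rfl fun j _ => ?_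
  simp only [hh, Complex.mul_re, Complex.conj_re, Complex.conj_im]
  ring

lemma QF_Kk (P : Fin 3 → V → ℂ) {Q : Fin 3 → V → ℂ}
    (hQ : ∀ i a, Q i (-a) = (starRingEnd ℂ) (Q i a)) (ε : ℝ)
    {n k : ℕ} (x : Fin n → ℝ) (a : Fin n → V) (y : Fin k → ℝ) (b : Fin k → V) :
    QF (fun a b => (Kk c P Q a b).re) ε x a y b = ∑ w,
      ((1 + ε) * ((∑ i, x i * (tw c P w (a i)).re) * ∑ j, y j * (tw c Q w (b j)).re)
        + (1 - ε) * ((∑ i, x i * (tw c P w (a i)).im) * ∑ j, y j * (tw c Q w (b j)).im)) := by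
  simp only [← fun w => quad2 (tw c P w) (tw_neg c hQ w) ε x a y b]
  rw [sum_comm]
  refine sum_congr rfl fun i _ => ?_
  rw [sum_comm]
  refine sum_congr rfl fun j _ => ?_
  simp only [Kk_eq, Complex.re_sum, mul_sum, ← sum_add_distrib]

lemma QF_avg (T : V → V → ℂ) (ε : ℝ) {n k : ℕ} (x : Fin n → ℝ) (a : Fin n → V) (y : Fin k → ℝ)
    (b : Fin k → V) : QF (avg T) ε x a y b = (∑ σ : Equiv.Perm (Fin 6),
      QF (fun a b => (T a b).re) ε x (fun i => a i ∘ σ) y fun j => b j ∘ σ) / 720 := by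
  unfold QF
  rw [sum_comm (γ := Equiv.Perm (Fin 6)), sum_div]
  refine sum_congr rfl fun i _ => ?_
  rw [sum_comm (γ := Equiv.Perm (Fin 6)), sum_div]
  refine sum_congr rfl fun j _ => ?_
  rw [← mul_sum, sum_add_distrib, ← mul_sum]
  unfold avg
  rw [show ∑ σ : Equiv.Perm (Fin 6), (T (a i ∘ σ) ((-b j) ∘ σ)).re
    = ∑ σ : Equiv.Perm (Fin 6), (T (a i ∘ σ) (-(b j ∘ σ))).re from rfl]
  ring

/-- sum of the other two transforms -/
noncomputable def g2 (i : Fin 3) (a : V) : ℂ := c.g (i + 1) a + c.g (i + 2) a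

/-- difference of the other two transforms -/
noncomputable def g3 (i : Fin 3) (a : V) : ℂ := c.g (i + 1) a - c.g (i + 2) a

lemma g2_neg (i : Fin 3) (a : V) : g2 c i (-a) = (starRingEnd ℂ) (g2 c i a) := by
  simp [g2, g_neg]

lemma g3_neg (i : Fin 3) (a : V) : g3 c i (-a) = (starRingEnd ℂ) (g3 c i a) := by
  simp [g3, g_neg]

lemma SB_eq (a b : V) : c.SB a b =
    c.g 1 a * c.g 1 b * c.g 0 (-a - b) + c.g 2 a * c.g 2 b * c.g 0 (-a - b) +
    (c.g 0 a * c.g 0 b * c.g 1 (-a - b) + c.g 2 a * c.g 2 b * c.g 1 (-a - b)) +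
    (c.g 0 a * c.g 0 b * c.g 2 (-a - b) + c.g 1 a * c.g 1 b * c.g 2 (-a - b)) := by
  simp [Cfg.SB, Fin.sum_univ_three]

lemma SC_eq (a b : V) : c.SC a b =
    c.g 1 a * c.g 2 b * c.g 0 (-a - b) + c.g 2 a * c.g 1 b * c.g 0 (-a - b) +
    (c.g 0 a * c.g 2 b * c.g 1 (-a - b) + c.g 2 a * c.g 0 b * c.g 1 (-a - b)) +
    (c.g 0 a * c.g 1 b * c.g 2 (-a - b) + c.g 1 a * c.g 0 b * c.g 2 (-a - b)) := by
  simp [Cfg.SC, Fin.sum_univ_three]

lemma k12 (a b : V) : c.SB a (-a - b) = Kk c c.g (g2 c) a b := by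
  rw [SB_eq, show -a - (-a - b) = b by abel]
  simp only [Kk, g2, Fin.sum_univ_three, Fin.reduceAdd]
  ring

lemma k22 (a b : V) : c.SB a b + c.SC a b = Kk c (g2 c) (g2 c) a b := by
  rw [SB_eq, SC_eq]
  simp only [Kk, g2, Fin.sum_univ_three, Fin.reduceAdd]
  ring

lemma k33 (a b : V) : c.SB a b - c.SC a b = Kk c (g3 c) (g3 c) a b := by
  rw [SB_eq, SC_eq]
  simp only [Kk, g3, Fin.sum_univ_three, Fin.reduceAdd]
  ring

lemma n3 (i j k : Fin 3) (a b d : V) : ‖c.g i a * c.g j b * c.g k d‖ ≤ 216 := by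
  rw [norm_mul, norm_mul, show (216 : ℝ) = 6 * 6 * 6 by norm_num]
  gcongr <;> apply g_le

lemma n6 {z1 z2 z3 z4 z5 z6 : ℂ} (h1 : ‖z1‖ ≤ 216) (h2 : ‖z2‖ ≤ 216) (h3 : ‖z3‖ ≤ 216)
    (h4 : ‖z4‖ ≤ 216) (h5 : ‖z5‖ ≤ 216) (h6 : ‖z6‖ ≤ 216) :
    ‖z1 + z2 + (z3 + z4) + (z5 + z6)‖ ≤ 1296 := by
  have := norm_add₃_le (a := z1 + z2) (b := z3 + z4) (c := z5 + z6)
  linarith [norm_add_le z1 z2, norm_add_le z3 z4, norm_add_le z5 z6]

end AxPos

open AxPos

theorem axP_of_cfg (c : Cfg 3) : AxP (avg c.TA) (avg c.SB) (avg c.SC) := by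
  refine ⟨avg_le fun a b => ?_, avg_le fun a b => ?_, avg_le fun a b => ?_, ?_, ?_, ?_, ?_, ?_⟩
  · refine (norm_sum_le _ _).trans ((sum_le_sum fun i _ => n3 c i i i _ _ _).trans ?_)
    norm_num
  · rw [SB_eq]
    exact n6 (n3 ..) (n3 ..) (n3 ..) (n3 ..) (n3 ..) (n3 ..)
  · rw [SC_eq]
    exact n6 (n3 ..) (n3 ..) (n3 ..) (n3 ..) (n3 ..) (n3 ..)
  · rw [avg_zero]; simp [Cfg.TA, g_zero]; norm_num
  · rw [avg_zero, SB_eq]; simp [g_zero]; norm_num
  · rw [avg_zero, SC_eq]; simp [g_zero]; norm_num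
  · intro ε hε n k x a y b
    have e1 : avg c.TA = avg (Kk c c.g c.g) := rfl
    have e2 : (fun a b => avg c.SB a (-a - b)) = avg (Kk c c.g (g2 c)) := by
      funext a b
      simp only [avg, ← k12]
      rfl
    have e3 : (fun a b => avg c.SB a b + avg c.SC a b) = avg (Kk c (g2 c) (g2 c)) := by
      funext a b
      simp only [avg, ← k22, Complex.add_re, sum_add_distrib, add_div]
    rw [e1, e2, e3, QF_avg, QF_avg, QF_avg, ← mul_div_assoc, ← add_div, ← add_div, mul_sum,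
      ← sum_add_distrib, ← sum_add_distrib]
    refine div_nonneg (sum_nonneg fun σ _ => ?_) (by norm_num)
    rw [QF_Kk c _ (g_neg c), QF_Kk c _ (g2_neg c), QF_Kk c _ (g2_neg c), mul_sum,
      ← sum_add_distrib, ← sum_add_distrib]
    refine sum_nonneg fun w _ => ?_
    generalize ∑ i, x i * (tw c c.g w (a i ∘ σ)).re = r1
    generalize ∑ i, x i * (tw c c.g w (a i ∘ σ)).im = s1
    generalize ∑ i, y i * (tw c (g2 c) w (b i ∘ σ)).re = r2
    generalize ∑ i, y i * (tw c (g2 c) w (b i ∘ σ)).im = s2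
    rcases hε with rfl | rfl <;> nlinarith [sq_nonneg (r1 + r2), sq_nonneg (s1 + s2)]
  · have e3 : (fun a b => avg c.SB a b - avg c.SC a b) = avg (Kk c (g3 c) (g3 c)) := by
      funext a b
      simp only [avg, ← k33, Complex.sub_re, sum_sub_distrib, sub_div]
    rw [e3]
    refine psd_avg fun ε hε n y a => ?_
    refine le_of_le_of_eq ?_ (QF_Kk c (g3 c) (g3_neg c) ε y a y a).symm
    refine sum_nonneg fun w _ => ?_
    generalize ∑ i, y i * (tw c (g3 c) w (a i)).re = r2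
    generalize ∑ i, y i * (tw c (g3 c) w (a i)).im = s2
    rcases hε with rfl | rfl <;> nlinarith [sq_nonneg r2, sq_nonneg s2]

end Vale.Agent.P355
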