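import Vale.Agent.P355.Defs

namespace Vale.Agent.P355

open Finset

namespace Bas

lemma key (b : ONB) (x y : EuclideanSpace ℂ (Fin 6)) :
    ∑ r, (Real.sqrt 6 : ℂ) * inner ℂ (b r) x * (starRingEnd ℂ) ((Real.sqrt 6 : ℂ) * inner ℂ (b r) y)
      = 6 * inner ℂ y x := by
  have h : (Real.sqrt 6 : ℂ) * (Real.sqrt 6 : ℂ) = 6 := by
    rw [← Complex.ofReal_mul, Real.mul_self_sqrt (by norm_num)]; norm_num
  rw [← b.sum_inner_mul_inner y x, mul_sum]
  refine sum_congr rfl fun r _ => ?_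
  rw [map_mul, Complex.conj_ofReal, inner_conj_symm, ← h]
  ring

end Bas

theorem cfg_of_bases {m : ℕ} (B : Fin (m + 1) → ONB) (h : MU B) : Nonempty (Cfg m) := by
  refine ⟨⟨fun i k r => (Real.sqrt 6 : ℂ) * inner ℂ (B 0 r) (B i.succ k), fun i k r => ?_,
    fun i k l => ?_, fun i j k l hij => ?_⟩⟩
  · have h1 := h 0 i.succ (Fin.succ_ne_zero i).symm r k
    have h2 : ‖(Real.sqrt 6 : ℂ) * inner ℂ (B 0 r) (B i.succ k)‖ ^ 2 = 1 := by
      rw [norm_mul, mul_pow, h1, Complex.norm_real, Real.norm_eq_abs, sq_abs,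
        Real.sq_sqrt (by norm_num)]
      norm_num
    exact (pow_eq_one_iff_of_nonneg (norm_nonneg _) two_ne_zero).1 h2
  · rw [Bas.key, orthonormal_iff_ite.1 (B i.succ).orthonormal]
    by_cases e : k = l
    · simp [e]
    · simp [e, Ne.symm e]
  · rw [Bas.key, norm_mul, mul_pow, h j.succ i.succ (fun e => hij (Fin.succ_injective _ e).symm)]
    norm_num

theorem MU.restrict {k l : ℕ} (B : Fin k → ONB) (h : MU B) (hl : l ≤ k) :
    MU (fun i : Fin l => B (Fin.castLE hl i)) :=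
  fun _ _ hij a b => h _ _ (fun e => hij (Fin.castLE_injective hl e)) a b

end Vale.Agent.P355
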