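import Vale.Agent.P355.Ax
import Vale.Agent.P355.LinP
import Vale.Agent.P355.PosP
import Vale.Agent.P355.Bases

/-! P355: iterated power sums of the moments. -/

namespace Vale.Agent.P355

open Finset

noncomputable def PS (u v w : Fin 6 → ℂ) (t : ℤ × ℤ) : ℂ :=
  ∑ r, u r ^ t.1 * v r ^ t.2 * w r ^ (-t.1 - t.2)

namespace AxPw

/-- complex version of `pw` -/
noncomputable def pwC (T : V → V → ℂ) : List (ℤ × ℤ) → V → V → ℂ
  | [], a, b => T a b
  | t :: ts, a, b => ∑ r, pwC T ts (a + t.1 • e r) (b + t.2 • e r)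

theorem pwC_sum {ι : Type} (s : Finset ι) (T : ι → V → V → ℂ) (ts : List (ℤ × ℤ)) (a b : V) :
    pwC (fun a b => ∑ i ∈ s, T i a b) ts a b = ∑ i ∈ s, pwC (T i) ts a b := by
  induction ts generalizing a b with
  | nil => rfl
  | cons t ts ih => simp only [pwC, ih]; exact Finset.sum_comm

theorem pwC_ite (p : Prop) [Decidable p] (T : V → V → ℂ) (ts : List (ℤ × ℤ)) (a b : V) :
    pwC (fun a b => if p then 0 else T a b) ts a b = if p then 0 else pwC T ts a b := by
  split_ifs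
  · induction ts generalizing a b with
    | nil => rfl
    | cons t ts ih => simp only [pwC, ih, Finset.sum_const_zero]
  · rfl

theorem mon_smul_e (w : Fin 6 → ℂ) (t : ℤ) (r : Fin 6) : mon w (t • e r) = w r ^ t := by
  unfold mon
  rw [Finset.prod_eq_single r (fun s _ hs => by simp [e, hs]) (by simp)]
  simp [e]

theorem pwC_mon {u v w : Fin 6 → ℂ} (hu : ∀ r, ‖u r‖ = 1) (hv : ∀ r, ‖v r‖ = 1)
    (hw : ∀ r, ‖w r‖ = 1) (ts : List (ℤ × ℤ)) (a b : V) :
    pwC (fun a b => mon u a * mon v b * mon w (-a - b)) ts a b =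
      mon u a * mon v b * mon w (-a - b) * (ts.map (PS u v w)).prod := by
  induction ts generalizing a b with
  | nil => simp [pwC]
  | cons t ts ih =>
    simp only [pwC, ih, List.map_cons, List.prod_cons, PS, Finset.sum_mul, Finset.mul_sum]
    refine Finset.sum_congr rfl fun r _ => ?_
    have h : -(a + t.1 • e r) - (b + t.2 • e r) = (-a - b) + (-t.1 - t.2) • e r := by
      rw [sub_smul, neg_smul]
      abel
    rw [h, PosP.mon_add hu, PosP.mon_add hv, PosP.mon_add hw, mon_smul_e, mon_smul_e, mon_smul_e]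
    ring

theorem pwC_g {m : ℕ} (c : Cfg m) (i j k : Fin m) (ts : List (ℤ × ℤ)) :
    pwC (fun a b => c.g i a * c.g j b * c.g k (-a - b)) ts 0 0 =
      ∑ x, ∑ y, ∑ z, (ts.map (PS (c.u i x) (c.u j y) (c.u k z))).prod := by
  have h : (fun a b : V => c.g i a * c.g j b * c.g k (-a - b)) = fun a b =>
      ∑ x, ∑ y, ∑ z, mon (c.u i x) a * mon (c.u j y) b * mon (c.u k z) (-a - b) := by
    funext a b
    rw [Cfg.g, Cfg.g, Cfg.g, Finset.sum_mul_sum, Finset.sum_mul]
    refine Finset.sum_congr rfl fun x _ => ?_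
    rw [Finset.sum_mul_sum]
  rw [h]
  simp only [pwC_sum, pwC_mon (c.uni _ _) (c.uni _ _) (c.uni _ _), neg_zero, sub_zero,
    PosP.mon_zero, one_mul]

theorem pw_avg (T : V → V → ℂ) (ts : List (ℤ × ℤ)) (a b : V) :
    pw (avg T) ts a b = avg (pwC T ts) a b := by
  induction ts generalizing a b with
  | nil => rfl
  | cons t ts ih =>
    simp only [pw, ih, avg, pwC, Complex.re_sum]
    rw [← Finset.sum_div, Finset.sum_comm]
    congr 1
    refine Finset.sum_congr rfl fun σ _ => ?_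
    refine Eq.trans ?_ (Equiv.sum_comp σ.symm _)
    refine Finset.sum_congr rfl fun r _ => ?_
    rw [← LinP.e_comp]
    rfl

theorem pw_mean (T : Fin 4 → V → V → ℝ) (ts : List (ℤ × ℤ)) (a b : V) :
    pw (fun a b => (∑ f, T f a b) / 4) ts a b = (∑ f, pw (T f) ts a b) / 4 := by
  induction ts generalizing a b with
  | nil => rfl
  | cons t ts ih =>
    simp only [pw, ih]
    rw [← Finset.sum_div, Finset.sum_comm]

theorem pw_main (T : Fin 4 → V → V → ℂ) (ts : List (ℤ × ℤ)) :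
    pw (fun a b => (∑ f, avg (T f) a b) / 4) ts 0 0 = (∑ f, pwC (T f) ts 0 0).re / 4 := by
  rw [pw_mean, Complex.re_sum]
  simp only [pw_avg, PosP.avg_zero]

end AxPw

open AxPw

theorem pw_mA (c : Fin 4 → Cfg 3) (ts : List (ℤ × ℤ)) :
    pw (mA c) ts 0 0 = (∑ f, ∑ i, ∑ x, ∑ y, ∑ z,
      (ts.map (PS ((c f).u i x) ((c f).u i y) ((c f).u i z))).prod).re / 4 := by
  refine (pw_main (fun f => (c f).TA) ts).trans ?_
  unfold Cfg.TA
  simp only [pwC_sum, pwC_g]

theorem pw_mB (c : Fin 4 → Cfg 3) (ts : List (ℤ × ℤ)) :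
    pw (mB c) ts 0 0 = (∑ f, ∑ i, ∑ j, if i = j then 0 else ∑ x, ∑ y, ∑ z,
      (ts.map (PS ((c f).u j x) ((c f).u j y) ((c f).u i z))).prod).re / 4 := by
  refine (pw_main (fun f => (c f).SB) ts).trans ?_
  unfold Cfg.SB
  simp only [pwC_sum, pwC_ite, pwC_g]

theorem pw_mC (c : Fin 4 → Cfg 3) (ts : List (ℤ × ℤ)) :
    pw (mC c) ts 0 0 = (∑ f, ∑ i, ∑ j, ∑ k, if i = j ∨ i = k ∨ j = k then 0 else ∑ x, ∑ y, ∑ z,
      (ts.map (PS ((c f).u j x) ((c f).u k y) ((c f).u i z))).prod).re / 4 := by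
  refine (pw_main (fun f => (c f).SC) ts).trans ?_
  unfold Cfg.SC
  simp only [pwC_sum, pwC_ite, pwC_g]

end Vale.Agent.P355
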