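import Vale.Agent.P355.Ax
import Vale.Agent.P355.Bases

/-! The system of transition matrices and the mean over the four frames. -/

namespace Vale.Agent.P355

open Finset

namespace AxSys

lemma uni {k : ℕ} {B : Fin k → ONB} (h : MU B) {i j : Fin k} (hij : i ≠ j) (x y : Fin 6) :
    ‖(Real.sqrt 6 : ℂ) * inner ℂ (B i x) (B j y)‖ = 1 := by
  refine (pow_eq_one_iff_of_nonneg (norm_nonneg _) two_ne_zero).1 ?_
  rw [norm_mul, mul_pow, h i j hij, Complex.norm_real, Real.norm_eq_abs, sq_abs,
    Real.sq_sqrt (by norm_num)]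
  norm_num

lemma sq6 : (Real.sqrt 6 : ℂ) * (Real.sqrt 6 : ℂ) = 6 := by
  rw [← Complex.ofReal_mul, Real.mul_self_sqrt (by norm_num)]
  norm_num

lemma key (b : ONB) (x z : EuclideanSpace ℂ (Fin 6)) :
    ∑ r, (Real.sqrt 6 : ℂ) * inner ℂ x (b r) * ((Real.sqrt 6 : ℂ) * inner ℂ (b r) z)
      = 6 * inner ℂ x z := by
  rw [← b.sum_inner_mul_inner x z, mul_sum, ← sq6]
  exact sum_congr rfl fun r _ => by ring

lemma sym {T : Fin 4 → V → V → ℝ} (h : ∀ f, Sym (T f)) : Sym fun a b => (∑ f, T f a b) / 4 :=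
  ⟨fun φ hφ a b => by simp only [(h _).perm φ hφ], fun a b => by simp only [(h _).neg],
    fun a b => by simp only [fun f => (h f).swap a b]⟩

lemma bd {T : Fin 4 → ℝ} {C : ℝ} (h : ∀ f, |T f| ≤ C) : |(∑ f, T f) / 4| ≤ C := by
  have h0 := abs_le.1 (h 0)
  have h1 := abs_le.1 (h 1)
  have h2 := abs_le.1 (h 2)
  have h3 := abs_le.1 (h 3)
  rw [Fin.sum_univ_four, abs_le]
  constructor <;> linarith [h0.1, h0.2, h1.1, h1.2, h2.1, h2.2, h3.1, h3.2]

lemma qf {T : Fin 4 → V → V → ℝ} {M : V → V → ℝ} (hM : ∀ a b, M a b = (∑ f, T f a b) / 4) (ε : ℝ)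
    {n k : ℕ} (x : Fin n → ℝ) (a : Fin n → V) (y : Fin k → ℝ) (b : Fin k → V) :
    QF M ε x a y b = (∑ f, QF (T f) ε x a y b) / 4 := by
  simp only [QF, hM, Fin.sum_univ_four, ← sum_add_distrib, sum_div]
  exact sum_congr rfl fun i _ => sum_congr rfl fun j _ => by ring

end AxSys

theorem sys_of_bases (B : Fin 4 → ONB) (h : MU B) :
    ∃ (S : Sys) (c : Fin 4 → Cfg 3), S.Frames c := by
  refine ⟨⟨fun i j x y => (Real.sqrt 6 : ℂ) * inner ℂ (B i x) (B j y),
    fun i j hij => AxSys.uni h hij, fun i j x y => ?_, fun i j _ x z => ?_,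
    fun i j k _ _ _ x z => ?_⟩,
    fun f => ⟨fun i k r => (Real.sqrt 6 : ℂ) * inner ℂ (B f r) (B (f.succAbove i) k),
      fun i k r => AxSys.uni h (Fin.succAbove_ne f i).symm r k, fun i k l => ?_,
      fun i j k l hij => ?_⟩, fun _ _ _ _ => rfl⟩
  · rw [map_mul, Complex.conj_ofReal, inner_conj_symm]
  · rw [AxSys.key, orthonormal_iff_ite.1 (B i).orthonormal, mul_ite, mul_one, mul_zero]
  · rw [AxSys.key, ← mul_assoc, AxSys.sq6]
  · rw [Bas.key, orthonormal_iff_ite.1 (B _).orthonormal]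
    by_cases e : k = l
    · simp [e]
    · simp [e, Ne.symm e]
  · rw [Bas.key, norm_mul, mul_pow,
      h _ _ fun e => hij (Fin.succAbove_right_injective e).symm]
    norm_num

theorem axL_mean (c : Fin 4 → Cfg 3)
    (h : ∀ f, AxL (avg (c f).TA) (avg (c f).SB) (avg (c f).SC)) : AxL (mA c) (mB c) (mC c) where
  symA := AxSys.sym fun f => (h f).symA
  symB := AxSys.sym fun f => (h f).symB
  symC := AxSys.sym fun f => (h f).symC
  rotA a b := by simp only [mA, (h _).rotA]
  rotC a b := by simp only [mC, (h _).rotC]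
  vA r t e b := by simp only [mA, (h _).vA r t e, sum_const_zero, zero_div]
  vB r t e b := by simp only [mB, (h _).vB r t e, sum_const_zero, zero_div]
  vB3 r t e a := by simp only [mB, (h _).vB3 r t e, sum_const_zero, zero_div]
  vC r t e b := by simp only [mC, (h _).vC r t e, sum_const_zero, zero_div]
  oA x y := by
    simp only [mA, ← sum_div]
    rw [sum_comm]
    simp only [(h _).oA]
  oB x y := by
    simp only [mB, ← sum_div]
    rw [sum_comm]
    simp only [(h _).oB]
  uB x y := by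
    simp only [mB, Fin.sum_univ_four, ← sum_div, sum_add_distrib, (h _).uB]
    ring
  uC x y := by
    simp only [mC, Fin.sum_univ_four, ← sum_div, sum_add_distrib, (h _).uC]
    ring
  z1 x := by
    simp only [mA, mB, Fin.sum_univ_four, (h _).z1]
    ring
  z2 x := by simp only [mB, mC, (h _).z2]

theorem axP_mean (c : Fin 4 → Cfg 3)
    (h : ∀ f, AxP (avg (c f).TA) (avg (c f).SB) (avg (c f).SC)) : AxP (mA c) (mB c) (mC c) where
  bdA a b := AxSys.bd fun f => (h f).bdA a b
  bdB a b := AxSys.bd fun f => (h f).bdB a b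
  bdC a b := AxSys.bd fun f => (h f).bdC a b
  zA := by
    simp only [mA, Fin.sum_univ_four, (h _).zA]
    norm_num
  zB := by
    simp only [mB, Fin.sum_univ_four, (h _).zB]
    norm_num
  zC := by
    simp only [mC, Fin.sum_univ_four, (h _).zC]
    norm_num
  psdJ ε hε n k x a y b := by
    rw [AxSys.qf (M := mA c) (T := fun f => avg (c f).TA) fun _ _ => rfl,
      AxSys.qf (M := fun a b => mB c a (-a - b)) (T := fun f a b => avg (c f).SB a (-a - b))
        fun _ _ => rfl,
      AxSys.qf (M := fun a b => mB c a b + mC c a b)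
        (T := fun f a b => avg (c f).SB a b + avg (c f).SC a b)
        fun _ _ => by rw [mB, mC, sum_add_distrib, add_div]]
    simp only [Fin.sum_univ_four]
    linarith [(h 0).psdJ ε hε n k x a y b, (h 1).psdJ ε hε n k x a y b,
      (h 2).psdJ ε hε n k x a y b, (h 3).psdJ ε hε n k x a y b]
  psdS ε hε n y a := by
    refine le_of_le_of_eq ?_ (AxSys.qf (M := fun a b => mB c a b - mC c a b)
      (T := fun f a b => avg (c f).SB a b - avg (c f).SC a b)
      (fun _ _ => by rw [mB, mC, sum_sub_distrib, sub_div]) ε y a y a).symm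
    exact div_nonneg (sum_nonneg fun f _ => (h f).psdS ε hε n y a) (by norm_num)

end Vale.Agent.P355
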