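import Mathlib

/-! Kernel-friendly certificate checker: definitions only. -/

namespace Vale.Agent.P355.Ck

structure W where
  x0 : ℕ
  x1 : ℕ
  x2 : ℕ
  x3 : ℕ
  x4 : ℕ
  x5 : ℕ
deriving DecidableEq

noncomputable def force (n : ℕ) (k : ℕ → Bool) : Bool :=
  Nat.rec (motive := fun _ => Bool) (k 0) (fun m _ => k (Nat.succ m)) n

noncomputable def code (x y : W) : ℕ :=
  W.rec (motive := fun _ => ℕ) (fun a0 a1 a2 a3 a4 a5 =>
    W.rec (motive := fun _ => ℕ) (fun b0 b1 b2 b3 b4 b5 =>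
      Nat.add (Nat.add (Nat.add (Nat.pow (nat_lit 7) (Nat.add (Nat.mul (nat_lit 16) a0) b0))
        (Nat.pow (nat_lit 7) (Nat.add (Nat.mul (nat_lit 16) a1) b1)))
        (Nat.add (Nat.pow (nat_lit 7) (Nat.add (Nat.mul (nat_lit 16) a2) b2))
        (Nat.pow (nat_lit 7) (Nat.add (Nat.mul (nat_lit 16) a3) b3))))
        (Nat.add (Nat.pow (nat_lit 7) (Nat.add (Nat.mul (nat_lit 16) a4) b4))
        (Nat.pow (nat_lit 7) (Nat.add (Nat.mul (nat_lit 16) a5) b5)))) y) x

noncomputable def neg (x : W) : W :=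
  W.rec (motive := fun _ => W) (fun a0 a1 a2 a3 a4 a5 =>
    ⟨Nat.sub 16 a0, Nat.sub 16 a1, Nat.sub 16 a2, Nat.sub 16 a3, Nat.sub 16 a4, Nat.sub 16 a5⟩) x

noncomputable def third (x y : W) : W :=
  W.rec (motive := fun _ => W) (fun a0 a1 a2 a3 a4 a5 =>
    W.rec (motive := fun _ => W) (fun b0 b1 b2 b3 b4 b5 =>
      ⟨Nat.sub 24 (Nat.add a0 b0), Nat.sub 24 (Nat.add a1 b1), Nat.sub 24 (Nat.add a2 b2),
        Nat.sub 24 (Nat.add a3 b3), Nat.sub 24 (Nat.add a4 b4), Nat.sub 24 (Nat.add a5 b5)⟩) y) x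

def zW : W := ⟨8, 8, 8, 8, 8, 8⟩

/-- positive part of the degree -/
noncomputable def dP (x : W) : ℕ :=
  W.rec (motive := fun _ => ℕ) (fun a0 a1 a2 a3 a4 a5 =>
    Nat.add (Nat.add (Nat.add (Nat.sub a0 8) (Nat.sub a1 8)) (Nat.add (Nat.sub a2 8) (Nat.sub a3 8)))
      (Nat.add (Nat.sub a4 8) (Nat.sub a5 8))) x

/-- negative part of the degree -/
noncomputable def dN (x : W) : ℕ :=
  W.rec (motive := fun _ => ℕ) (fun a0 a1 a2 a3 a4 a5 =>
    Nat.add (Nat.add (Nat.add (Nat.sub 8 a0) (Nat.sub 8 a1)) (Nat.add (Nat.sub 8 a2) (Nat.sub 8 a3)))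
      (Nat.add (Nat.sub 8 a4) (Nat.sub 8 a5))) x

noncomputable def z1 (x : W) : Bool :=
  Bool.rec (motive := fun _ => Bool) false (Nat.beq (dN x) 1) (Nat.beq (dP x) 1)

noncomputable def z2 (x : W) : Bool :=
  Bool.rec (motive := fun _ => Bool) (z1 x) (Nat.beq (dN x) 2) (Nat.beq (dP x) 2)

noncomputable def cd (j : ℕ) (x y : W) : ℕ :=
  Nat.rec (motive := fun _ => ℕ) (code x y) (fun j _ =>
    Nat.rec (motive := fun _ => ℕ) (code y x) (fun j _ =>
      Nat.rec (motive := fun _ => ℕ) (code (neg x) (neg y)) (fun _ _ => code (neg y) (neg x)) j) j) j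

noncomputable def zk (f g : W → Bool) (j : ℕ) (x y : W) : ℕ :=
  Bool.rec (motive := fun _ => ℕ) (code x y) 0
    (Nat.rec (motive := fun _ => Bool) (f x) (fun j _ =>
      Nat.rec (motive := fun _ => Bool) (f y) (fun _ _ => g (third x y)) j) j)

/-- key for the fully symmetric moments -/
noncomputable def keyS (f : W → Bool) (h : ℕ) (x y : W) : ℕ :=
  Nat.rec (motive := fun _ => ℕ) (cd (Nat.mod h 4) x y) (fun i _ =>
    Nat.rec (motive := fun _ => ℕ) (cd (Nat.mod h 4) x (third x y)) (fun i _ =>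
      Nat.rec (motive := fun _ => ℕ) (cd (Nat.mod h 4) y (third x y))
        (fun _ _ => zk f f (Nat.mod h 4) x y) i) i) (Nat.div h 4)

noncomputable def keyA : ℕ → W → W → ℕ := keyS z1
noncomputable def keyC : ℕ → W → W → ℕ := keyS z2

noncomputable def keyB (h : ℕ) (x y : W) : ℕ :=
  Nat.rec (motive := fun _ => ℕ) (cd h x y) (fun _ _ => zk z1 z2 (Nat.mod h 4) x y) (Nat.div h 4)

inductive Tr where
  | leaf : Tr
  | node : Tr → ℕ → ℕ → ℕ → Tr → Tr

noncomputable def ins (k p n : ℕ) (t : Tr) (c : Tr → Bool) : Bool :=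
  Tr.rec (motive := fun _ => (Tr → Bool) → Bool)
    (fun c => c (Tr.node Tr.leaf k p n Tr.leaf))
    (fun l k' p' n' r ihl ihr c =>
      Bool.rec (motive := fun _ => Bool)
        (ihr fun r' => c (Tr.node l k' p' n' r'))
        (Bool.rec (motive := fun _ => Bool)
          (ihl fun l' => c (Tr.node l' k' p' n' r))
          (force (Nat.add p p') fun a => force (Nat.add n n') fun b => c (Tr.node l k' a b r))
          (Nat.ble k' k))
        (Nat.ble k k')) t c

/-- insert unless the key is zero -/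
noncomputable def term (k p n : ℕ) (t : Tr) (c : Tr → Bool) : Bool :=
  Nat.rec (motive := fun _ => Bool) (c t) (fun m _ => ins (Nat.succ m) p n t c) k

noncomputable def forceW (x : W) (k : W → Bool) : Bool :=
  W.rec (motive := fun _ => Bool) (fun a0 a1 a2 a3 a4 a5 =>
    force a0 fun b0 => force a1 fun b1 => force a2 fun b2 => force a3 fun b3 =>
      force a4 fun b4 => force a5 fun b5 => k ⟨b0, b1, b2, b3, b4, b5⟩) x

noncomputable def getN (x : W) (i : ℕ) : ℕ :=
  W.rec (motive := fun _ => ℕ) (fun a0 a1 a2 a3 a4 a5 =>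
    Nat.rec (motive := fun _ => ℕ) a0 (fun i _ => Nat.rec (motive := fun _ => ℕ) a1 (fun i _ =>
      Nat.rec (motive := fun _ => ℕ) a2 (fun i _ => Nat.rec (motive := fun _ => ℕ) a3 (fun i _ =>
        Nat.rec (motive := fun _ => ℕ) a4 (fun _ _ => a5) i) i) i) i) i) x

noncomputable def app (p x : W) : W :=
  ⟨getN x p.x0, getN x p.x1, getN x p.x2, getN x p.x3, getN x p.x4, getN x p.x5⟩

abbrev SW := W × Bool

/-- signed orbit of a row -/
noncomputable def mkY (ε : Bool) (b : W) (G : List SW) : List SW → (List SW → Bool) → Bool :=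
  List.rec (motive := fun _ => List SW → (List SW → Bool) → Bool) (fun acc c => c acc)
    (fun g _ ih acc c => forceW (app g.1 b) fun u => forceW (neg u) fun v =>
      Bool.rec (motive := fun _ => Bool)
        (Bool.rec (motive := fun _ => Bool) (ih ((v, false) :: (u, true) :: acc) c)
          (ih ((v, false) :: (u, false) :: acc) c) ε)
        (Bool.rec (motive := fun _ => Bool) (ih ((v, true) :: (u, false) :: acc) c)
          (ih ((v, true) :: (u, true) :: acc) c) ε) g.2) G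

structure Row where
  a : W
  l1 : List ℤ
  l2 : List ℤ

abbrev RY := Row × List SW

noncomputable def mkR (ε : Bool) (G : List SW) (rs : List Row) : (List RY → Bool) → Bool :=
  List.rec (motive := fun _ => (List RY → Bool) → Bool) (fun c => c [])
    (fun r _ ih c => mkY ε r.a G [] fun Y => ih fun acc => c ((r, Y) :: acc)) rs

noncomputable def dot (l : List ℤ) : List ℤ → ℤ :=
  List.rec (motive := fun _ => List ℤ → ℤ) (fun _ => 0)
    (fun a _ ih m => List.casesOn (motive := fun _ => ℤ) m 0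
      (fun b m' => Int.add (Int.mul a b) (ih m'))) l

noncomputable def cfB (r s : Row) : ℤ := Int.mul 6 (dot r.l1 s.l1)
noncomputable def cfC (r s : Row) : ℤ := Int.sub (dot r.l2 s.l2) (dot r.l1 s.l1)

noncomputable def pairL (a : W) (p n : ℕ) (Y : List SW) : Tr → (Tr → Bool) → Bool :=
  List.rec (motive := fun _ => Tr → (Tr → Bool) → Bool) (fun t c => c t)
    (fun h _ ih t c => Prod.rec (motive := fun _ => Bool) (fun u s =>
      Bool.rec (motive := fun _ => Bool) (term (code a u) n p t fun t' => ih t' c)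
        (term (code a u) p n t fun t' => ih t' c) s) h) Y

noncomputable def pairZ (a : W) (X : ℤ) (Y : List SW) (t : Tr) (c : Tr → Bool) : Bool :=
  force (Int.toNat X) fun p => force (Int.toNat (Int.neg X)) fun n => pairL a p n Y t c

noncomputable def rowL (cf : Row → Row → ℤ) (r : Row) (rs : List RY) : Tr → (Tr → Bool) → Bool :=
  List.rec (motive := fun _ => Tr → (Tr → Bool) → Bool) (fun t c => c t)
    (fun s _ ih t c => pairZ r.a (Int.mul 2 (cf r s.1)) s.2 t fun t' => ih t' c) rs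

noncomputable def triL (sk : W → Bool) (cf : Row → Row → ℤ) (rs : List RY) :
    Tr → (Tr → Bool) → Bool :=
  List.rec (motive := fun _ => Tr → (Tr → Bool) → Bool) (fun t c => c t)
    (fun r rs' ih t c => Bool.rec (motive := fun _ => Bool)
      (pairZ r.1.a (cf r.1 r.1) r.2 t fun t' => rowL cf r.1 rs' t' fun t'' => ih t'' c)
      (ih t c) (sk r.1.a)) rs

structure Blk where
  G : List SW
  ε : Bool
  rs : List Row

noncomputable def blkL (sk : W → Bool) (cf : Row → Row → ℤ) (bs : List Blk) :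
    Tr → (Tr → Bool) → Bool :=
  List.rec (motive := fun _ => Tr → (Tr → Bool) → Bool) (fun t c => c t)
    (fun b _ ih t c => mkR b.ε b.G b.rs fun R => triL sk cf R t fun t' => ih t' c) bs

noncomputable def rng (lo hi a : ℕ) : Bool :=
  Bool.rec (motive := fun _ => Bool) false (Nat.ble a hi) (Nat.ble lo a)

noncomputable def rngW (lo hi : ℕ) (x : W) : Bool :=
  rng lo hi x.x0 && rng lo hi x.x1 && rng lo hi x.x2 && rng lo hi x.x3 && rng lo hi x.x4 &&
    rng lo hi x.x5

noncomputable def addW (x y : W) : W :=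
  ⟨Nat.add x.x0 y.x0, Nat.add x.x1 y.x1, Nat.add x.x2 y.x2, Nat.add x.x3 y.x3, Nat.add x.x4 y.x4,
    Nat.add x.x5 y.x5⟩

noncomputable def okB (lo hi : ℕ) (x y : W) : Bool :=
  rngW lo hi x && rngW lo hi y && rngW (Nat.add lo 8) (Nat.add hi 8) (addW x y)

noncomputable def dW (N : ℕ) : W :=
  ⟨Nat.mod N 16, Nat.mod (Nat.div N 16) 16, Nat.mod (Nat.div N 256) 16, Nat.mod (Nat.div N 4096) 16,
    Nat.mod (Nat.div N 65536) 16, Nat.mod (Nat.div N 1048576) 16⟩

noncomputable def conv (key : ℕ → W → W → ℕ) (s : Tr) :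
    List ℕ → Tr → (List ℕ → Tr → Bool) → Bool :=
  Tr.rec (motive := fun _ => List ℕ → Tr → (List ℕ → Tr → Bool) → Bool) (fun h t c => c h t)
    (fun _ k p n _ ihl ihr h t c => ihl h t fun h t =>
      List.casesOn (motive := fun _ => Bool) h false fun N h' =>
        forceW (dW N) fun x => forceW (dW (Nat.div N 16777216)) fun y =>
          Bool.rec (motive := fun _ => Bool) false
            (Bool.rec (motive := fun _ => Bool) false
              (term (key (Nat.div N 281474976710656) x y) p n t fun t' => ihr h' t' c)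
              (okB 1 15 x y))
            (Nat.beq (code x y) k)) s

noncomputable def cP (c : ℕ) : ℕ := Nat.mul (Nat.div c 2) (Nat.sub 1 (Nat.mod c 2))
noncomputable def cN (c : ℕ) : ℕ := Nat.mul (Nat.div c 2) (Nat.mod c 2)

/-- decode an equation record -/
noncomputable def dE (M N : ℕ) (c : W → W → ℕ → ℕ → ℕ → Bool) : Bool :=
  forceW (dW N) fun x => forceW (dW (Nat.div N 16777216)) fun y =>
    force (Nat.div N 281474976710656) fun q => force (Nat.div q M) fun q' =>
      force (cP q') fun p => force (cN q') fun n => c x y (Nat.mod q M) p n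

noncomputable def up (i : ℕ) (x : W) : W :=
  W.rec (motive := fun _ => W) (fun a0 a1 a2 a3 a4 a5 =>
    Nat.rec (motive := fun _ => W) ⟨Nat.succ a0, a1, a2, a3, a4, a5⟩ (fun i _ =>
    Nat.rec (motive := fun _ => W) ⟨a0, Nat.succ a1, a2, a3, a4, a5⟩ (fun i _ =>
    Nat.rec (motive := fun _ => W) ⟨a0, a1, Nat.succ a2, a3, a4, a5⟩ (fun i _ =>
    Nat.rec (motive := fun _ => W) ⟨a0, a1, a2, Nat.succ a3, a4, a5⟩ (fun i _ =>
    Nat.rec (motive := fun _ => W) ⟨a0, a1, a2, a3, Nat.succ a4, a5⟩ (fun _ _ =>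
      ⟨a0, a1, a2, a3, a4, Nat.succ a5⟩) i) i) i) i) i) x

noncomputable def dn (i : ℕ) (x : W) : W :=
  W.rec (motive := fun _ => W) (fun a0 a1 a2 a3 a4 a5 =>
    Nat.rec (motive := fun _ => W) ⟨Nat.sub a0 1, a1, a2, a3, a4, a5⟩ (fun i _ =>
    Nat.rec (motive := fun _ => W) ⟨a0, Nat.sub a1 1, a2, a3, a4, a5⟩ (fun i _ =>
    Nat.rec (motive := fun _ => W) ⟨a0, a1, Nat.sub a2 1, a3, a4, a5⟩ (fun i _ =>
    Nat.rec (motive := fun _ => W) ⟨a0, a1, a2, Nat.sub a3 1, a4, a5⟩ (fun i _ =>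
    Nat.rec (motive := fun _ => W) ⟨a0, a1, a2, a3, Nat.sub a4 1, a5⟩ (fun _ _ =>
      ⟨a0, a1, a2, a3, a4, Nat.sub a5 1⟩) i) i) i) i) i) x

noncomputable def oL (key : ℕ → W → W → ℕ) (x y : W) (p n : ℕ) (l : List ℕ) :
    ℕ → Tr → (Tr → Bool) → Bool :=
  List.rec (motive := fun _ => ℕ → Tr → (Tr → Bool) → Bool) (fun _ t c => c t)
    (fun r _ ih h t c => term (key (Nat.mod h 16) (up r x) (dn r y)) p n t fun t' =>
      ih (Nat.div h 16) t' c) l

noncomputable def uL (key : ℕ → W → W → ℕ) (x y : W) (p n : ℕ) (l : List (ℕ × ℕ)) :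
    ℕ → Tr → (Tr → Bool) → Bool :=
  List.rec (motive := fun _ => ℕ → Tr → (Tr → Bool) → Bool) (fun _ t c => c t)
    (fun r _ ih h t c => term (key (Nat.mod h 16) (dn r.2 (up r.1 x)) y) p n t fun t' =>
      ih (Nat.div h 16) t' c) l

def l6 : List ℕ := [0, 1, 2, 3, 4, 5]

def l30 : List (ℕ × ℕ) :=
  [(0, 1), (0, 2), (0, 3), (0, 4), (0, 5), (1, 0), (1, 2), (1, 3), (1, 4), (1, 5),
   (2, 0), (2, 1), (2, 3), (2, 4), (2, 5), (3, 0), (3, 1), (3, 2), (3, 4), (3, 5),
   (4, 0), (4, 1), (4, 2), (4, 3), (4, 5), (5, 0), (5, 1), (5, 2), (5, 3), (5, 4)]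

/-- all terms of an orthogonality equation -/
noncomputable def eO (key : ℕ → W → W → ℕ) (N : ℕ) (t : Tr) (c : Tr → Bool) : Bool :=
  dE 268435456 N fun x y h p n =>
    term (key (Nat.mod h 16) zW (neg (third x y))) n p t fun t' => oL key x y p n l6 (Nat.div h 16) t' c

/-- main terms of an unbiasedness equation -/
noncomputable def eU (key : ℕ → W → W → ℕ) (N : ℕ) (t : Tr) (c : Tr → Bool) : Bool :=
  dE 340282366920938463463374607431768211456 N fun x y h p n => uL key x y p n l30 (Nat.div h 256) t c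

/-- side terms of an unbiasedness equation -/
noncomputable def eV (key : ℕ → W → W → ℕ) (f : W → W → W) (N : ℕ) (t : Tr) (c : Tr → Bool) : Bool :=
  dE 340282366920938463463374607431768211456 N fun x y h p n =>
    term (key (Nat.mod h 16) zW y) (Nat.mul 6 n) (Nat.mul 6 p) t fun t' =>
      term (key (Nat.mod (Nat.div h 16) 16) x (f x y)) (Nat.mul 6 p) (Nat.mul 6 n) t' c

noncomputable def eZB (N : ℕ) (t : Tr) (c : Tr → Bool) : Bool :=
  dE 256 N fun _ y h p n => term (keyB (Nat.mod h 16) zW y) (Nat.mul 6 p) (Nat.mul 6 n) t c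

noncomputable def eZC (N : ℕ) (t : Tr) (c : Tr → Bool) : Bool :=
  dE 256 N fun _ y h p n => term (keyC (Nat.div h 16) zW y) n p t c

noncomputable def eL (f : ℕ → Tr → (Tr → Bool) → Bool) (l : List ℕ) : Tr → (Tr → Bool) → Bool :=
  List.rec (motive := fun _ => Tr → (Tr → Bool) → Bool) (fun t c => c t)
    (fun N _ ih t c => f N t fun t' => ih t' c) l

noncomputable def eOK (l : List ℕ) : Bool :=
  List.rec (motive := fun _ => Bool) true
    (fun N _ ih => Bool.rec (motive := fun _ => Bool) false ih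
      (okB 2 14 (dW N) (dW (Nat.div N 16777216)))) l

noncomputable def ubP (k0 : ℕ) (t : Tr) : ℕ :=
  Tr.rec (motive := fun _ => ℕ) 0 (fun _ k p n _ a b =>
    Nat.add (Nat.add a b) (Bool.rec (motive := fun _ => ℕ) (Nat.add (Nat.sub p n) (Nat.sub n p)) p
      (Nat.beq k k0))) t

noncomputable def ubN (k0 : ℕ) (t : Tr) : ℕ :=
  Tr.rec (motive := fun _ => ℕ) 0 (fun _ k _ n _ a b =>
    Nat.add (Nat.add a b) (Bool.rec (motive := fun _ => ℕ) 0 n (Nat.beq k k0))) t

noncomputable def fin (P N : ℕ) (t : Tr) : Bool :=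
  force (code zW zW) fun k0 => Nat.ble (Nat.add (ubP k0 t) N) (Nat.add (ubN k0 t) P)

noncomputable def passA (oA uB : List ℕ) (P N : ℕ) : Bool :=
  eL (eO keyA) oA Tr.leaf fun t => eL (eV keyA fun _ y => y) uB t (fin P N)

noncomputable def passB (bs : List Blk) (H : List ℕ) (oB uB uC z : List ℕ) (P N : ℕ) : Bool :=
  blkL (fun _ => false) cfB bs Tr.leaf fun s => conv keyB s H Tr.leaf fun _ t =>
    eL (eO keyB) oB t fun t => eL (eU keyB) uB t fun t => eL (eV keyB third) uC t fun t =>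
      eL eZB z t (fin P N)

noncomputable def passC (bs : List Blk) (H : List ℕ) (uC z : List ℕ) (P N : ℕ) : Bool :=
  blkL z2 cfC bs Tr.leaf fun s => conv keyC s H Tr.leaf fun _ t =>
    eL (eU keyC) uC t fun t => eL eZC z t (fin P N)

end Vale.Agent.P355.Ck
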