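import Vale.Agent.P355.CkData

namespace Vale.Agent.P355.Ck

theorem runB : passB blks hB loB luB luC lz pB nB = true := by decide +kernel

end Vale.Agent.P355.Ck
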