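import Vale.Agent.P355.Defs
import Vale.Agent.P355.CkDefs

namespace Vale.Agent.P355.Ck

open Finset

def W.get (w : W) : Fin 6 → ℕ := ![w.x0, w.x1, w.x2, w.x3, w.x4, w.x5]

def dec (w : W) : V := fun r => (w.get r : ℤ) - 8

theorem force_eq (n : ℕ) (k : ℕ → Bool) : force n k = k n := by cases n <;> rfl

theorem forceW_eq (x : W) (k : W → Bool) : forceW x k = k x := by
  cases x
  simp only [forceW, force_eq]

theorem code_eq (x y : W) : code x y = ∑ r, 7 ^ (16 * x.get r + y.get r) := by
  cases x; cases y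
  simp only [code, Fin.sum_univ_six, W.get, Nat.add_eq, Nat.mul_eq, Nat.pow_eq]
  simp
  ring

theorem get_neg (x : W) (r : Fin 6) : (neg x).get r = 16 - x.get r := by
  cases x; fin_cases r <;> rfl

theorem get_third (x y : W) (r : Fin 6) : (third x y).get r = 24 - (x.get r + y.get r) := by
  cases x; cases y; fin_cases r <;> rfl

theorem get_addW (x y : W) (r : Fin 6) : (addW x y).get r = x.get r + y.get r := by
  cases x; cases y; fin_cases r <;> rfl

theorem get_zW (r : Fin 6) : zW.get r = 8 := by fin_cases r <;> rfl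

theorem dec_zW : dec zW = 0 := by funext r; simp [dec, get_zW]

theorem dec_neg {x : W} (h : ∀ r, x.get r ≤ 16) : dec (neg x) = -dec x := by
  funext r; have := h r; simp only [dec, get_neg, Pi.neg_apply]; omega

theorem dec_third {x y : W} (h : ∀ r, x.get r + y.get r ≤ 24) :
    dec (third x y) = -dec x - dec y := by
  funext r; have := h r; simp only [dec, get_third, Pi.neg_apply, Pi.sub_apply]; omega

theorem digit (f : Fin 6 → ℕ) (k : ℕ) :
    (∑ r, 7 ^ f r) / 7 ^ k % 7 = (univ.filter fun r => f r = k).card := by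
  have h : ∑ r, 7 ^ f r = (∑ r, if f r < k then 7 ^ f r else 0) +
      7 ^ k * ((∑ r, if f r = k then 1 else 0) + 7 * ∑ r, if k < f r then 7 ^ (f r - k - 1) else 0) := by
    rw [mul_add, mul_sum, mul_sum, mul_sum, ← sum_add_distrib, ← sum_add_distrib]
    refine sum_congr rfl fun r _ => ?_
    rcases lt_trichotomy (f r) k with h | h | h
    · simp [h, h.ne, h.not_gt]
    · simp [h]
    · have : f r = k + 1 + (f r - k - 1) := by omega
      simp only [h, h.not_gt, h.ne', if_true, if_false]
      conv_lhs => rw [this]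
      ring
  have h1 : 7 * (∑ r, if f r < k then 7 ^ f r else 0) ≤ 6 * 7 ^ k := by
    rw [mul_sum]
    calc _ ≤ ∑ _r : Fin 6, 7 ^ k := sum_le_sum fun r _ => by
            split_ifs with h
            · rw [← pow_succ']; exact Nat.pow_le_pow_right (by norm_num) h
            · simp
      _ = _ := by simp
  have hp : 0 < 7 ^ k := by positivity
  have h2 : (∑ r, if f r = k then 1 else 0) = (univ.filter fun r => f r = k).card := by
    rw [card_filter]
  have h3 : (univ.filter fun r => f r = k).card ≤ 6 := by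
    simpa using card_filter_le (univ : Finset (Fin 6)) fun r => f r = k
  rw [h, Nat.add_mul_div_left _ _ hp, Nat.div_eq_of_lt (by omega), zero_add,
    Nat.add_mul_mod_self_left, h2, Nat.mod_eq_of_lt (by omega)]

theorem code_inj {x y x' y' : W} (hy : ∀ r, y.get r < 16) (hy' : ∀ r, y'.get r < 16)
    (h : code x y = code x' y') :
    ∃ φ : Fin 6 → Fin 6, Function.Bijective φ ∧ dec x' = dec x ∘ φ ∧ dec y' = dec y ∘ φ := by
  rw [code_eq, code_eq] at h
  have hc : ∀ k, Fintype.card {r // 16 * x'.get r + y'.get r = k} =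
      Fintype.card {r // 16 * x.get r + y.get r = k} := fun k => by
    rw [Fintype.card_subtype, Fintype.card_subtype, ← digit (fun r => 16 * x'.get r + y'.get r),
      ← digit (fun r => 16 * x.get r + y.get r), h]
  let φ := Equiv.ofFiberEquiv (f := fun r => 16 * x'.get r + y'.get r)
    (g := fun r => 16 * x.get r + y.get r) fun k => Fintype.equivOfCardEq (hc k)
  have hφ : ∀ r, 16 * x.get (φ r) + y.get (φ r) = 16 * x'.get r + y'.get r := fun r =>
    Equiv.ofFiberEquiv_map (f := fun r => 16 * x'.get r + y'.get r)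
      (g := fun r => 16 * x.get r + y.get r) (fun k => Fintype.equivOfCardEq (hc k)) r
  refine ⟨φ, φ.bijective, ?_, ?_⟩ <;> funext r <;> have := hφ r <;> have := hy (φ r) <;>
    have := hy' r <;> simp only [dec, Function.comp] <;> omega

open Classical in
noncomputable def vk (T : V → V → ℝ) (n : ℕ) : ℝ :=
  if h : ∃ p : W × W, (∀ r, p.2.get r < 16) ∧ code p.1 p.2 = n then
    T (dec h.choose.1) (dec h.choose.2) else 0

theorem vk_code {T : V → V → ℝ} (hT : Sym T) (x : W) {y : W} (hy : ∀ r, y.get r < 16) :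
    vk T (code x y) = T (dec x) (dec y) := by
  have h : ∃ p : W × W, (∀ r, p.2.get r < 16) ∧ code p.1 p.2 = code x y := ⟨(x, y), hy, rfl⟩
  rw [vk, dif_pos h]
  obtain ⟨φ, hφ, h1, h2⟩ := code_inj h.choose_spec.1 hy h.choose_spec.2
  rw [h1, h2, hT.perm φ hφ]

theorem vk_zero (T : V → V → ℝ) : vk T 0 = 0 := by
  rw [vk, dif_neg]
  rintro ⟨p, -, h⟩
  rw [code_eq] at h
  have : 0 < ∑ r, 7 ^ (16 * p.1.get r + p.2.get r) :=
    sum_pos (fun r _ => by positivity) univ_nonempty
  omega

theorem vk_bd {T : V → V → ℝ} {M : ℝ} (h : ∀ a b, |T a b| ≤ M) (n : ℕ) : |vk T n| ≤ M := by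
  rw [vk]; split_ifs
  · exact h _ _
  · exact le_trans (by simp) (h 0 0)

noncomputable def ev (v : ℕ → ℝ) : Tr → ℝ
  | Tr.leaf => 0
  | Tr.node l k p n r => ev v l + ((p : ℝ) - n) * v k + ev v r

def St (v : ℕ → ℝ) (f : Tr → (Tr → Bool) → Bool) (δ : ℝ) : Prop :=
  ∀ t c, f t c = true → ∃ t', c t' = true ∧ ev v t' = ev v t + δ

theorem St.nil (v : ℕ → ℝ) : St v (fun t c => c t) 0 := fun t _ h => ⟨t, h, by simp⟩

theorem St.seq {v : ℕ → ℝ} {f g : Tr → (Tr → Bool) → Bool} {δ δ' : ℝ} (h : St v f δ)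
    (h' : St v g δ') : St v (fun t c => f t fun t' => g t' c) (δ + δ') := fun t c hc => by
  obtain ⟨t1, h1, e1⟩ := h t _ hc
  obtain ⟨t2, h2, e2⟩ := h' t1 _ h1
  exact ⟨t2, h2, by rw [e2, e1, add_assoc]⟩

theorem St.of_eq {v : ℕ → ℝ} {f : Tr → (Tr → Bool) → Bool} {δ δ' : ℝ} (h : St v f δ)
    (e : δ = δ') : St v f δ' := e ▸ h

theorem ins_st (v : ℕ → ℝ) (k p n : ℕ) : St v (ins k p n) (((p : ℝ) - n) * v k) := by
  intro t
  induction t with
  | leaf => intro c h; exact ⟨_, h, by simp [ev]⟩
  | node l k' p' n' r ihl ihr =>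
    intro c h
    change Bool.rec (motive := fun _ => Bool)
        (ins k p n r fun r' => c (Tr.node l k' p' n' r'))
        (Bool.rec (motive := fun _ => Bool)
          (ins k p n l fun l' => c (Tr.node l' k' p' n' r))
          (force (Nat.add p p') fun a => force (Nat.add n n') fun b => c (Tr.node l k' a b r))
          (Nat.ble k' k))
        (Nat.ble k k') = true at h
    cases h1 : Nat.ble k k' with
    | false =>
      rw [h1] at h
      obtain ⟨t', a, b⟩ := ihr _ h
      exact ⟨_, a, by simp only [ev, b]; ring⟩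
    | true =>
      rw [h1] at h
      cases h2 : Nat.ble k' k with
      | false =>
        rw [h2] at h
        obtain ⟨t', a, b⟩ := ihl _ h
        exact ⟨_, a, by simp only [ev, b]; ring⟩
      | true =>
        rw [h2] at h
        have e : k = k' := le_antisymm (Nat.le_of_ble_eq_true h1) (Nat.le_of_ble_eq_true h2)
        simp only [force_eq] at h
        refine ⟨_, h, ?_⟩
        simp only [ev, Nat.add_eq, e]; push_cast; ring

theorem term_st {v : ℕ → ℝ} (h0 : v 0 = 0) (k p n : ℕ) :
    St v (term k p n) (((p : ℝ) - n) * v k) := by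
  cases k with
  | zero => intro t c h; exact ⟨t, h, by simp [h0]⟩
  | succ k => exact ins_st v _ p n

def OK (lo hi : ℕ) (x y : W) : Prop :=
  ∀ r, lo ≤ x.get r ∧ x.get r ≤ hi ∧ lo ≤ y.get r ∧ y.get r ≤ hi ∧
    lo + 8 ≤ x.get r + y.get r ∧ x.get r + y.get r ≤ hi + 8

theorem rng_spec {lo hi a : ℕ} (h : rng lo hi a = true) : lo ≤ a ∧ a ≤ hi := by
  unfold rng at h
  cases h1 : Nat.ble lo a with
  | false => rw [h1] at h; exact absurd h (by simp)
  | true => rw [h1] at h; exact ⟨Nat.le_of_ble_eq_true h1, Nat.le_of_ble_eq_true h⟩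

theorem rngW_spec {lo hi : ℕ} {x : W} (h : rngW lo hi x = true) (r : Fin 6) :
    lo ≤ x.get r ∧ x.get r ≤ hi := by
  simp only [rngW, Bool.and_eq_true] at h
  obtain ⟨⟨⟨⟨⟨h0, h1⟩, h2⟩, h3⟩, h4⟩, h5⟩ := h
  fin_cases r
  exacts [rng_spec h0, rng_spec h1, rng_spec h2, rng_spec h3, rng_spec h4, rng_spec h5]

theorem okB_spec {lo hi : ℕ} {x y : W} (h : okB lo hi x y = true) : OK lo hi x y := by
  simp only [okB, Bool.and_eq_true] at h
  intro r
  have h1 := rngW_spec h.1.1 r
  have h2 := rngW_spec h.1.2 r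
  have h3 := rngW_spec h.2 r
  rw [get_addW] at h3
  simp only [Nat.add_eq] at h3
  omega

theorem cd_ok {T : V → V → ℝ} (hT : Sym T) (j : ℕ) {x y : W}
    (hx : ∀ r, 1 ≤ x.get r ∧ x.get r ≤ 15) (hy : ∀ r, 1 ≤ y.get r ∧ y.get r ≤ 15) :
    vk T (cd j x y) = T (dec x) (dec y) := by
  have nx := dec_neg (x := x) fun r => by have := hx r; omega
  have ny := dec_neg (x := y) fun r => by have := hy r; omega
  match j with
  | 0 => exact vk_code hT x fun r => by have := hy r; omega
  | 1 => exact (vk_code hT y fun r => by have := hx r; omega).trans (hT.swap _ _)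
  | 2 =>
    refine (vk_code hT (neg x) (y := neg y) fun r => by
      have := hy r; rw [get_neg]; omega).trans ?_
    rw [nx, ny, hT.neg]
  | j + 3 =>
    refine (vk_code hT (neg y) (y := neg x) fun r => by
      have := hx r; rw [get_neg]; omega).trans ?_
    rw [nx, ny, hT.neg, hT.swap]

theorem zk_ok {T : V → V → ℝ} (hT : Sym T) {f g : W → Bool} (j : ℕ) {x y : W}
    (hy : ∀ r, y.get r < 16) (h1 : f x = true → T (dec x) (dec y) = 0)
    (h2 : f y = true → T (dec x) (dec y) = 0) (h3 : g (third x y) = true → T (dec x) (dec y) = 0) :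
    vk T (zk f g j x y) = T (dec x) (dec y) := by
  have key : ∀ b : Bool, (b = true → T (dec x) (dec y) = 0) →
      vk T (Bool.rec (motive := fun _ => ℕ) (code x y) 0 b) = T (dec x) (dec y) := by
    intro b hb
    cases b with
    | false => exact vk_code hT x hy
    | true => rw [hb rfl]; exact vk_zero T
  match j with
  | 0 => exact key _ h1
  | 1 => exact key _ h2
  | j + 2 => exact key _ h3

theorem dP_eq (x : W) : dP x = ∑ r, (x.get r - 8) := by
  cases x
  simp only [dP, Fin.sum_univ_six, W.get, Nat.add_eq, Nat.sub_eq]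
  simp
  ring

theorem dN_eq (x : W) : dN x = ∑ r, (8 - x.get r) := by
  cases x
  simp only [dN, Fin.sum_univ_six, W.get, Nat.add_eq, Nat.sub_eq]
  simp
  ring

theorem peel_one {f : Fin 6 → ℕ} {n : ℕ} (h : ∑ r, f r = n + 1) :
    ∃ p, ∃ g : Fin 6 → ℕ, (∀ r, (f r : ℤ) = g r + e p r) ∧ ∑ r, g r = n := by
  obtain ⟨p, hp⟩ : ∃ p, f p ≠ 0 := by
    by_contra hc
    push Not at hc
    simp [hc] at h
  refine ⟨p, fun r => f r - if r = p then 1 else 0, fun r => ?_, ?_⟩
  · by_cases hr : r = p
    · subst hr; simp only [e, Pi.single_eq_same, if_true]; omega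
    · simp [e, hr]
  · have h2 : ∑ r, f r = ∑ r, ((f r - if r = p then 1 else 0) + if r = p then 1 else 0) :=
      sum_congr rfl fun r _ => by
        by_cases hr : r = p
        · subst hr; simp only [if_true]; omega
        · simp [hr]
    rw [sum_add_distrib] at h2
    simp only [sum_ite_eq', mem_univ, if_true] at h2
    show ∑ r, (f r - if r = p then 1 else 0) = n
    omega

theorem e_nonneg (p r : Fin 6) : 0 ≤ e p r := by
  by_cases h : r = p
  · subst h; simp [e]
  · simp [e, h]

theorem e_self (p : Fin 6) : e p p = 1 := by simp [e]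

theorem z1_spec {x : W} (h : z1 x = true) : ∃ r t, r ≠ t ∧ dec x = e r - e t := by
  unfold z1 at h
  cases h1 : Nat.beq (dP x) 1 with
  | false => rw [h1] at h; exact absurd h (by simp)
  | true =>
    rw [h1] at h
    have a := Nat.eq_of_beq_eq_true h1
    have b := Nat.eq_of_beq_eq_true h
    rw [dP_eq] at a; rw [dN_eq] at b
    obtain ⟨p, g, hg, hs⟩ := peel_one (n := 0) a
    obtain ⟨q, g', hg', hs'⟩ := peel_one (n := 0) b
    rw [sum_eq_zero_iff] at hs hs'
    refine ⟨p, q, ?_, ?_⟩
    · rintro rfl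
      have := hg p; have := hg' p; have := e_self p; omega
    · funext r
      have := hg r; have := hg' r; have := hs r (mem_univ _); have := hs' r (mem_univ _)
      simp only [dec, Pi.sub_apply]; omega

theorem z2_spec {x : W} (h : z2 x = true) :
    ∃ p q r t, e p + e q - e r - e t ≠ 0 ∧ dec x = e p + e q - e r - e t := by
  unfold z2 at h
  cases h1 : Nat.beq (dP x) 2 with
  | false =>
    rw [h1] at h
    obtain ⟨r, t, hrt, hx⟩ := z1_spec h
    have : e r + e r - e r - e t = e r - e t := by abel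
    refine ⟨r, r, r, t, ?_, by rw [this, hx]⟩
    rw [this]
    intro h0
    have := congrFun h0 r
    simp [e, hrt] at this
  | true =>
    rw [h1] at h
    have a := Nat.eq_of_beq_eq_true h1
    have b := Nat.eq_of_beq_eq_true h
    rw [dP_eq] at a; rw [dN_eq] at b
    obtain ⟨p, g, hg, hs⟩ := peel_one (n := 1) a
    obtain ⟨q, g1, hg1, hs1⟩ := peel_one (n := 0) hs
    obtain ⟨r, g', hg', hs'⟩ := peel_one (n := 1) b
    obtain ⟨t, g2, hg2, hs2⟩ := peel_one (n := 0) hs'
    rw [sum_eq_zero_iff] at hs1 hs2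
    have hx : dec x = e p + e q - e r - e t := by
      funext s
      have := hg s; have := hg' s; have := hs1 s (mem_univ _); have := hs2 s (mem_univ _)
      have := hg1 s; have := hg2 s
      simp only [dec, Pi.sub_apply, Pi.add_apply]; omega
    refine ⟨p, q, r, t, ?_, hx⟩
    rw [← hx]
    intro h0
    have h3 := congrFun h0 p
    have := hg p; have := e_self p
    simp only [dec, Pi.zero_apply] at h3; omega

def KeyOK (T : V → V → ℝ) (key : ℕ → W → W → ℕ) : Prop :=
  ∀ h x y, OK 1 15 x y → vk T (key h x y) = T (dec x) (dec y)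

theorem keyS_ok {T : V → V → ℝ} (hT : Sym T) (hr : ∀ a b, T a (-a - b) = T a b) {f : W → Bool}
    (hf : ∀ x, f x = true → ∀ b, T (dec x) b = 0) : KeyOK T (keyS f) := by
  intro h x y hxy
  have hx : ∀ r, 1 ≤ x.get r ∧ x.get r ≤ 15 := fun r => by have := hxy r; omega
  have hy : ∀ r, 1 ≤ y.get r ∧ y.get r ≤ 15 := fun r => by have := hxy r; omega
  have hz : ∀ r, 1 ≤ (third x y).get r ∧ (third x y).get r ≤ 15 := fun r => by
    have := hxy r; rw [get_third]; omega
  have dz := dec_third (x := x) (y := y) fun r => by have := hxy r; omega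
  unfold keyS
  generalize Nat.div h 4 = i
  match i with
  | 0 => exact cd_ok hT _ hx hy
  | 1 => exact (cd_ok hT _ hx hz).trans (by rw [dz, hr])
  | 2 =>
    refine (cd_ok hT _ hy hz).trans ?_
    rw [dz, show -dec x - dec y = -dec y - dec x by abel, hr, hT.swap]
  | i + 3 =>
    refine zk_ok hT _ (fun r => by have := hy r; omega) (fun h => hf x h _)
      (fun h => by rw [← hT.swap]; exact hf y h _) fun h => ?_
    rw [← hr, ← dz, ← hT.swap]; exact hf _ h _

variable {A B C : V → V → ℝ}

theorem keyA_ok (hL : Lin 6 A B C) : KeyOK A keyA :=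
  keyS_ok hL.symA hL.rotA fun x h b => by
    obtain ⟨r, t, hrt, hx⟩ := z1_spec h
    rw [hx]; exact hL.vA r t hrt b

theorem z2C (hV : Van B C) (x : W) (h : z2 x = true) (b : V) : C (dec x) b = 0 := by
  obtain ⟨p, q, r, t, h0, hx⟩ := z2_spec h
  rw [hx]; exact hV.vC p q r t h0 b

theorem keyC_ok (hL : Lin 6 A B C) (hV : Van B C) : KeyOK C keyC :=
  keyS_ok hL.symC hL.rotC (z2C hV)

theorem keyB_ok (hL : Lin 6 A B C) (hV : Van B C) : KeyOK B keyB := by
  intro h x y hxy
  have hx : ∀ r, 1 ≤ x.get r ∧ x.get r ≤ 15 := fun r => by have := hxy r; omega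
  have hy : ∀ r, 1 ≤ y.get r ∧ y.get r ≤ 15 := fun r => by have := hxy r; omega
  have dz := dec_third (x := x) (y := y) fun r => by have := hxy r; omega
  have h1 : ∀ x, z1 x = true → ∀ b, B (dec x) b = 0 := fun x h b => by
    obtain ⟨r, t, hrt, hx⟩ := z1_spec h
    rw [hx]; exact hL.vB r t hrt b
  unfold keyB
  generalize Nat.div h 4 = i
  match i with
  | 0 => exact cd_ok hL.symB _ hx hy
  | i + 1 =>
    refine zk_ok hL.symB _ (fun r => by have := hy r; omega) (fun h => h1 x h _)
      (fun h => by rw [← hL.symB.swap]; exact h1 y h _) fun h => ?_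
    obtain ⟨p, q, r, t, h0, hz⟩ := z2_spec h
    have := hV.vB p q r t h0 (dec x)
    rwa [← hz, dz, show -dec x - (-dec x - dec y) = dec y by abel] at this

end Vale.Agent.P355.Ck
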