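import Vale.Agent.P355.CkS1

namespace Vale.Agent.P355.Ck

open Finset

noncomputable def sg (s : Bool) : ℝ := if s then 1 else -1

noncomputable def ySum (T : V → V → ℝ) (a : W) (Y : List SW) : ℝ :=
  (Y.map fun h => sg h.2 * T (dec a) (dec h.1)).sum

theorem pairL_st {T : V → V → ℝ} (hT : Sym T) (a : W) (p n : ℕ) (Y : List SW)
    (hY : ∀ h ∈ Y, ∀ r, h.1.get r < 16) :
    St (vk T) (pairL a p n Y) (((p : ℝ) - n) * ySum T a Y) := by
  induction Y with
  | nil => exact (St.nil _).of_eq (by simp [ySum])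
  | cons h Y ih =>
    obtain ⟨u, s⟩ := h
    have ih' := ih fun h hh => hY h (List.mem_cons_of_mem _ hh)
    have hu := vk_code hT a (hY (u, s) List.mem_cons_self)
    cases s with
    | false =>
      refine ((term_st (vk_zero T) (code a u) n p).seq ih').of_eq ?_
      simp only at hu
      simp only [ySum, List.map_cons, List.sum_cons, hu, sg]; simp; ring
    | true =>
      refine ((term_st (vk_zero T) (code a u) p n).seq ih').of_eq ?_
      simp only at hu
      simp only [ySum, List.map_cons, List.sum_cons, hu, sg]; simp; ring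

theorem pairZ_st {T : V → V → ℝ} (hT : Sym T) (a : W) (X : ℤ) (Y : List SW)
    (hY : ∀ h ∈ Y, ∀ r, h.1.get r < 16) :
    St (vk T) (pairZ a X Y) ((X : ℝ) * ySum T a Y) := by
  have h := pairL_st hT a X.toNat (-X).toNat Y hY
  have e1 : ((X.toNat : ℝ) - ((-X).toNat : ℝ)) = X := by
    have : ((X.toNat : ℤ) - ((-X).toNat : ℤ)) = X := Int.toNat_sub_toNat_neg X
    exact_mod_cast this
  rw [e1] at h
  intro t c hc
  simp only [pairZ, force_eq] at hc
  exact h t c hc

def φ (p : W) (r : Fin 6) : Fin 6 := ⟨min (p.get r) 5, by omega⟩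

theorem getN_eq (x : W) (i : ℕ) : getN x i = x.get ⟨min i 5, by omega⟩ := by
  cases x
  match i with
  | 0 => rfl
  | 1 => rfl
  | 2 => rfl
  | 3 => rfl
  | 4 => rfl
  | i + 5 =>
    have : min (i + 5) 5 = 5 := by omega
    simp only [this]; rfl

theorem get_app (p x : W) (r : Fin 6) : (app p x).get r = x.get (φ p r) := by
  fin_cases r <;> exact getN_eq _ _

theorem dec_app (p x : W) : dec (app p x) = dec x ∘ φ p := by
  funext r; simp [dec, get_app]

theorem φ_app (p q : W) : φ (app p q) = φ q ∘ φ p := by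
  funext r; simp only [φ, get_app, Function.comp]

noncomputable def Yl (ε : Bool) (b : W) : List SW → List SW → List SW
  | [], acc => acc
  | g :: G, acc => Yl ε b G ((neg (app g.1 b), g.2) :: (app g.1 b, g.2 == ε) :: acc)

theorem mkY_eq (ε : Bool) (b : W) (G acc : List SW) (c : List SW → Bool) :
    mkY ε b G acc c = c (Yl ε b G acc) := by
  induction G generalizing acc with
  | nil => rfl
  | cons g G ih =>
    obtain ⟨p, s⟩ := g
    change (forceW (app p b) fun u => forceW (neg u) fun v =>
      Bool.rec (motive := fun _ => Bool)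
        (Bool.rec (motive := fun _ => Bool) (mkY ε b G ((v, false) :: (u, true) :: acc) c)
          (mkY ε b G ((v, false) :: (u, false) :: acc) c) ε)
        (Bool.rec (motive := fun _ => Bool) (mkY ε b G ((v, true) :: (u, false) :: acc) c)
          (mkY ε b G ((v, true) :: (u, true) :: acc) c) ε) s) = _
    rw [forceW_eq, forceW_eq]
    cases s <;> cases ε <;> exact ih _

noncomputable def Mk (T : V → V → ℝ) (ε : Bool) (a b : V) : ℝ := T a (-b) + sg ε * T a b

noncomputable def E (T : V → V → ℝ) (ε : Bool) (G : List SW) (a b : W) : ℝ :=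
  (G.map fun g => sg g.2 * Mk T ε (dec a) (dec b ∘ φ g.1)).sum

theorem ySum_Yl (T : V → V → ℝ) (ε : Bool) (a : W) {b : W} (hb : ∀ r, b.get r ≤ 15)
    (G acc : List SW) : ySum T a (Yl ε b G acc) = E T ε G a b + ySum T a acc := by
  induction G generalizing acc with
  | nil => simp [Yl, E]
  | cons g G ih =>
    obtain ⟨p, s⟩ := g
    have h1 : dec (neg (app p b)) = -(dec b ∘ φ p) := by
      rw [dec_neg fun r => by rw [get_app]; have := hb (φ p r); omega, dec_app]
    rw [Yl, ih]
    simp only [ySum, E, List.map_cons, List.sum_cons, h1, dec_app, Mk]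
    cases s <;> cases ε <;> simp [sg] <;> ring

theorem Yl_lt (ε : Bool) {b : W} (hb : ∀ r, 1 ≤ b.get r ∧ b.get r ≤ 15) (G acc : List SW)
    (hacc : ∀ h ∈ acc, ∀ r, h.1.get r < 16) : ∀ h ∈ Yl ε b G acc, ∀ r, h.1.get r < 16 := by
  induction G generalizing acc with
  | nil => exact hacc
  | cons g G ih =>
    refine ih _ fun h hh r => ?_
    have := hb (φ g.1 r)
    rcases List.mem_cons.mp hh with rfl | hh
    · simp only [get_neg, get_app]; omega
    rcases List.mem_cons.mp hh with rfl | hh
    · simp only [get_app]; omega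
    exact hacc h hh r

noncomputable def mkRY (ε : Bool) (G : List SW) (r : Row) : RY := (r, Yl ε r.a G [])

theorem mkR_eq (ε : Bool) (G : List SW) (rs : List Row) (c : List RY → Bool) :
    mkR ε G rs c = c (rs.map (mkRY ε G)) := by
  induction rs generalizing c with
  | nil => rfl
  | cons r rs ih =>
    change (mkY ε r.a G [] fun Y => mkR ε G rs fun acc => c ((r, Y) :: acc)) = _
    rw [mkY_eq, ih]; rfl

def RowOK (rs : List Row) : Prop := ∀ r ∈ rs, ∀ i, 1 ≤ r.a.get i ∧ r.a.get i ≤ 15

theorem pair_st {T : V → V → ℝ} (hT : Sym T) (ε : Bool) (G : List SW) (a : W) (X : ℤ) (s : Row)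
    (hs : ∀ i, 1 ≤ s.a.get i ∧ s.a.get i ≤ 15) :
    St (vk T) (pairZ a X (mkRY ε G s).2) ((X : ℝ) * E T ε G a s.a) := by
  refine (pairZ_st hT a X _ (Yl_lt ε hs G [] (by simp))).of_eq ?_
  rw [ySum_Yl T ε a fun i => (hs i).2]; simp [ySum]

theorem rowL_st {T : V → V → ℝ} (hT : Sym T) (ε : Bool) (G : List SW) (cf : Row → Row → ℤ)
    (r : Row) (rs : List Row) (h : RowOK rs) :
    St (vk T) (rowL cf r (rs.map (mkRY ε G)))
      (2 * (rs.map fun s => (cf r s : ℝ) * E T ε G r.a s.a).sum) := by
  induction rs with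
  | nil => exact (St.nil _).of_eq (by simp)
  | cons s rs ih =>
    refine ((pair_st hT ε G r.a (Int.mul 2 (cf r s)) s (h s List.mem_cons_self)).seq
      (ih fun x hx => h x (List.mem_cons_of_mem _ hx))).of_eq ?_
    simp only [List.map_cons, List.sum_cons, Int.mul_def]; push_cast; ring

noncomputable def Q (K : Row → Row → ℝ) (rs : List Row) : ℝ :=
  (rs.map fun r => (rs.map fun s => K r s).sum).sum

theorem Q_cons {K : Row → Row → ℝ} (hK : ∀ r s, K s r = K r s) (r : Row) (rs : List Row) :
    Q K (r :: rs) = K r r + 2 * (rs.map fun s => K r s).sum + Q K rs := by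
  simp only [Q, List.map_cons, List.sum_cons, List.sum_map_add]
  simp only [hK r]
  ring

theorem triL_st {T : V → V → ℝ} (hT : Sym T) (ε : Bool) (G : List SW) (sk : W → Bool)
    (hsk : ∀ a, sk a = true → ∀ b, T (dec a) b = 0) (cf : Row → Row → ℤ)
    (hK : ∀ r s : Row, (cf s r : ℝ) * E T ε G s.a r.a = (cf r s : ℝ) * E T ε G r.a s.a)
    (rs : List Row) (h : RowOK rs) :
    St (vk T) (triL sk cf (rs.map (mkRY ε G)))
      (Q (fun r s => (cf r s : ℝ) * E T ε G r.a s.a) rs) := by
  induction rs with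
  | nil => exact (St.nil _).of_eq (by simp [Q])
  | cons r rs ih =>
    have h' : RowOK rs := fun x hx => h x (List.mem_cons_of_mem _ hx)
    rw [Q_cons hK]
    intro t c hc
    change Bool.rec (motive := fun _ => Bool)
      (pairZ r.a (cf r r) (mkRY ε G r).2 t fun t' => rowL cf r (rs.map (mkRY ε G)) t' fun t'' =>
        triL sk cf (rs.map (mkRY ε G)) t'' c)
      (triL sk cf (rs.map (mkRY ε G)) t c) (sk r.a) = true at hc
    cases hs : sk r.a with
    | false =>
      rw [hs] at hc
      exact (((pair_st hT ε G r.a (cf r r) r (h r List.mem_cons_self)).seq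
        ((rowL_st hT ε G cf r rs h').seq (ih h'))).of_eq (by ring)) t c hc
    | true =>
      rw [hs] at hc
      have h0 : ∀ b, E T ε G r.a b = 0 := fun b => by simp [E, Mk, hsk _ hs]
      exact ((ih h').of_eq (by simp [h0])) t c hc

noncomputable def mulG (g g' : SW) : SW := (app g.1 g'.1, g.2 == g'.2)

def GOK (G : List SW) : Prop :=
  G ≠ [] ∧ (∀ g ∈ G, Function.Bijective (φ g.1)) ∧ ∀ g ∈ G, (G.map (mulG g)).Perm G

theorem Mk_perm {T : V → V → ℝ} (hT : Sym T) (ε : Bool) {f : Fin 6 → Fin 6}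
    (hf : Function.Bijective f) (a b : V) : Mk T ε (a ∘ f) (b ∘ f) = Mk T ε a b := by
  have : -(b ∘ f) = (-b) ∘ f := rfl
  simp only [Mk, this, hT.perm f hf]

theorem Mk_symm {T : V → V → ℝ} (hT : Sym T) (ε : Bool) (a b : V) : Mk T ε b a = Mk T ε a b := by
  have : T b (-a) = T a (-b) := by rw [← hT.neg, neg_neg, hT.swap]
  simp only [Mk, this, hT.swap a b]

theorem E_inner {T : V → V → ℝ} (hT : Sym T) (ε : Bool) {G : List SW} (hG : GOK G) (a b : W)
    {g : SW} (hg : g ∈ G) :
    (G.map fun g' => sg g.2 * sg g'.2 * Mk T ε (dec a ∘ φ g.1) (dec b ∘ φ g'.1)).sum =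
      E T ε G a b := by
  rw [← ((hG.2.2 g hg).map _).sum_eq, List.map_map, E]
  congr 1
  refine List.map_congr_left fun g' _ => ?_
  simp only [Function.comp, mulG, φ_app]
  rw [← Function.comp_assoc, Mk_perm hT ε (hG.2.1 g hg)]
  congr 1
  cases g.2 <;> cases g'.2 <;> simp [sg]

theorem E_double {T : V → V → ℝ} (hT : Sym T) (ε : Bool) {G : List SW} (hG : GOK G) (a b : W) :
    (G.map fun g => (G.map fun g' =>
      sg g.2 * sg g'.2 * Mk T ε (dec a ∘ φ g.1) (dec b ∘ φ g'.1)).sum).sum =
      G.length * E T ε G a b := by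
  rw [List.map_congr_left fun g hg => E_inner hT ε hG a b hg]
  simp

theorem lsum_comm {α β : Type*} (l : List α) (m : List β) (f : α → β → ℝ) :
    (l.map fun a => (m.map fun b => f a b).sum).sum =
      (m.map fun b => (l.map fun a => f a b).sum).sum := by
  induction l with
  | nil => simp
  | cons a l ih => simp only [List.map_cons, List.sum_cons, List.sum_map_add, ih]

theorem len_pos {G : List SW} (hG : GOK G) : (0 : ℝ) < G.length := by
  exact_mod_cast List.length_pos_iff.mpr hG.1

theorem E_symm {T : V → V → ℝ} (hT : Sym T) (ε : Bool) {G : List SW} (hG : GOK G) (a b : W) :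
    E T ε G b a = E T ε G a b := by
  refine mul_left_cancel₀ (len_pos hG).ne' ?_
  rw [← E_double hT ε hG, ← E_double hT ε hG, lsum_comm]
  congr 1
  refine List.map_congr_left fun g _ => ?_
  congr 1
  refine List.map_congr_left fun g' _ => ?_
  rw [Mk_symm hT]; ring

theorem psd_list {T : V → V → ℝ} (hP : Psd T) (ε : Bool) {α : Type*} (l : List α) (y : α → ℝ)
    (a : α → V) : 0 ≤ (l.map fun p => (l.map fun q => y p * y q * Mk T ε (a p) (a q)).sum).sum := by
  have h := hP (sg ε) (by cases ε <;> simp [sg]) l.length (fun i => y l[i]) fun i => a l[i]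
  rw [← Fin.sum_univ_fun_getElem]
  refine h.trans (le_of_eq (sum_congr rfl fun i _ => ?_))
  rw [← Fin.sum_univ_fun_getElem]
  rfl

theorem lsum_prod {α β : Type*} (l : List α) (m : List β) (f : α × β → ℝ) :
    ((l.product m).map f).sum = (l.map fun a => (m.map fun b => f (a, b)).sum).sum := by
  induction l with
  | nil => simp [List.product]
  | cons a l ih =>
    have : (a :: l).product m = m.map (Prod.mk a) ++ l.product m := by simp [List.product]
    rw [this, List.map_append, List.sum_append, ih, List.map_map]; rfl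

theorem E_psd {T : V → V → ℝ} (hT : Sym T) (hP : Psd T) (ε : Bool) {G : List SW} (hG : GOK G)
    (rs : List Row) (y : Row → ℝ) : 0 ≤ Q (fun r s => y r * y s * E T ε G r.a s.a) rs := by
  have h := psd_list hP ε (rs.product G) (fun p => y p.1 * sg p.2.2) fun p => dec p.1.a ∘ φ p.2.1
  refine nonneg_of_mul_nonneg_right ?_ (len_pos hG)
  refine h.trans (le_of_eq ?_)
  rw [lsum_prod, Q, ← List.sum_map_mul_left]
  congr 1
  refine List.map_congr_left fun r _ => ?_
  simp only [lsum_prod]
  rw [lsum_comm, ← List.sum_map_mul_left]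
  congr 1
  refine List.map_congr_left fun s _ => ?_
  rw [mul_left_comm, ← E_double hT ε hG, ← List.sum_map_mul_left]
  congr 1
  refine List.map_congr_left fun g _ => ?_
  rw [← List.sum_map_mul_left]
  congr 1
  refine List.map_congr_left fun g' _ => ?_
  ring

theorem dot_eq (l m : List ℤ) (N : ℕ) (h : l.length ≤ N) :
    dot l m = ∑ k ∈ range N, l.getD k 0 * m.getD k 0 := by
  induction l generalizing m N with
  | nil => simp [dot]
  | cons a l ih =>
    cases m with
    | nil => simp [dot]
    | cons b m =>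
      obtain ⟨N, rfl⟩ : ∃ M, N = M + 1 := ⟨N - 1, by simp at h; omega⟩
      change a * b + dot l m = _
      rw [sum_range_succ', ih m N (by simpa using h), add_comm]
      simp

theorem dot_comm (l m : List ℤ) : dot m l = dot l m := by
  rw [dot_eq m l (l.length + m.length) (by omega), dot_eq l m (l.length + m.length) (by omega)]
  exact sum_congr rfl fun k _ => mul_comm _ _

theorem lsum_fin {α : Type*} (l : List α) (s : Finset ℕ) (f : ℕ → α → ℝ) :
    (l.map fun a => ∑ k ∈ s, f k a).sum = ∑ k ∈ s, (l.map (f k)).sum := by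
  induction l with
  | nil => simp
  | cons a l ih => simp only [List.map_cons, List.sum_cons, ih, sum_add_distrib]

theorem gram_psd {T : V → V → ℝ} (hT : Sym T) (hP : Psd T) (ε : Bool) {G : List SW} (hG : GOK G)
    (rs : List Row) (L : Row → List ℤ) :
    0 ≤ Q (fun r s => (dot (L r) (L s) : ℝ) * E T ε G r.a s.a) rs := by
  obtain ⟨N, hN⟩ : ∃ N, ∀ r ∈ rs, (L r).length ≤ N :=
    ⟨(rs.map fun r => (L r).length).sum, fun r hr =>
      List.single_le_sum (by simp) _ (List.mem_map.mpr ⟨r, hr, rfl⟩)⟩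
  have : Q (fun r s => (dot (L r) (L s) : ℝ) * E T ε G r.a s.a) rs =
      ∑ k ∈ range N, Q (fun r s => (((L r).getD k 0 : ℤ) : ℝ) * (((L s).getD k 0 : ℤ) : ℝ) *
        E T ε G r.a s.a) rs := by
    simp only [Q]
    rw [← lsum_fin]
    congr 1
    refine List.map_congr_left fun r hr => ?_
    rw [← lsum_fin]
    congr 1
    refine List.map_congr_left fun s _ => ?_
    rw [dot_eq _ _ N (hN r hr), ← sum_mul]; push_cast; rfl
  rw [this]
  exact sum_nonneg fun k _ => E_psd hT hP ε hG rs _

def BlkOK (bs : List Blk) : Prop := ∀ b ∈ bs, GOK b.G ∧ RowOK b.rs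

noncomputable def QB (T : V → V → ℝ) (cf : Row → Row → ℤ) (bs : List Blk) : ℝ :=
  (bs.map fun b => Q (fun r s => (cf r s : ℝ) * E T b.ε b.G r.a s.a) b.rs).sum

theorem blkL_st {T : V → V → ℝ} (hT : Sym T) (sk : W → Bool)
    (hsk : ∀ a, sk a = true → ∀ b, T (dec a) b = 0) (cf : Row → Row → ℤ)
    (hcf : ∀ r s, cf s r = cf r s) (bs : List Blk) (h : BlkOK bs) :
    St (vk T) (blkL sk cf bs) (QB T cf bs) := by
  induction bs with
  | nil => exact (St.nil _).of_eq (by simp [QB])
  | cons b bs ih =>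
    have hb := h b List.mem_cons_self
    intro t c hc
    change mkR b.ε b.G b.rs (fun R => triL sk cf R t fun t' => blkL sk cf bs t' c) = true at hc
    rw [mkR_eq] at hc
    exact (((triL_st hT b.ε b.G sk hsk cf (fun r s => by rw [hcf, E_symm hT _ hb.1]) b.rs hb.2).seq
      (ih fun x hx => h x (List.mem_cons_of_mem _ hx))).of_eq (by simp [QB])) t c hc

variable {A B C : V → V → ℝ}

theorem QB_nonneg (hL : Lin 6 A B C) (hP : Pos 6 A B C) (bs : List Blk) (h : BlkOK bs) :
    0 ≤ QB B cfB bs + QB C cfC bs := by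
  rw [QB, QB, ← List.sum_map_add]
  refine List.sum_nonneg fun x hx => ?_
  obtain ⟨b, hb, rfl⟩ := List.mem_map.mp hx
  have hS : Sym fun a b => ((6 : ℕ) : ℝ) * B a b - C a b :=
    ⟨fun f hf a b => by rw [hL.symB.perm f hf, hL.symC.perm f hf],
     fun a b => by rw [hL.symB.neg, hL.symC.neg], fun a b => by rw [hL.symB.swap, hL.symC.swap]⟩
  have h1 := gram_psd hS hP.psdS b.ε (h b hb).1 b.rs Row.l1
  have h2 := gram_psd hL.symC hP.psdC b.ε (h b hb).1 b.rs Row.l2
  refine (add_nonneg h1 h2).trans (le_of_eq ?_)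
  simp only [Q, ← List.sum_map_add]
  congr 1
  refine List.map_congr_left fun r _ => ?_
  congr 1
  refine List.map_congr_left fun s _ => ?_
  have : E (fun a b => ((6 : ℕ) : ℝ) * B a b - C a b) b.ε b.G r.a s.a =
      6 * E B b.ε b.G r.a s.a - E C b.ε b.G r.a s.a := by
    simp only [E, ← List.sum_map_mul_left]
    rw [eq_sub_iff_add_eq, ← List.sum_map_add]
    congr 1
    refine List.map_congr_left fun g _ => ?_
    simp only [Mk]; push_cast; ring
  rw [this]
  have e1 : cfC r s = dot r.l2 s.l2 - dot r.l1 s.l1 := rfl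
  have e2 : cfB r s = 6 * dot r.l1 s.l1 := rfl
  rw [e1, e2]; push_cast; ring

theorem cfB_symm (r s : Row) : cfB s r = cfB r s := by simp only [cfB, dot_comm r.l1]

theorem cfC_symm (r s : Row) : cfC s r = cfC r s := by simp only [cfC, dot_comm r.l1, dot_comm r.l2]

end Vale.Agent.P355.Ck
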