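import Vale.Agent.P355.CkS2

namespace Vale.Agent.P355.Ck

open Finset

theorem conv_st {T : V → V → ℝ} (hT : Sym T) {key : ℕ → W → W → ℕ} (hk : KeyOK T key) (s : Tr) :
    ∀ H t c, conv key s H t c = true →
      ∃ H' t', c H' t' = true ∧ ev (vk T) t' = ev (vk T) t + ev (vk T) s := by
  induction s with
  | leaf => intro H t c h; exact ⟨H, t, h, by simp [ev]⟩
  | node l k p n r ihl ihr =>
    intro H t c h
    obtain ⟨H1, t1, h1, e1⟩ := ihl H t _ h
    cases H1 with
    | nil => exact absurd h1 (by simp)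
    | cons N H1 =>
      change (forceW (dW N) fun x => forceW (dW (Nat.div N 16777216)) fun y =>
          Bool.rec (motive := fun _ => Bool) false
            (Bool.rec (motive := fun _ => Bool) false
              (term (key (Nat.div N 281474976710656) x y) p n t1 fun t' => conv key r H1 t' c)
              (okB 1 15 x y))
            (Nat.beq (code x y) k)) = true at h1
      rw [forceW_eq, forceW_eq] at h1
      generalize dW N = x at h1
      generalize dW (Nat.div N 16777216) = y at h1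
      cases hb : Nat.beq (code x y) k with
      | false => rw [hb] at h1; exact absurd h1 (by simp)
      | true =>
        rw [hb] at h1
        cases ho : okB 1 15 x y with
        | false => rw [ho] at h1; exact absurd h1 (by simp)
        | true =>
          rw [ho] at h1
          have hok := okB_spec ho
          obtain ⟨t2, h2, e2⟩ := term_st (vk_zero T) _ p n t1 _ h1
          obtain ⟨H3, t3, h3, e3⟩ := ihr H1 t2 c h2
          refine ⟨H3, t3, h3, ?_⟩
          rw [e3, e2, e1, hk _ x y hok, ev, ← Nat.eq_of_beq_eq_true hb,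
            vk_code hT x fun r => by have := hok r; omega]
          ring

noncomputable def eX (N : ℕ) : W := dW N
noncomputable def eY (N : ℕ) : W := dW (Nat.div N 16777216)
noncomputable def lam (M N : ℕ) : ℝ :=
  (cP (Nat.div (Nat.div N 281474976710656) M) : ℝ) - cN (Nat.div (Nat.div N 281474976710656) M)

theorem dE_eq (M N : ℕ) (c : W → W → ℕ → ℕ → ℕ → Bool) :
    dE M N c = c (eX N) (eY N) (Nat.mod (Nat.div N 281474976710656) M)
      (cP (Nat.div (Nat.div N 281474976710656) M)) (cN (Nat.div (Nat.div N 281474976710656) M)) := by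
  simp only [dE, forceW_eq, force_eq, eX, eY]

theorem get_up (r : Fin 6) (x : W) (s : Fin 6) :
    (up r x).get s = x.get s + if s = r then 1 else 0 := by
  cases x; fin_cases r <;> fin_cases s <;> rfl

theorem get_dn (r : Fin 6) (x : W) (s : Fin 6) :
    (dn r x).get s = x.get s - if s = r then 1 else 0 := by
  cases x; fin_cases r <;> fin_cases s <;> rfl

theorem dec_up (r : Fin 6) (x : W) : dec (up r x) = dec x + e r := by
  funext s
  simp only [dec, get_up, e, Pi.add_apply, Pi.single_apply]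
  split_ifs <;> omega

theorem dec_dn (r : Fin 6) {x : W} (h : ∀ s, 1 ≤ x.get s) : dec (dn r x) = dec x - e r := by
  funext s
  have := h s
  simp only [dec, get_dn, e, Pi.sub_apply, Pi.single_apply]
  split_ifs <;> omega

variable {T : V → V → ℝ} {key : ℕ → W → W → ℕ}

theorem oL_st (hk : KeyOK T key) {x y : W} (hxy : OK 2 14 x y) (p n : ℕ) (l : List (Fin 6))
    (h : ℕ) : St (vk T) (oL key x y p n (l.map Fin.val) h)
      (((p : ℝ) - n) * (l.map fun r => T (dec x + e r) (dec y - e r)).sum) := by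
  induction l generalizing h with
  | nil => exact (St.nil _).of_eq (by simp)
  | cons r l ih =>
    refine ((term_st (vk_zero T) (key (Nat.mod h 16) (up r x) (dn r y)) p n).seq
      (ih (Nat.div h 16))).of_eq ?_
    rw [hk _ _ _ fun s => by
      have := hxy s; simp only [get_up, get_dn]; split_ifs <;> omega,
      dec_up, dec_dn r fun s => by have := hxy s; omega]
    simp only [List.map_cons, List.sum_cons]; ring

theorem uL_st (hk : KeyOK T key) {x y : W} (hxy : OK 2 14 x y) (p n : ℕ)
    (l : List (Fin 6 × Fin 6)) (h : ℕ) :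
    St (vk T) (uL key x y p n (l.map fun r => (r.1.val, r.2.val)) h)
      (((p : ℝ) - n) * (l.map fun r => T (dec x + e r.1 - e r.2) (dec y)).sum) := by
  induction l generalizing h with
  | nil => exact (St.nil _).of_eq (by simp)
  | cons r l ih =>
    refine ((term_st (vk_zero T) (key (Nat.mod h 16) (dn r.2 (up r.1 x)) y) p n).seq
      (ih (Nat.div h 16))).of_eq ?_
    rw [hk _ _ _ fun s => by
      have := hxy s; simp only [get_up, get_dn]; split_ifs <;> omega,
      dec_dn r.2 fun s => by have := hxy s; rw [get_up]; omega, dec_up]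
    simp only [List.map_cons, List.sum_cons]; ring

def f6 : List (Fin 6) := [0, 1, 2, 3, 4, 5]

def f30 : List (Fin 6 × Fin 6) :=
  [(0, 1), (0, 2), (0, 3), (0, 4), (0, 5), (1, 0), (1, 2), (1, 3), (1, 4), (1, 5),
   (2, 0), (2, 1), (2, 3), (2, 4), (2, 5), (3, 0), (3, 1), (3, 2), (3, 4), (3, 5),
   (4, 0), (4, 1), (4, 2), (4, 3), (4, 5), (5, 0), (5, 1), (5, 2), (5, 3), (5, 4)]

theorem l6_eq : l6 = f6.map Fin.val := by decide

theorem l30_eq : l30 = f30.map fun r => (r.1.val, r.2.val) := by decide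

theorem sum6 (f : Fin 6 → ℝ) : (f6.map f).sum = ∑ r, f r := by
  simp only [f6, List.map_cons, List.sum_cons, List.map_nil, List.sum_nil, Fin.sum_univ_six]; ring

theorem sum30 (f : Fin 6 → Fin 6 → ℝ) :
    (f30.map fun r => f r.1 r.2).sum = ∑ r, ∑ t, f r t - ∑ r, f r r := by
  simp only [f30, List.map_cons, List.sum_cons, List.map_nil, List.sum_nil, Fin.sum_univ_six]; ring

theorem ok_z {x y : W} (h : OK 2 14 x y) : OK 1 15 zW y := fun r => by
  have := h r; rw [get_zW]; omega

theorem eO_st (hk : KeyOK T key) (hT : ∀ x y, ∑ r, T (x + e r) (y - e r) = T 0 (x + y)) {N : ℕ}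
    (h : OK 2 14 (eX N) (eY N)) : St (vk T) (eO key N) 0 := by
  intro t c hc
  rw [eO, dE_eq, l6_eq] at hc
  refine (((term_st (vk_zero T) _ _ _).seq (oL_st hk h _ _ f6 _)).of_eq ?_) t c hc
  rw [hk _ _ _ fun r => by have := h r; simp only [get_zW, get_neg, get_third]; omega,
    dec_neg fun r => by have := h r; rw [get_third]; omega,
    dec_third fun r => by have := h r; omega, dec_zW, sum6, hT,
    show -(-dec (eX N) - dec (eY N)) = dec (eX N) + dec (eY N) by abel]
  ring

theorem eU_st (hk : KeyOK T key) {N : ℕ} (h : OK 2 14 (eX N) (eY N)) :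
    St (vk T) (eU key N) (lam 340282366920938463463374607431768211456 N *
      (∑ r, ∑ t, T (dec (eX N) + e r - e t) (dec (eY N)) - 6 * T (dec (eX N)) (dec (eY N)))) := by
  intro t c hc
  rw [eU, dE_eq, l30_eq] at hc
  refine ((uL_st hk h _ _ f30 _).of_eq ?_) t c hc
  rw [sum30 fun r t => T (dec (eX N) + e r - e t) (dec (eY N))]
  simp [lam]

theorem eV_st (hk : KeyOK T key) (f : W → W → W) {N : ℕ} (h : OK 2 14 (eX N) (eY N))
    (hf : OK 1 15 (eX N) (f (eX N) (eY N))) :
    St (vk T) (eV key f N) (lam 340282366920938463463374607431768211456 N *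
      (6 * T (dec (eX N)) (dec (f (eX N) (eY N))) - 6 * T 0 (dec (eY N)))) := by
  intro t c hc
  rw [eV, dE_eq] at hc
  refine (((term_st (vk_zero T) _ _ _).seq (term_st (vk_zero T) _ _ _)).of_eq ?_) t c hc
  rw [hk _ _ _ (ok_z h), hk _ _ _ hf, dec_zW]
  simp only [lam, Nat.mul_eq]; push_cast; ring

theorem eL_st {v : ℕ → ℝ} {f : ℕ → Tr → (Tr → Bool) → Bool} {δ : ℕ → ℝ} (l : List ℕ)
    (h : ∀ N ∈ l, St v (f N) (δ N)) : St v (eL f l) (l.map δ).sum := by
  induction l with
  | nil => exact (St.nil _).of_eq (by simp)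
  | cons N l ih =>
    exact ((h N List.mem_cons_self).seq
      (ih fun x hx => h x (List.mem_cons_of_mem _ hx))).of_eq (by simp)

theorem eOK_spec {l : List ℕ} (h : eOK l = true) : ∀ N ∈ l, OK 2 14 (eX N) (eY N) := by
  induction l with
  | nil => simp
  | cons N l ih =>
    change Bool.rec (motive := fun _ => Bool) false (eOK l) (okB 2 14 (eX N) (eY N)) = true at h
    cases hb : okB 2 14 (eX N) (eY N) with
    | false => rw [hb] at h; exact absurd h (by simp)
    | true =>
      rw [hb] at h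
      intro x hx
      rcases List.mem_cons.mp hx with rfl | hx
      · exact okB_spec hb
      · exact ih h x hx

theorem ev_le {v : ℕ → ℝ} {M : ℝ} {k0 : ℕ} (h0 : v k0 = M) (hv : ∀ k, |v k| ≤ M) (t : Tr) :
    ev v t ≤ M * ((ubP k0 t : ℝ) - ubN k0 t) := by
  induction t with
  | leaf => simp [ev, ubP, ubN]
  | node l k p n r ihl ihr =>
    change ev v l + ((p : ℝ) - n) * v k + ev v r ≤ M *
      (((ubP k0 l + ubP k0 r + Bool.rec (motive := fun _ => ℕ) (p - n + (n - p)) p (Nat.beq k k0) : ℕ) : ℝ)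
        - ((ubN k0 l + ubN k0 r + Bool.rec (motive := fun _ => ℕ) 0 n (Nat.beq k k0) : ℕ) : ℝ))
    cases hb : Nat.beq k k0 with
    | true =>
      rw [Nat.eq_of_beq_eq_true hb, h0]
      push_cast; linarith
    | false =>
      have h1 : |(p : ℝ) - n| = ((p - n + (n - p) : ℕ) : ℝ) := by
        rcases le_total p n with h | h
        · rw [Nat.sub_eq_zero_of_le h, zero_add, Nat.cast_sub h, abs_sub_comm,
            abs_of_nonneg (sub_nonneg.mpr (by exact_mod_cast h))]
        · rw [Nat.sub_eq_zero_of_le h, add_zero, Nat.cast_sub h,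
            abs_of_nonneg (sub_nonneg.mpr (by exact_mod_cast h))]
      have h2 : ((p : ℝ) - n) * v k ≤ M * ((p - n + (n - p) : ℕ) : ℝ) := by
        rw [← h1, mul_comm M]
        exact (le_abs_self _).trans (by
          rw [abs_mul]; exact mul_le_mul_of_nonneg_left (hv k) (abs_nonneg _))
      simp only [Nat.cast_add, Nat.cast_zero] at h2 ⊢
      linarith

theorem fin_spec {M : ℝ} (hT : Sym T) (h0 : T 0 0 = M) (hb : ∀ a b, |T a b| ≤ M) {P N : ℕ} {t : Tr}
    (h : fin P N t = true) : ev (vk T) t ≤ M * ((P : ℝ) - N) := by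
  rw [fin, force_eq] at h
  have h1 := Nat.le_of_ble_eq_true h
  simp only [Nat.add_eq] at h1
  have h2 : ((ubP (code zW zW) t : ℕ) : ℝ) + N ≤ (ubN (code zW zW) t : ℕ) + P := by
    exact_mod_cast h1
  have hM : 0 ≤ M := (abs_nonneg _).trans (hb 0 0)
  refine (ev_le (k0 := code zW zW) ?_ (vk_bd hb) t).trans
    (mul_le_mul_of_nonneg_left (by linarith) hM)
  rw [vk_code hT _ fun r => by rw [get_zW]; omega, dec_zW, h0]

variable {A B C : V → V → ℝ}

theorem sound (hL : Lin 6 A B C) (hP : Pos 6 A B C) (hV : Van B C) {bs : List Blk}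
    {HB HC oA oB uB uC z : List ℕ} {PA NA PB NB PC NC : ℕ} (hbs : BlkOK bs)
    (k1 : eOK oA = true) (k2 : eOK oB = true) (k3 : eOK uB = true) (k4 : eOK uC = true)
    (k5 : eOK z = true) (rA : passA oA uB PA NA = true)
    (rB : passB bs HB oB uB uC z PB NB = true) (rC : passC bs HC uC z PC NC = true) :
    NA + 6 * NB + 36 * NC ≤ PA + 6 * PB + 36 * PC := by
  have kA := keyA_ok hL
  have kB := keyB_ok hL hV
  have kC := keyC_ok hL hV
  have o1 := eOK_spec k1
  have o2 := eOK_spec k2
  have o3 := eOK_spec k3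
  have o4 := eOK_spec k4
  have o5 := eOK_spec k5
  obtain ⟨a1, ha1, ea1⟩ := eL_st oA (fun N hN => eO_st kA hL.oA (o1 N hN)) _ _ rA
  obtain ⟨a2, ha2, ea2⟩ := eL_st uB (fun N hN => eV_st kA (fun _ y => y) (o3 N hN)
    fun r => by have := o3 N hN r; omega) _ _ ha1
  have fA := fin_spec hL.symA hP.zA hP.bdA ha2
  obtain ⟨b0, hb0, eb0⟩ := blkL_st hL.symB (fun _ => false) (by simp) cfB cfB_symm bs hbs _ _ rB
  obtain ⟨_, b1, hb1, eb1⟩ := conv_st hL.symB kB b0 _ _ _ hb0
  obtain ⟨b2, hb2, eb2⟩ := eL_st oB (fun N hN => eO_st kB hL.oB (o2 N hN)) _ _ hb1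
  obtain ⟨b3, hb3, eb3⟩ := eL_st uB (fun N hN => eU_st kB (o3 N hN)) _ _ hb2
  obtain ⟨b4, hb4, eb4⟩ := eL_st uC (fun N hN => eV_st kB third (o4 N hN)
    fun r => by have := o4 N hN r; rw [get_third]; omega) _ _ hb3
  obtain ⟨b5, hb5, eb5⟩ := eL_st (v := vk B) (f := eZB)
    (δ := fun N => lam 256 N * (6 * B 0 (dec (eY N)))) z (fun N hN t c hc => by
      rw [eZB, dE_eq] at hc
      refine ((term_st (vk_zero B) _ _ _).of_eq ?_) t c hc
      rw [kB _ _ _ (ok_z (o5 N hN)), dec_zW]
      simp only [lam, Nat.mul_eq]; push_cast; ring) _ _ hb4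
  have fB := fin_spec hL.symB hP.zB hP.bdB hb5
  obtain ⟨c0, hc0, ec0⟩ := blkL_st hL.symC z2 (z2C hV) cfC cfC_symm bs hbs _ _ rC
  obtain ⟨_, c1, hc1, ec1⟩ := conv_st hL.symC kC c0 _ _ _ hc0
  obtain ⟨c2, hc2, ec2⟩ := eL_st uC (fun N hN => eU_st kC (o4 N hN)) _ _ hc1
  obtain ⟨c3, hc3, ec3⟩ := eL_st (v := vk C) (f := eZC)
    (δ := fun N => lam 256 N * (-C 0 (dec (eY N)))) z (fun N hN t c hc => by
      rw [eZC, dE_eq] at hc
      refine ((term_st (vk_zero C) _ _ _).of_eq ?_) t c hc
      rw [kC _ _ _ (ok_z (o5 N hN)), dec_zW]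
      simp only [lam]; ring) _ _ hc2
  have fC := fin_spec hL.symC hP.zC hP.bdC hc3
  have q := QB_nonneg hL hP bs hbs
  have z0 : ∀ (l : List ℕ) (f g : ℕ → ℝ), (∀ N ∈ l, f N + g N = 0) →
      (l.map f).sum + (l.map g).sum = 0 := fun l f g h => by
    rw [← List.sum_map_add, List.map_congr_left h]; simp
  have s1 := z0 uB _ _ (fun N _ => show lam 340282366920938463463374607431768211456 N *
      (6 * A (dec (eX N)) (dec (eY N)) - 6 * A 0 (dec (eY N))) +
      lam 340282366920938463463374607431768211456 N *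
      (∑ r, ∑ t, B (dec (eX N) + e r - e t) (dec (eY N)) - 6 * B (dec (eX N)) (dec (eY N))) = 0 by
    rw [hL.uB]; ring)
  have s2 := z0 uC _ _ (fun N hN => show lam 340282366920938463463374607431768211456 N *
      (6 * B (dec (eX N)) (dec (third (eX N) (eY N))) - 6 * B 0 (dec (eY N))) +
      lam 340282366920938463463374607431768211456 N *
      (∑ r, ∑ t, C (dec (eX N) + e r - e t) (dec (eY N)) - 6 * C (dec (eX N)) (dec (eY N))) = 0 by
    rw [hL.uC, dec_third fun r => by have := o4 N hN r; omega]; ring)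
  have s3 := z0 z _ _ (fun N _ => show lam 256 N * (6 * B 0 (dec (eY N))) +
      lam 256 N * (-C 0 (dec (eY N))) = 0 by rw [hL.z2]; push_cast; ring)
  simp only [List.map_const', List.sum_replicate, smul_zero, ev] at ea1 eb0 eb1 eb2 ec0 ec1
  have fin : (NA : ℝ) + 6 * NB + 36 * NC ≤ PA + 6 * PB + 36 * PC := by
    push_cast at fA fB fC
    linarith
  exact_mod_cast fin

end Vale.Agent.P355.Ck
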