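import Mathlib

namespace Vale.Agent.P355

open Finset

/-- orthonormal bases of complex 6-space -/
abbrev ONB := OrthonormalBasis (Fin 6) ℂ (EuclideanSpace ℂ (Fin 6))

/-- pairwise mutually unbiased family -/
def MU {k : ℕ} (B : Fin k → ONB) : Prop :=
  ∀ i j, i ≠ j → ∀ a b, ‖inner ℂ (B i a) (B j b)‖ ^ 2 = 1 / 6

/-- integer exponent vectors -/
abbrev V := Fin 6 → ℤ

/-- unit exponent vector -/
def e (r : Fin 6) : V := Pi.single r 1

/-- `m` mutually unbiased complex Hadamard matrices; `u i k` is column `k` of matrix `i` -/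
structure Cfg (m : ℕ) where
  u : Fin m → Fin 6 → Fin 6 → ℂ
  uni : ∀ i k r, ‖u i k r‖ = 1
  orth : ∀ i k l, ∑ r, u i k r * (starRingEnd ℂ) (u i l r) = if k = l then 6 else 0
  unb : ∀ i j k l, i ≠ j → ‖∑ r, u i k r * (starRingEnd ℂ) (u j l r)‖ ^ 2 = 6

/-- character of the torus -/
noncomputable def mon (w : Fin 6 → ℂ) (a : V) : ℂ := ∏ r, w r ^ a r

/-- Fourier transform of one matrix -/
noncomputable def Cfg.g {m : ℕ} (c : Cfg m) (i : Fin m) (a : V) : ℂ := ∑ k, mon (c.u i k) a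

/-- Fourier transform of the whole configuration -/
noncomputable def Cfg.F {m : ℕ} (c : Cfg m) (a : V) : ℂ := ∑ i, c.g i a

noncomputable def Cfg.TA {m : ℕ} (c : Cfg m) (a b : V) : ℂ :=
  ∑ i, c.g i a * c.g i b * c.g i (-a - b)

noncomputable def Cfg.TB {m : ℕ} (c : Cfg m) (a b : V) : ℂ :=
  ∑ i, c.g i a * c.g i b * c.F (-a - b)

noncomputable def Cfg.TC {m : ℕ} (c : Cfg m) (a b : V) : ℂ :=
  c.F a * c.F b * c.F (-a - b)

/-- average of the real part over coordinate permutations -/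
noncomputable def avg (T : V → V → ℂ) (a b : V) : ℝ :=
  (∑ σ : Equiv.Perm (Fin 6), (T (a ∘ σ) (b ∘ σ)).re) / 720

/-- symmetries shared by all three moment functions -/
structure Sym (T : V → V → ℝ) : Prop where
  perm : ∀ φ : Fin 6 → Fin 6, Function.Bijective φ → ∀ a b, T (a ∘ φ) (b ∘ φ) = T a b
  neg : ∀ a b, T (-a) (-b) = T a b
  swap : ∀ a b, T b a = T a b

/-- positive semidefinite kernel (both signs) -/
def Psd (T : V → V → ℝ) : Prop :=
  ∀ ε : ℝ, (ε = 1 ∨ ε = -1) → ∀ (n : ℕ) (y : Fin n → ℝ) (a : Fin n → V),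
    0 ≤ ∑ i, ∑ j, y i * y j * (T (a i) (-a j) + ε * T (a i) (a j))

/-- linear identities between the moments, valid for every `m` -/
structure Lin (m : ℕ) (A B C : V → V → ℝ) : Prop where
  symA : Sym A
  symB : Sym B
  symC : Sym C
  rotA : ∀ a b, A a (-a - b) = A a b
  rotC : ∀ a b, C a (-a - b) = C a b
  vA : ∀ r t, r ≠ t → ∀ b, A (e r - e t) b = 0
  vB : ∀ r t, r ≠ t → ∀ b, B (e r - e t) b = 0
  oA : ∀ x y, ∑ r, A (x + e r) (y - e r) = A 0 (x + y)
  oB : ∀ x y, ∑ r, B (x + e r) (y - e r) = B 0 (x + y)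
  uB : ∀ x y, ∑ r, ∑ t, B (x + e r - e t) y = 6 * A 0 y + 6 * B x y - 6 * A x y
  uC : ∀ x y, ∑ r, ∑ t, C (x + e r - e t) y = 6 * B 0 y + 6 * C x y - 6 * B x (-x - y)
  z1 : ∀ x, B x (-x) = m * A x (-x)
  z2 : ∀ x, C 0 x = m * B 0 x

/-- bounds, values at zero and positivity, valid for every `m` -/
structure Pos (m : ℕ) (A B C : V → V → ℝ) : Prop where
  bdA : ∀ a b, |A a b| ≤ 216 * m
  bdB : ∀ a b, |B a b| ≤ 216 * m ^ 2
  bdC : ∀ a b, |C a b| ≤ 216 * m ^ 3
  zA : A 0 0 = 216 * m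
  zB : B 0 0 = 216 * m ^ 2
  zC : C 0 0 = 216 * m ^ 3
  psdC : Psd C
  psdS : Psd (fun a b => m * B a b - C a b)

/-- vanishing in degree at most two (complete systems are 2-designs) -/
structure Van (B C : V → V → ℝ) : Prop where
  vB : ∀ p q r t, e p + e q - e r - e t ≠ 0 → ∀ a, B a (-a - (e p + e q - e r - e t)) = 0
  vC : ∀ p q r t, e p + e q - e r - e t ≠ 0 → ∀ b, C (e p + e q - e r - e t) b = 0

end Vale.Agent.P355
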