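import Vale.Agent.P355.Defs

/-! P355: three mutually unbiased bases in dimension six. -/

namespace Vale.Agent.P355

open Finset

namespace Thr

/-- a primitive twelfth root of unity -/
noncomputable def z : ℂ := ⟨√3 / 2, 1 / 2⟩

lemma z2 : z ^ 2 = ⟨1 / 2, √3 / 2⟩ := by
  have h : √3 * √3 = 3 := Real.mul_self_sqrt (by norm_num)
  apply Complex.ext <;> simp [z, pow_two] <;> nlinarith

lemma z4 : z ^ 4 = z ^ 2 - 1 := by
  have h : √3 * √3 = 3 := Real.mul_self_sqrt (by norm_num)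
  rw [show z ^ 4 = z ^ 2 * z ^ 2 by ring, z2]
  apply Complex.ext <;> simp <;> nlinarith

lemma z12 : z ^ 12 = 1 := by
  linear_combination (z ^ 8 + z ^ 6 - z ^ 2 - 1) * z4

lemma zc : (starRingEnd ℂ) z = z ^ 11 := by
  have h : √3 * √3 = 3 := Real.mul_self_sqrt (by norm_num)
  have h1 : (starRingEnd ℂ) z * z = 1 := by
    apply Complex.ext <;> simp [z] <;> nlinarith
  linear_combination z ^ 11 * h1 - (starRingEnd ℂ) z * z12

/-- coordinates of the powers of `z` -/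
def p : ℕ → ℤ × ℤ × ℤ × ℤ
  | 0 => (1, 0, 0, 0)
  | n + 1 => (-(p n).2.2.2, (p n).1, (p n).2.1 + (p n).2.2.2, (p n).2.2.1)

/-- evaluation of coordinates -/
noncomputable def ev : ℤ × ℤ × ℤ × ℤ →+ ℂ where
  toFun x := x.1 + x.2.1 * z + x.2.2.1 * z ^ 2 + x.2.2.2 * z ^ 3
  map_zero' := by simp
  map_add' x y := by simp; ring

lemma ev_p (n : ℕ) : ev (p n) = z ^ n := by
  induction n with
  | zero => simp [ev, p]
  | succ n ih =>
    simp only [ev, p, AddMonoidHom.coe_mk, ZeroHom.coe_mk] at ih ⊢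
    push_cast
    linear_combination z * ih - ((p n).2.2.2 : ℂ) * z4

lemma ev_p' (n : ℕ) : z ^ n = ev (p (n % 12)) := by
  rw [ev_p, ← pow_eq_pow_mod n z12]

/-- exponents -/
def ex (t : Fin 2) (k j : Fin 6) : ℕ := t * j ^ 2 + 2 * j * k

lemma d1 : ∀ t k l, ∑ j, p ((ex t l j + 11 * ex t k j) % 12) =
    if k = l then (6, 0, 0, 0) else 0 := by decide +kernel

lemma d2 : ∀ s t, s ≠ t → ∀ k l, ∑ j, ∑ i,
    p ((ex t l j + 11 * ex s k j + 11 * (ex t l i + 11 * ex s k i)) % 12) = (6, 0, 0, 0) := by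
  decide +kernel

/-- the vectors -/
noncomputable def v (t : Fin 2) (k : Fin 6) : EuclideanSpace ℂ (Fin 6) :=
  WithLp.toLp 2 fun j => ((√6)⁻¹ : ℝ) * z ^ ex t k j

lemma c6 : (((√6)⁻¹ : ℝ) : ℂ) * ((√6)⁻¹ : ℝ) = 1 / 6 := by
  rw [← Complex.ofReal_mul, ← mul_inv, Real.mul_self_sqrt (by norm_num)]
  norm_num

lemma inner_v (s t : Fin 2) (k l : Fin 6) :
    inner ℂ (v s k) (v t l) = 1 / 6 * ∑ j, z ^ (ex t l j + 11 * ex s k j) := by
  rw [PiLp.inner_apply, mul_sum]
  refine sum_congr rfl fun j _ => ?_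
  simp only [v, RCLike.inner_apply, map_mul, Complex.conj_ofReal, map_pow, zc]
  rw [← c6]
  ring

lemma on (t : Fin 2) : Orthonormal ℂ (v t) := by
  refine orthonormal_iff_ite.2 fun k l => ?_
  simp only [inner_v, ev_p', ← map_sum, d1]
  split_ifs <;> simp [ev]

lemma ub {s t : Fin 2} (h : s ≠ t) (k l : Fin 6) : ‖inner ℂ (v s k) (v t l)‖ ^ 2 = 1 / 6 := by
  have h1 : ((‖∑ j, z ^ (ex t l j + 11 * ex s k j)‖ ^ 2 : ℝ) : ℂ) = 6 := by
    rw [Complex.ofReal_pow, ← Complex.mul_conj', map_sum, sum_mul_sum]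
    simp only [map_pow, zc, ← pow_mul, ← pow_add]
    simp only [ev_p', ← map_sum, d2 s t h]
    simp [ev]
  have h2 : ‖∑ j, z ^ (ex t l j + 11 * ex s k j)‖ ^ 2 = 6 := by exact_mod_cast h1
  rw [inner_v, norm_mul, mul_pow, h2]
  norm_num

lemma nv (t : Fin 2) (k j : Fin 6) : ‖v t k j‖ ^ 2 = 1 / 6 := by
  have h : ‖z‖ = 1 := (pow_eq_one_iff_of_nonneg (norm_nonneg _) (by norm_num : 12 ≠ 0)).1
    (by rw [← norm_pow, z12, norm_one])
  simp [v, h]

/-- the two non-standard bases -/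
noncomputable def b (t : Fin 2) : ONB :=
  (basisOfOrthonormalOfCardEqFinrank (on t) (by simp)).toOrthonormalBasis (by simpa using on t)

lemma b_eq (t : Fin 2) (k : Fin 6) : b t k = v t k := by simp [b]

end Thr

open Thr in
theorem exists_three : ∃ B : Fin 3 → ONB, MU B := by
  refine ⟨Fin.cons (EuclideanSpace.basisFun (Fin 6) ℂ) b, fun i j h k l => ?_⟩
  induction i using Fin.cases <;> induction j using Fin.cases
  · exact absurd rfl h
  · simp only [Fin.cons_zero, Fin.cons_succ, EuclideanSpace.basisFun_inner, b_eq, nv]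
  · rw [norm_inner_symm]
    simp only [Fin.cons_zero, Fin.cons_succ, EuclideanSpace.basisFun_inner, b_eq, nv]
  · simp only [Fin.cons_succ, b_eq]
    exact ub (fun e => h (congrArg _ e)) k l

end Vale.Agent.P355
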