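import Vale.Agent.P355.K3Fin
import Vale.Agent.P355.AxSys
import Vale.Agent.P355.AxLin
import Vale.Agent.P355.AxPos
import Vale.Agent.P355.AxF33
import Vale.Agent.P355.AxF221
import Vale.Agent.P355.AxF1111
import Vale.Agent.P355.Bases
import Vale.Agent.P355.Three

namespace Vale.Agent.P355

theorem no_four (B : Fin 4 → ONB) (h : MU B) : False := by
  obtain ⟨S, c, hf⟩ := sys_of_bases B h
  exact K3.no_ax (axL_mean c fun f => axL_of_cfg _) (axP_mean c fun f => axP_of_cfg _)
    ⟨f33_of_sys S c hf, f221_of_sys S c hf, f1111_of_sys S c hf⟩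

theorem le_three (k : ℕ) (B : Fin k → ONB) (h : MU B) : k ≤ 3 := by
  by_contra hk
  exact no_four _ (MU.restrict B h (show 4 ≤ k by omega))

end Vale.Agent.P355
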