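/-! Kernel-friendly certificate checker for four bases: definitions only. -/

namespace Vale.Agent.P355.K3

inductive Tr where
  | lf : Nat → Nat → Tr
  | nd : Tr → Nat → Tr → Tr

/-- offset of the stored values -/
def OFF : Nat := 1267650600228229401496703205376

noncomputable def lfS (k s : Nat) (c : Tr → Bool) : Bool :=
  Nat.rec (motive := fun _ => Bool) false (fun m _ => c (Tr.lf k (Nat.succ m))) s

noncomputable def spl (k p n k' s : Nat) (c : Tr → Bool) : Bool :=
  lfS k (Nat.sub (Nat.add OFF p) n) fun x =>
    Bool.rec (motive := fun _ => Bool) (c (Tr.nd (Tr.lf k' s) k' x)) (c (Tr.nd x k (Tr.lf k' s)))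
      (Nat.ble k k')

/-- add `p - n` to the value stored under key `k` -/
noncomputable def ins (k p n : Nat) (t : Tr) (c : Tr → Bool) : Bool :=
  Tr.rec (motive := fun _ => (Tr → Bool) → Bool)
    (fun k' s c => Bool.rec (motive := fun _ => Bool) (spl k p n k' s c)
      (lfS k' (Nat.sub (Nat.add s p) n) c) (Nat.beq k k'))
    (fun l k' r ihl ihr c =>
      Bool.rec (motive := fun _ => Bool) (ihr fun r' => c (Tr.nd l k' r'))
        (ihl fun l' => c (Tr.nd l' k' r)) (Nat.ble k k')) t c

noncomputable def nrm (t : Tr) : Nat :=
  Tr.rec (motive := fun _ => Nat) (fun _ s => Nat.add (Nat.sub s OFF) (Nat.sub OFF s))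
    (fun _ _ _ a b => Nat.add a b) t

abbrev Gen := Tr → (Tr → Bool) → Bool

noncomputable def sq (f g : Gen) : Gen := fun t c => f t fun t' => g t' c

noncomputable def run (f : Gen) (R : Nat) : Bool := f (Tr.lf 0 OFF) fun t => Nat.ble (nrm t) R

/-- base 2048 digit at bit position `s` -/
noncomputable def dg (T s : Nat) : Nat := Nat.mod (Nat.shiftRight T s) 2048

noncomputable def cod (T : Nat) : Nat :=
  Nat.add (Nat.add (Nat.add (Nat.pow 7 (Nat.mod T 2048)) (Nat.pow 7 (dg T 11)))
    (Nat.add (Nat.pow 7 (dg T 22)) (Nat.pow 7 (dg T 33))))
    (Nat.add (Nat.pow 7 (dg T 44)) (Nat.pow 7 (dg T 55)))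

noncomputable def fld (V s : Nat) : Nat := Nat.mod (Nat.shiftRight V s) 73786976294838206464

noncomputable def key2 (e V : Nat) : Nat :=
  cod (Nat.add (Nat.mul 41 (fld V (Nat.mod e 512))) (fld V (Nat.div e 512)))

/-- key of the pair of fields selected by a table entry -/
noncomputable def key (tb h V : Nat) : Nat :=
  key2 (Nat.mod (Nat.shiftRight tb (Nat.mul 18 (Nat.mod h 16))) 262144) V

def tA : Nat := 192826044298622930575932956497593413670281914990569564588621195441473150367216488186880
def tB : Nat := 192826044298622930575919354518630351489612519450740535987504023310453598792178140218368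
def tX : Nat := 192951499932461461851496734382752080103966906343309657042188008826059840118659384150016
def tR : Nat := 64108317997274427361076499961385083060293863455228535828720044812082129688938967761920
def tO : Nat := 321292125679225278189467030948075255055778893959897123220037867579613018116452114303372
def tZ : Nat := 193075489684676423467314031025305088935191167049440051562597777955448758738574178779532
def tN : Nat := 376366901515593826732139592365185843063160677707363164051956546818723979443731794944

/-- six base-17 digits spread to base 2048 -/
noncomputable def spr (N : Nat) : Nat :=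
  Nat.add (Nat.add (Nat.add (Nat.mod N 17) (Nat.mul (Nat.mod (Nat.div N 17) 17) 2048))
    (Nat.add (Nat.mul (Nat.mod (Nat.div N 289) 17) 4194304) (Nat.mul (Nat.mod (Nat.div N 4913) 17) 8589934592)))
    (Nat.add (Nat.mul (Nat.mod (Nat.div N 83521) 17) 17592186044416)
      (Nat.mul (Nat.mod (Nat.div N 1419857) 17) 36028797018963968))

def AXp : Nat := 2187250724783011924372502227117621365353169430893212436425770606409952999199375923223513177023053825
def AXn : Nat := 401734511064747568890935040956025666045964742164606500208640
def AYp : Nat := 2187250724783011924372502227117621365353169430893212436425770606409952999199375997010489471861260288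
def AYn : Nat := 29642774844752946028434172162224104410442560592274719409516555499744669479206912
def A0 : Nat := 116351007902874678013004482408722236066144492386620499465019024293177079300896947454422648506264764736751642590780060307988381884575932428

noncomputable def mkV2 (X Y : Nat) : Nat :=
  Nat.sub (Nat.add A0 (Nat.add (Nat.mul X AXp) (Nat.mul Y AYp)))
    (Nat.add (Nat.mul X AXn) (Nat.mul Y AYn))

/-- packed fields `x, y, -x-y, -x, -y, x+y, 0` of an item -/
noncomputable def mkV (N : Nat) : Nat := mkV2 (spr N) (spr (Nat.div N 24137569))

/-- the part of an item above the two vectors -/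
noncomputable def top (N : Nat) : Nat := Nat.div N 582622237229761

noncomputable def unp (W : Nat) (f : Nat → Gen) (k : Nat) : Nat → Gen :=
  Nat.rec (motive := fun _ => Nat → Gen) (fun _ t c => c t)
    (fun _ ih N t c => f (Nat.mod N W) t fun t' => ih (Nat.div N W) t' c) k

/-- run `f` on all items; every numeral holds 32 items in base `W` -/
noncomputable def eL (W : Nat) (f : Nat → Gen) (l : List Nat) : Gen :=
  List.rec (motive := fun _ => Gen) (fun t c => c t)
    (fun N _ ih t c => unp W f 32 N t fun t' => ih t' c) l

/-- single term with multiplier `m * (value - o)`; hint at bit `j` -/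
noncomputable def it1 (tb j m o : Nat) (N : Nat) : Gen :=
  ins (key tb (Nat.shiftRight (top N) j) (mkV N)) (Nat.mul m (Nat.div (top N) 256)) (Nat.mul m o)

/-- the same with the opposite sign -/
noncomputable def it2 (tb j m o : Nat) (N : Nat) : Gen :=
  ins (key tb (Nat.shiftRight (top N) j) (mkV N)) (Nat.mul m o) (Nat.mul m (Nat.div (top N) 256))

def E01 : Nat := 720927955982784533

/-- vanishing term: the field at bit `s` must be `e 0 - e 1` -/
noncomputable def itV (tb s o : Nat) (N : Nat) : Gen := fun t c =>
  Bool.rec (motive := fun _ => Bool) false (it1 tb 0 1 o N t c) (Nat.beq (fld (mkV N) s) E01)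

noncomputable def stp (tb V p n : Nat) (l : List (Nat × Nat)) : Nat → Gen :=
  List.rec (motive := fun _ => Nat → Gen) (fun _ t c => c t)
    (fun d _ ih h t c => ins (key tb h (Nat.sub (Nat.add V d.1) d.2)) p n t fun t' =>
      ih (Nat.div h 16) t' c) l

def lO : List (Nat × Nat) := [(2187250724783011924402145001962374311381603603055436540836213167002227718608892478723257846502260737, 2187250724783011924372502227117621365353571165404277183994661541450909024865421961752654078361468928),
  (4479489484355608421175592964018942589709524179057534035632564566020562367711011796425232069636629989376, 4479489484355608421114884561136888556244113746747959672821066836891461682924384177669435552484288364544),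
  (9173994463960286046567614390310794423725105518709829704975492231210111729072152159078875278615818218242048, 9173994463960286046443283581208347763187944953339821409937544881953713526629138795867004011487822570586112),
  (18788340662190665823370474271356506979789016102317731235789808089518308821139767621793536570605195710959714304, 18788340662190665823115844774314696219008911264439954247552091918241205302536476253935624215527060624560357376),
  (38478521676166483606262731307738126294607904977546713570897526967333496465694244089433162896599440816045494894592, 38478521676166483605741250097796497856530250269573026298986684248557988459594703368060158393399420159099611906048),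
  (78804012392788958425626073718247682651356989394015669393198135229099000761741811895159117612235654791261173544124416, 78804012392788958424558080200287227610173952552085557860324729341046760365249952497787204389682012485836005183586304)]

def lU : List (Nat × Nat) := [(2187250724783011924372502227117621366175921709553815457514405570287893563261511715176627289450348545, 4479489484355608421114884561136888556243291396203810134547547092862624698385987936726497151149714442240),
  (2187250724783011924372502227117623050349836127808199625950176628432228198453477843201215428122640385, 9173994463960286046443283581208347763186259957074859006015102926438626545309964898326038954605109250621440),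
  (2187250724783011924372502227121072238526564712786976582409303708029561071600108037557723428976328705, 18788340662190665823115844774314696219005460391266960700169392519826563135957823573375637951820314239345623040),
  (2187250724783011924372502234185009624466706749322183410701562723367285275898746079686109177330008065, 38478521676166483605741250097796497856523182881313913163402766342331281558412785693734910435500792612673908899840),
  (2187250724783011924372516701128776029877597573425767753248026135026455679509456358620121805665337345, 78804012392788958424558080200287227610159478540930893336298321319556191111885356263784558175815796059806659499786240),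
  (4479489484355608421114884561136888556243291396203810134547547092862624698385987936726497151149714442240, 2187250724783011924372502227117621366175921709553815457514405570287893563261511715176627289450348545),
  (4479489484355608421114884561136888557928287661166214056989502607949606017559575992681732688794313820160, 9173994463960286046443283581208347763186260779425403155553376446182655382294503294415866165554615177707520),
  (4479489484355608421114884561136892007116464389751192833945961735029203350432722622876089196795167508480, 18788340662190665823115844774314696219005460392089311244318930793346307164794808111771727779031263745272709120),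
  (4479489484355608421114884561143955944502404531787728040774253994044541074637021260918217582543521187840, 38478521676166483605741250097796497856523182881314735513946915880604801302441622678273306525328003562179835985920),
  (4479489484355608421114884575610899710907815422611831625116800457456200245040631971197151595171856517120, 78804012392788958424558080200287227610159478540930894158648865469094464631629385100769096571905623270756165426872320),
  (9173994463960286046443283581208347763186259957074859006015102926438626545309964898326038954605109250621440, 2187250724783011924372502227117623050349836127808199625950176628432228198453477843201215428122640385),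
  (9173994463960286046443283581208347763186260779425403155553376446182655382294503294415866165554615177707520, 4479489484355608421114884561136888557928287661166214056989502607949606017559575992681732688794313820160),
  (9173994463960286046443283581208347766637133130068406388714501341080793123962011633012188546650754703687680, 18788340662190665823115844774314696219005462076263225662573314961782078222939142746963693907055851883945000960),
  (9173994463960286046443283581208354830574519070210442923921329633339808461686215931650230675036503057367040, 38478521676166483605741250097796497856523182882998909428365170264773237073499767012908498491456028150318508277760),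
  (9173994463960286046443283581222821774340924481101267027505672179803220120856619542360509609049131392696320, 78804012392788958424558080200287227610159478540932578332563283723478633067400443245103731763871751295344304099164160),
  (18788340662190665823115844774314696219005460391266960700169392519826563135957823573375637951820314239345623040, 2187250724783011924372502227121072238526564712786976582409303708029561071600108037557723428976328705),
  (18788340662190665823115844774314696219005460392089311244318930793346307164794808111771727779031263745272709120, 4479489484355608421114884561136892007116464389751192833945961735029203350432722622876089196795167508480),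
  (18788340662190665823115844774314696219005462076263225662573314961782078222939142746963693907055851883945000960, 9173994463960286046443283581208347766637133130068406388714501341080793123962011633012188546650754703687680),
  (18788340662190665823115844774314696226072848650380096284087298746533464317874199824408962143540745633152368640, 38478521676166483605741250097796497856523186332187086156950149041729696200579364345781645121650384658319361966080),
  (18788340662190665823115844774314710693016615055790987108190883089079927729533370228019672422474758261487697920, 78804012392788958424558080200287227610159478544381766509291868702255589526527522842436604910501945651852304952852480),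
  (38478521676166483605741250097796497856523182881313913163402766342331281558412785693734910435500792612673908899840, 2187250724783011924372502234185009624466706749322183410701562723367285275898746079686109177330008065),
  (38478521676166483605741250097796497856523182881314735513946915880604801302441622678273306525328003562179835985920, 4479489484355608421114884561143955944502404531787728040774253994044541074637021260918217582543521187840),
  (38478521676166483605741250097796497856523182882998909428365170264773237073499767012908498491456028150318508277760, 9173994463960286046443283581208354830574519070210442923921329633339808461686215931650230675036503057367040),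
  (38478521676166483605741250097796497856523186332187086156950149041729696200579364345781645121650384658319361966080, 18788340662190665823115844774314696226072848650380096284087298746533464317874199824408962143540745633152368640),
  (38478521676166483605741250097796497870997194035978437189810787832900534923006361240389554469971447056696050974720, 78804012392788958424558080200287227610159485608319152449433905237462417818786538180160809209139987780238053306531840),
  (78804012392788958424558080200287227610159478540930893336298321319556191111885356263784558175815796059806659499786240, 2187250724783011924372516701128776029877597573425767753248026135026455679509456358620121805665337345),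
  (78804012392788958424558080200287227610159478540930894158648865469094464631629385100769096571905623270756165426872320, 4479489484355608421114884575610899710907815422611831625116800457456200245040631971197151595171856517120),
  (78804012392788958424558080200287227610159478540932578332563283723478633067400443245103731763871751295344304099164160, 9173994463960286046443283581222821774340924481101267027505672179803220120856619542360509609049131392696320),
  (78804012392788958424558080200287227610159478544381766509291868702255589526527522842436604910501945651852304952852480, 18788340662190665823115844774314710693016615055790987108190883089079927729533370228019672422474758261487697920),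
  (78804012392788958424558080200287227610159485608319152449433905237462417818786538180160809209139987780238053306531840, 38478521676166483605741250097796497870997194035978437189810787832900534923006361240389554469971447056696050974720)]

noncomputable def itO2 (tb V h p n : Nat) : Gen := fun t c =>
  ins (key tO h V) n p t fun t' => stp tb V p n lO (Nat.div h 16) t' c

/-- orthogonality equation -/
noncomputable def itO (tb m o : Nat) (N : Nat) : Gen :=
  itO2 tb (mkV N) (Nat.mod (top N) 268435456) (Nat.mul m (Nat.div (top N) 268435456)) (Nat.mul m o)

/-- unbiasedness equation -/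
noncomputable def itU (tb m o : Nat) (N : Nat) : Gen :=
  stp tb (mkV N) (Nat.mul m (Nat.div (top N) 1329227995784915872903807060280344576)) (Nat.mul m o) lU
    (Nat.mod (top N) 1329227995784915872903807060280344576)

/-! Gram vectors -/

noncomputable def ld (N k : Nat) : Nat :=
  Nat.mod (Nat.shiftRight N (Nat.add 8 (Nat.mul 29 k))) 536870912

noncomputable def hrn (acc d : Nat) : Nat :=
  Nat.sub (Nat.add (Nat.shiftLeft acc 68) d) 268435456

noncomputable def pkR (N : Nat) : Nat :=
  Nat.rec (motive := fun _ => Nat) 1
    (fun m acc => hrn acc (ld N (Nat.sub (Nat.mod N 256) (Nat.succ m)))) (Nat.mod N 256)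

noncomputable def pkQ (N : Nat) : Nat :=
  Nat.shiftLeft (Nat.succ (Nat.shiftLeft
    (Nat.rec (motive := fun _ => Nat) 1 (fun m acc => hrn acc (ld N m)) (Nat.mod N 256)) 68))
    (Nat.mul 68 (Nat.sub 175 (Nat.mod N 256)))

noncomputable def HC : Nat := Nat.add (Nat.shiftLeft 1 11899) (Nat.shiftLeft 1 11967)

/-- inner product plus `2 ^ 67` -/
noncomputable def kd (R Q : Nat) : Nat :=
  Nat.mod (Nat.shiftRight (Nat.add (Nat.mul R Q) HC) 11900) 295147905179352825856

structure W where
  x0 : Nat
  x1 : Nat
  x2 : Nat
  x3 : Nat
  x4 : Nat
  x5 : Nat

inductive PL where
  | nil : PL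
  | cons : Nat → Nat → Nat → Nat → Nat → Nat → PL → PL

noncomputable def pw7 (f : Nat → Nat) (X i : Nat) : Nat := Nat.pow 7 (f (dg X (Nat.mul 11 i)))

noncomputable def mkL (f : Nat → Nat) (X : Nat) (G : List W) : PL :=
  List.rec (motive := fun _ => PL) PL.nil
    (fun g _ ih => PL.cons (pw7 f X g.x0) (pw7 f X g.x1) (pw7 f X g.x2) (pw7 f X g.x3)
      (pw7 f X g.x4) (pw7 f X g.x5) ih) G

noncomputable def pl (a0 a1 a2 a3 a4 a5 p n : Nat) (L : PL) : Gen :=
  PL.rec (motive := fun _ => Gen) (fun t c => c t)
    (fun b0 b1 b2 b3 b4 b5 _ ih t c =>
      ins (Nat.add (Nat.add (Nat.add (Nat.mul a0 b0) (Nat.mul a1 b1))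
        (Nat.add (Nat.mul a2 b2) (Nat.mul a3 b3))) (Nat.add (Nat.mul a4 b4) (Nat.mul a5 b5)))
        p n t fun t' => ih t' c) L

/-- a row: exponent vector (base 17) and eight Gram vectors -/
structure Row where
  a : Nat
  j0 : Nat
  j1 : Nat
  j2 : Nat
  j3 : Nat
  s0 : Nat
  s1 : Nat
  s2 : Nat
  s3 : Nat

/-- prepared row -/
structure PR where
  q : Row
  l0 : PL
  l1 : PL
  l2 : PL
  l3 : PL

noncomputable def mapR (f : Nat → Nat) (r : Row) : Row :=
  ⟨r.a, f r.j0, f r.j1, f r.j2, f r.j3, f r.s0, f r.s1, f r.s2, f r.s3⟩

def fP (d : Nat) : Nat := Nat.add d 12
def fN (d : Nat) : Nat := Nat.sub 28 d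
def fA (d : Nat) : Nat := Nat.mul 41 (Nat.add d 12)

noncomputable def prep1 (Gp Gm : List W) (X : Nat) (r : Row) : PR :=
  ⟨mapR pkQ r, mkL fN X Gp, mkL fP X Gp, mkL fN X Gm, mkL fP X Gm⟩

noncomputable def prep (Gp Gm : List W) (rs : List Row) : List PR :=
  List.rec (motive := fun _ => List PR) [] (fun r _ ih => prep1 Gp Gm (spr r.a) r :: ih) rs

noncomputable def pr4 (a0 a1 a2 a3 a4 a5 m p0 n0 p1 n1 p2 n2 p3 n3 : Nat) (s : PR) : Gen := fun t c =>
  pl a0 a1 a2 a3 a4 a5 (Nat.mul m (Nat.add (Nat.add p0 p1) (Nat.add p2 p3)))
    (Nat.mul m (Nat.add (Nat.add n0 n1) (Nat.add n2 n3))) s.l0 t fun t =>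
  pl a0 a1 a2 a3 a4 a5 (Nat.mul m (Nat.add (Nat.add p0 n1) (Nat.add p2 n3)))
    (Nat.mul m (Nat.add (Nat.add n0 p1) (Nat.add n2 p3))) s.l1 t fun t =>
  pl a0 a1 a2 a3 a4 a5 (Nat.mul m (Nat.add (Nat.add p0 p1) (Nat.add n2 n3)))
    (Nat.mul m (Nat.add (Nat.add n0 n1) (Nat.add p2 p3))) s.l2 t fun t =>
  pl a0 a1 a2 a3 a4 a5 (Nat.mul m (Nat.add (Nat.add p0 n1) (Nat.add n2 p3)))
    (Nat.mul m (Nat.add (Nat.add n0 p1) (Nat.add p2 n3))) s.l3 t c

/-- coefficient rule: positive and negative part from the two inner products -/
structure Cf where
  p : Nat → Nat → Nat
  n : Nat → Nat → Nat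

def cJ : Cf := ⟨fun a _ => a, fun _ _ => 147573952589676412928⟩
def cB : Cf := ⟨fun a b => Nat.add a b, fun _ _ => 295147905179352825856⟩
def cC : Cf := ⟨fun a _ => a, fun _ b => b⟩

noncomputable def pr8 (cf : Cf) (a0 a1 a2 a3 a4 a5 m j0 s0 j1 s1 j2 s2 j3 s3 : Nat) (s : PR) : Gen :=
  pr4 a0 a1 a2 a3 a4 a5 m (cf.p j0 s0) (cf.n j0 s0) (cf.p j1 s1) (cf.n j1 s1)
    (cf.p j2 s2) (cf.n j2 s2) (cf.p j3 s3) (cf.n j3 s3) s

noncomputable def pr (cf : Cf) (a0 a1 a2 a3 a4 a5 m : Nat) (r : Row) (s : PR) : Gen :=
  pr8 cf a0 a1 a2 a3 a4 a5 m (kd r.j0 s.q.j0) (kd r.s0 s.q.s0) (kd r.j1 s.q.j1) (kd r.s1 s.q.s1)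
    (kd r.j2 s.q.j2) (kd r.s2 s.q.s2) (kd r.j3 s.q.j3) (kd r.s3 s.q.s3) s

noncomputable def rowL (cf : Cf) (a0 a1 a2 a3 a4 a5 : Nat) (r : Row) (ss : List PR) : Gen :=
  List.rec (motive := fun _ => Gen) (fun t c => c t)
    (fun s _ ih t c => pr cf a0 a1 a2 a3 a4 a5 2 r s t fun t' => ih t' c) ss

/-- row `r` against a list of rows, each with weight two -/
noncomputable def row1 (cf : Cf) (X : Nat) (r : Row) (ss : List PR) : Gen :=
  rowL cf (pw7 fA X 0) (pw7 fA X 1) (pw7 fA X 2) (pw7 fA X 3) (pw7 fA X 4) (pw7 fA X 5) r ss

/-- row `r` against itself -/
noncomputable def row0 (cf : Cf) (X : Nat) (r : Row) (s : PR) : Gen :=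
  pr cf (pw7 fA X 0) (pw7 fA X 1) (pw7 fA X 2) (pw7 fA X 3) (pw7 fA X 4) (pw7 fA X 5) 1 r s

noncomputable def rect (cf : Cf) (rs : List Row) (ss : List PR) : Gen :=
  List.rec (motive := fun _ => Gen) (fun t c => c t)
    (fun r _ ih t c => row1 cf (spr r.a) (mapR pkR r) ss t fun t' => ih t' c) rs

noncomputable def tri1 (cf : Cf) (X : Nat) (r : Row) (s : PR) (ss : List PR) : Gen :=
  sq (row0 cf X r s) (row1 cf X r ss)

/-- the rows `rs` are the first rows of the prepared list -/
noncomputable def tri (cf : Cf) (rs : List Row) : List PR → Gen :=
  List.rec (motive := fun _ => List PR → Gen) (fun _ t c => c t)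
    (fun r _ ih ss t c => List.rec (motive := fun _ => Bool) false
      (fun s ss' _ => tri1 cf (spr r.a) (mapR pkR r) s ss' t fun t' => ih ss' t' c) ss) rs

noncomputable def gRect (cf : Cf) (Gp Gm : List W) (rs ss : List Row) (i k : Nat) : Gen :=
  rect cf ((rs.drop i).take k) (prep Gp Gm ss)

noncomputable def gTri (cf : Cf) (Gp Gm : List W) (rs : List Row) (i k : Nat) : Gen :=
  tri cf ((rs.drop i).take k) (prep Gp Gm (rs.drop i))

/-! Expansion of products of power sums -/

inductive Ts where
  | lf : Nat → Nat → Nat → Ts
  | nd : Ts → Nat → Ts → Ts

noncomputable def lfT (k V s : Nat) (c : Ts → Bool) : Bool :=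
  Nat.rec (motive := fun _ => Bool) false (fun m _ => c (Ts.lf k V (Nat.succ m))) s

noncomputable def insT (h k V p : Nat) (t : Ts) (c : Ts → Bool) : Bool :=
  Ts.rec (motive := fun _ => (Ts → Bool) → Bool)
    (fun k' V' s c => Bool.rec (motive := fun _ => Bool)
      (Bool.rec (motive := fun _ => Bool)
        (c (Ts.nd (Ts.lf k' V' s) (Nat.mod k' 1000000007) (Ts.lf k V p)))
        (c (Ts.nd (Ts.lf k V p) h (Ts.lf k' V' s))) (Nat.ble h (Nat.mod k' 1000000007)))
      (lfT k' V' (Nat.add s p) c) (Nat.beq k k'))
    (fun l k' r ihl ihr c =>
      Bool.rec (motive := fun _ => Bool) (ihr fun r' => c (Ts.nd l k' r'))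
        (ihl fun l' => c (Ts.nd l' k' r)) (Nat.ble h k')) t c

noncomputable def mv0 (k V p : Nat) (t : Ts) (c : Ts → Bool) : Bool :=
  insT (Nat.mod k 1000000007) k V p t c

noncomputable def mv1 (V p : Nat) (t : Ts) (c : Ts → Bool) : Bool := mv0 (key tR 0 V) V p t c

noncomputable def mv (P N V s p : Nat) (t : Ts) (c : Ts → Bool) : Bool :=
  mv1 (Nat.sub (Nat.add V (Nat.shiftLeft P s)) (Nat.shiftLeft N s)) p t c

noncomputable def mv6 (P N V p : Nat) (t : Ts) (c : Ts → Bool) : Bool :=
  mv P N V 0 p t fun t => mv P N V 11 p t fun t => mv P N V 22 p t fun t =>
    mv P N V 33 p t fun t => mv P N V 44 p t fun t => mv P N V 55 p t c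

noncomputable def lvl (P N : Nat) (u : Ts) : Ts → (Ts → Bool) → Bool :=
  Ts.rec (motive := fun _ => Ts → (Ts → Bool) → Bool)
    (fun _ V p t c => Nat.rec (motive := fun _ => Bool) (c t) (fun _ _ => mv6 P N V p t c) p)
    (fun _ _ _ ihl ihr t c => ihl t fun t' => ihr t' c) u

def V00 : Nat := 116351007902874678014265962564113984277968344440654803123125895685154803091840855649988414019485122209550885725423205268813198955380776980

/-- constant term -/
noncomputable def gC (p n : Nat) : Gen := ins (key tR 0 V00) p n

noncomputable def dP (d : Int × Int) : Nat :=
  Nat.add (Nat.add (Nat.mul d.1.toNat AXp) (Nat.mul (-d.1).toNat AXn))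
    (Nat.add (Nat.mul d.2.toNat AYp) (Nat.mul (-d.2).toNat AYn))

noncomputable def dN (d : Int × Int) : Nat :=
  Nat.add (Nat.add (Nat.mul d.1.toNat AXn) (Nat.mul (-d.1).toNat AXp))
    (Nat.add (Nat.mul d.2.toNat AYn) (Nat.mul (-d.2).toNat AYp))

noncomputable def lvls (l : List (Int × Int)) : Ts → (Ts → Bool) → Bool :=
  List.rec (motive := fun _ => Ts → (Ts → Bool) → Bool) (fun u c => c u)
    (fun d _ ih u c => lvl (dP d) (dN d) u (Ts.lf (key tR 0 V00) V00 0) fun u' => ih u' c) l

noncomputable def out (tb p n : Nat) (u : Ts) : Nat → Tr → (Nat → Tr → Bool) → Bool :=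
  Ts.rec (motive := fun _ => Nat → Tr → (Nat → Tr → Bool) → Bool)
    (fun _ V s h t c => ins (key tb h V) (Nat.mul s p) (Nat.mul s n) t fun t' => c (Nat.div h 16) t')
    (fun _ _ _ ihl ihr h t c => ihl h t fun h' t' => ihr h' t' c) u

noncomputable def wt (f : Int × Int → Int) (l : List (Int × Int)) : Nat :=
  List.rec (motive := fun _ => Nat) 0 (fun d _ ih => Nat.add (f d).natAbs ih) l

noncomputable def wOK (l : List (Int × Int)) : Bool :=
  Nat.ble (wt (fun d => d.1) l) 20 && Nat.ble (wt (fun d => d.2) l) 20 &&
    Nat.ble (wt (fun d => d.1 + d.2) l) 20

/-- add `(p - n)` times the expansion of the product of power sums -/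
noncomputable def gPw (tb p n h : Nat) (l : List (Int × Int)) : Gen := fun t c =>
  Bool.rec (motive := fun _ => Bool) false
    (lvls l (Ts.lf (key tR 0 V00) V00 1) fun u => out tb p n u h t fun _ t' => c t') (wOK l)

/-- a change of frame equation: parameters, multiplier `p - n`, hints -/
structure Fr where
  a : Int
  b : Int
  c : Int
  d : Int
  p : Nat
  n : Nat
  h0 : Nat
  h1 : Nat

/-- both sides of an equation `√6 ^ e0 * X0 = √6 ^ e1 * X1` -/
noncomputable def gF2 (tb : Nat) (f : Fr) (e0 e1 : Nat) (l0 l1 : List (Int × Int)) : Gen := fun t c =>
  Bool.rec (motive := fun _ => Bool) false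
    (gPw tb (Nat.mul (Nat.pow 6 (Nat.div (Nat.sub e0 e1) 2)) f.p)
      (Nat.mul (Nat.pow 6 (Nat.div (Nat.sub e0 e1) 2)) f.n) f.h0 l0 t fun t' =>
     gPw tb (Nat.mul (Nat.pow 6 (Nat.div (Nat.sub e1 e0) 2)) f.n)
      (Nat.mul (Nat.pow 6 (Nat.div (Nat.sub e1 e0) 2)) f.p) f.h1 l1 t' c)
    (Nat.beq (Nat.mod e0 2) (Nat.mod e1 2))

noncomputable def gFL (g : Fr → Gen) (l : List Fr) : Gen :=
  List.rec (motive := fun _ => Gen) (fun t c => c t) (fun f _ ih t c => g f t fun t' => ih t' c) l

def edg (n p q : Int) : List (Int × Int) := List.replicate n.natAbs (n.sign * p, n.sign * q)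

def M33 (p q r s : Int) : List (Int × Int) := [(p, q), (r, s), (-p - r, -q - s)]

def M221 (p q r s : Int) : List (Int × Int) :=
  [(p, q), (r, s)] ++ edg (p + r) (-1) 0 ++ edg (q + s) 0 (-1)

def M1111 (a b c : Int) : List (Int × Int) :=
  [(a, b)] ++ edg c (-1) 1 ++ edg (a - c) (-1) 0 ++ edg (b + c) 0 (-1)

noncomputable def g33 (f : Fr) : Gen := gF2 tA f 0 0 (M33 f.a f.b f.c f.d) (M33 f.a f.c f.b f.d)

noncomputable def g221 (f : Fr) : Gen :=
  gF2 tB f ((f.a + f.b).natAbs + (f.c + f.d).natAbs) ((f.a + f.c).natAbs + (f.b + f.d).natAbs)
    (M221 f.a f.b f.c f.d) (M221 f.a f.c f.b f.d)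

noncomputable def g1111 (f : Fr) : Gen :=
  gF2 tA f (f.b.natAbs + (f.a + f.b).natAbs) (f.c.natAbs + (f.a - f.c).natAbs)
    (M1111 f.a f.b f.c) (M1111 (-f.a) f.c f.b)

end Vale.Agent.P355.K3
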