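import Vale.Agent.P355.K3Spec

/-! The Kronecker inner product. -/

namespace Vale.Agent.P355.K3
open Finset

namespace S4

theorem part_bd {b c : ℤ} (hb : 2 ≤ b) {l : ℕ → ℤ} (hl : ∀ k, |l k| ≤ c) (j : ℕ) :
    |∑ k ∈ range j, l k * b ^ k| * b ≤ 2 * c * b ^ j := by
  have hc : 0 ≤ c := (abs_nonneg _).trans (hl 0)
  induction j with
  | zero => simpa using hc
  | succ j ih =>
    have h0 : 0 ≤ b ^ j := by positivity
    have h1 : |l j * b ^ j| ≤ c * b ^ j := by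
      rw [abs_mul, abs_of_nonneg h0]
      exact mul_le_mul_of_nonneg_right (hl j) h0
    have h2 := mul_le_mul_of_nonneg_right ((abs_add_le (∑ k ∈ range j, l k * b ^ k) _).trans
      (add_le_add le_rfl h1)) (show 0 ≤ b by linarith)
    have h3 := mul_le_mul_of_nonneg_left hb (mul_nonneg hc h0)
    rw [sum_range_succ, pow_succ]
    linarith

theorem core {b c : ℤ} (hb : 2 ≤ b) {l m : ℕ → ℤ} (hl : ∀ k, |l k| ≤ c) (hm : ∀ k, |m k| ≤ c)
    (r : ℕ) : ∃ w Z : ℤ, |w| * b ≤ (r + 1) * (2 * c ^ 2) * b ^ r ∧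
      (∑ k ∈ range (r + 1), l k * b ^ k) * (b ^ (r + 1) + ∑ k ∈ range (r + 1), m k * b ^ (r - k))
        = w + b ^ r * (∑ k ∈ range (r + 1), l k * m k + b * Z) := by
  have hc : 0 ≤ c := (abs_nonneg _).trans (hl 0)
  have hp : ∀ j ∈ range (r + 1), b ^ (r - j) * b ^ j = b ^ r := fun j hj => by
    rw [← pow_add, Nat.sub_add_cancel (Nat.lt_succ_iff.1 (mem_range.1 hj))]
  have h1 : b ^ r * b ∣ ∑ j ∈ range (r + 1), m j * b ^ (r - j) *
      (∑ k ∈ range (r + 1), l k * b ^ k - ∑ k ∈ range (j + 1), l k * b ^ k) := by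
    refine dvd_sum fun j hj => ?_
    rw [← hp j hj, mul_assoc, mul_assoc, ← pow_succ,
      ← sum_sdiff_eq_sub (range_subset_range.2 (mem_range.1 hj))]
    refine Dvd.dvd.mul_left (mul_dvd_mul_left _ (dvd_sum fun k hk => ?_)) _
    refine Dvd.dvd.mul_left (pow_dvd_pow b ?_) _
    simpa using (mem_sdiff.1 hk).2
  obtain ⟨Z, hZ⟩ := h1
  refine ⟨∑ j ∈ range (r + 1), m j * b ^ (r - j) * ∑ k ∈ range j, l k * b ^ k,
    Z + ∑ k ∈ range (r + 1), l k * b ^ k, ?_, ?_⟩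
  · refine (mul_le_mul_of_nonneg_right (abs_sum_le_sum_abs _ _) (by linarith)).trans ?_
    rw [sum_mul]
    refine (sum_le_card_nsmul _ _ (2 * c ^ 2 * b ^ r) fun j hj => ?_).trans
      (le_of_eq (by simp [mul_assoc]))
    have h0 : 0 ≤ b ^ (r - j) := by positivity
    rw [abs_mul, abs_mul, abs_of_nonneg h0, mul_assoc, ← hp j hj]
    refine (mul_le_mul (mul_le_mul_of_nonneg_right (hm j) h0) (part_bd hb hl j)
      (by positivity) (by positivity)).trans (le_of_eq ?_)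
    ring
  · generalize ∑ k ∈ range (r + 1), l k * b ^ k = R at hZ ⊢
    have h2 : R * ∑ k ∈ range (r + 1), m k * b ^ (r - k) =
        ∑ j ∈ range (r + 1), m j * b ^ (r - j) * (R - ∑ k ∈ range (j + 1), l k * b ^ k) +
        ∑ j ∈ range (r + 1), m j * b ^ (r - j) * ∑ k ∈ range j, l k * b ^ k +
        b ^ r * ∑ k ∈ range (r + 1), l k * m k := by
      rw [mul_sum, mul_sum, ← sum_add_distrib, ← sum_add_distrib]
      refine sum_congr rfl fun j hj => ?_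
      rw [sum_range_succ, ← hp j hj]
      ring
    rw [mul_add, h2, hZ]
    ring

/-- Horner evaluation -/
noncomputable def hr (f : ℕ → ℕ) (j : ℕ) : ℕ :=
  Nat.rec (motive := fun _ => ℕ) 1 (fun m acc => hrn acc (f m)) j

theorem hr_eq (f : ℕ → ℕ) (j : ℕ) : 1 ≤ hr f j ∧ (hr f j : ℤ) =
    (2 ^ 68) ^ j + ∑ i ∈ range j, ((f i : ℤ) - 2 ^ 28) * (2 ^ 68) ^ (j - 1 - i) := by
  induction j with
  | zero => exact ⟨le_rfl, by simp [hr]⟩
  | succ j ih =>
    have h : hr f (j + 1) = hr f j * 2 ^ 68 + f j - 268435456 := by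
      rw [← Nat.shiftLeft_eq]
      rfl
    have h1 : ∑ i ∈ range j, ((f i : ℤ) - 2 ^ 28) * (2 ^ 68) ^ (j + 1 - 1 - i) =
        (∑ i ∈ range j, ((f i : ℤ) - 2 ^ 28) * (2 ^ 68) ^ (j - 1 - i)) * 2 ^ 68 := by
      rw [sum_mul]
      refine sum_congr rfl fun i hi => ?_
      have := mem_range.1 hi
      rw [mul_assoc, ← pow_succ, show j + 1 - 1 - i = j - 1 - i + 1 by omega]
    have h2 : (hr f (j + 1) : ℤ) = hr f j * 2 ^ 68 + (f j - 2 ^ 28) := by
      have := ih.1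
      omega
    refine ⟨by have := ih.1; omega, ?_⟩
    rw [h2, sum_range_succ, h1, ih.2, pow_succ (2 ^ 68 : ℤ) j, Nat.add_sub_cancel, Nat.sub_self]
    ring

theorem lv_bd (N k : ℕ) : |lv N k| ≤ 2 ^ 28 := by
  have h : ld N k < 536870912 := Nat.mod_lt _ (by norm_num)
  unfold lv
  split_ifs
  · rw [abs_le]
    omega
  · norm_num
  · norm_num

theorem lv_sum {N : ℕ} (hN : N % 256 ≤ 175) (g : ℕ → ℤ) : ∑ k ∈ range (175 + 1), lv N k * g k =
    g (N % 256) + ∑ k ∈ range (N % 256), ((ld N k : ℤ) - 2 ^ 28) * g k := by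
  rw [← sum_subset (range_subset_range.2 (Nat.succ_le_succ hN)), sum_range_succ, add_comm, lv,
    if_neg (lt_irrefl _), if_pos rfl, one_mul]
  · exact congrArg _ (sum_congr rfl fun k hk => by rw [lv, if_pos (mem_range.1 hk)])
  · intro k _ hk
    rw [mem_range] at hk
    rw [lv, if_neg (by omega), if_neg (by omega), zero_mul]

theorem pkR_eq {N : ℕ} (hN : N % 256 ≤ 175) :
    (pkR N : ℤ) = ∑ k ∈ range (175 + 1), lv N k * (2 ^ 68) ^ k := by
  rw [lv_sum hN, ← sum_range_reflect]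
  refine (hr_eq (fun m => ld N (N % 256 - (m + 1))) (N % 256)).2.trans ?_
  refine congrArg _ (sum_congr rfl fun k _ => ?_)
  rw [show N % 256 - (k + 1) = N % 256 - 1 - k by omega]

theorem pkQ_eq {N : ℕ} (hN : N % 256 ≤ 175) : (pkQ N : ℤ) =
    (2 ^ 68) ^ (175 + 1) + ∑ k ∈ range (175 + 1), lv N k * (2 ^ 68) ^ (175 - k) := by
  have h : pkQ N = (hr (ld N) (N % 256) * 2 ^ 68 + 1) * (2 ^ 68) ^ (175 - N % 256) := by
    rw [← Nat.shiftLeft_eq, ← pow_mul, ← Nat.shiftLeft_eq]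
    rfl
  rw [lv_sum hN fun k => (2 ^ 68) ^ (175 - k), h]
  simp only [Nat.cast_mul, Nat.cast_add, Nat.cast_pow, Nat.cast_ofNat, Nat.cast_one, (hr_eq _ _).2]
  generalize N % 256 = n at hN
  generalize (2 : ℤ) ^ 68 = b
  have h1 : b ^ (175 + 1) = b ^ n * b * b ^ (175 - n) := by
    rw [← pow_succ, ← pow_add, show n + 1 + (175 - n) = 175 + 1 by omega]
  have h2 : ∑ k ∈ range n, ((ld N k : ℤ) - 2 ^ 28) * b ^ (175 - k) =
      (∑ k ∈ range n, ((ld N k : ℤ) - 2 ^ 28) * b ^ (n - 1 - k)) * b * b ^ (175 - n) := by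
    rw [sum_mul, sum_mul]
    refine sum_congr rfl fun k hk => ?_
    have := mem_range.1 hk
    rw [mul_assoc, mul_assoc, ← pow_succ', ← pow_add,
      show n - 1 - k + (175 - n + 1) = 175 - k by omega]
  rw [h1, h2]
  ring

theorem fin {x w d Z h : ℤ} (h0 : 0 < h) (hw : |w| * 2 ^ 68 ≤ 176 * (2 * (2 ^ 28) ^ 2) * (h * 2))
    (hd : |d| ≤ 176 * 2 ^ 56) (hx : x = w + h * 2 * (d + 2 ^ 68 * Z)) :
    (x + (h + 2 ^ 67 * (h * 2))) / (h * 2) % 2 ^ 68 = d + 2 ^ 67 := by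
  have h1 : |w| < h := by omega
  rw [abs_lt] at h1
  rw [abs_le] at hd
  rw [hx, show w + h * 2 * (d + 2 ^ 68 * Z) + (h + 2 ^ 67 * (h * 2)) =
      w + h + h * 2 * (d + 2 ^ 67 + 2 ^ 68 * Z) by ring, Int.add_mul_ediv_left _ _ (by omega),
    Int.ediv_eq_zero_of_lt (by omega) (by omega), zero_add, Int.add_mul_emod_self_left]
  exact Int.emod_eq_of_lt (by omega) (by omega)

end S4

theorem kd_spec {N M : ℕ} (hN : N % 256 ≤ 175) (hM : M % 256 ≤ 175) :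
    (kd (pkR N) (pkQ M) : ℤ) = dotv N M + 2 ^ 67 := by
  obtain ⟨w, Z, hw, hx⟩ := S4.core (b := 2 ^ 68) (by norm_num) (S4.lv_bd N) (S4.lv_bd M) 175
  rw [← S4.pkR_eq hN, ← S4.pkQ_eq hM] at hx
  have e1 : ((2 : ℤ) ^ 68) ^ 175 = 2 ^ 11899 * 2 := by rw [← pow_mul, ← pow_succ]
  have h : kd (pkR N) (pkQ M) =
      (pkR N * pkQ M + (2 ^ 11899 + 2 ^ 67 * (2 ^ 11899 * 2))) / (2 ^ 11899 * 2) % 2 ^ 68 := by
    rw [← pow_succ, ← pow_add, ← Nat.shiftRight_eq_div_pow, ← Nat.one_shiftLeft 11899,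
      ← Nat.one_shiftLeft (67 + (11899 + 1))]
    rfl
  rw [e1] at hw hx
  rw [h]
  simp only [Int.natCast_mod, Int.natCast_div, Nat.cast_add, Nat.cast_mul, Nat.cast_pow,
    Nat.cast_ofNat]
  refine S4.fin (by positivity) (le_trans hw (le_of_eq (by norm_num))) ?_ hx
  refine (abs_sum_le_sum_abs _ _).trans
    ((sum_le_card_nsmul _ _ (2 ^ 28 * 2 ^ 28) fun k _ => ?_).trans (by norm_num))
  rw [abs_mul]
  exact mul_le_mul (S4.lv_bd N k) (S4.lv_bd M k) (abs_nonneg _) (by norm_num)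

end Vale.Agent.P355.K3
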