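import Vale.Agent.P355.K3S2
import Vale.Agent.P355.K3S4

namespace Vale.Agent.P355.K3
open Finset

variable {T U A B C : V → V → ℝ} {v : ℕ → ℝ}

theorem cJ_ok : CfOK cJ 0 := by
  intro a b
  simp only [cJ]
  norm_num

theorem cB_ok : CfOK cB 1 := by
  intro a b
  simp only [cB, Nat.add_eq]
  push_cast
  ring

theorem cC_ok : CfOK cC (-1) := by
  intro a b
  simp only [cC]
  ring

theorem s5_inR (N : ℕ) : InR (dv N) := fun r => by have := dv_bd N r; omega

theorem s5_pwA (N : ℕ) (r : Fin 6) : pw7 fA (spr N) r = 7 ^ (41 * (dv N r + 20).toNat) := by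
  have := spr_dg N r
  simp only [pw7, fA, Nat.add_eq, Nat.mul_eq, Nat.pow_eq]
  rw [show dg (spr N) (11 * r) + 12 = (dv N r + 20).toNat by omega]

theorem s5_pwP (N : ℕ) (r : Fin 6) : pw7 fP (spr N) r = 7 ^ (dv N r + 20).toNat := by
  have := spr_dg N r
  change 7 ^ (dg (spr N) (11 * r) + 12) = _
  congr 1
  omega

theorem s5_pwN (N : ℕ) (r : Fin 6) : pw7 fN (spr N) r = 7 ^ ((-dv N) r + 20).toNat := by
  have := spr_dg N r
  have := dv_bd N r
  change 7 ^ (28 - dg (spr N) (11 * r)) = 7 ^ (-dv N r + 20).toNat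
  congr 1
  omega

theorem s5_pl (hT : Prm T) (N : ℕ) {f : ℕ → ℕ} {X : ℕ} {b : V} (hb : InR b)
    (hf : ∀ r : Fin 6, pw7 f X r = 7 ^ (b r + 20).toNat) (p n : ℕ) {G : List W} (hG : GB G) :
    St (vk T) (pl (pw7 fA (spr N) 0) (pw7 fA (spr N) 1) (pw7 fA (spr N) 2) (pw7 fA (spr N) 3)
      (pw7 fA (spr N) 4) (pw7 fA (spr N) 5) p n (mkL f X G))
      (((p : ℝ) - n) * (G.map fun g => T (dv N) (b ∘ φ g)).sum) := by
  induction G with
  | nil => exact (St.nil _).of_eq (by simp)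
  | cons g G ih =>
    have ih' := ih fun h hh => hG h (List.mem_cons_of_mem _ hh)
    have hg := hG g List.mem_cons_self
    have h1 : ∀ r : Fin 6, pw7 fA (spr N) r * pw7 f X (g.get r)
        = 7 ^ (41 * (dv N r + 20).toNat + ((b ∘ φ g) r + 20).toNat) := by
      intro r
      have e : g.get r = (φ g r : ℕ) := (Nat.mod_eq_of_lt (hg r)).symm
      rw [e, hf, s5_pwA, pow_add]
      rfl
    have h2 : Nat.add (Nat.add (Nat.add (Nat.mul (pw7 fA (spr N) 0) (pw7 f X g.x0))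
          (Nat.mul (pw7 fA (spr N) 1) (pw7 f X g.x1)))
        (Nat.add (Nat.mul (pw7 fA (spr N) 2) (pw7 f X g.x2))
          (Nat.mul (pw7 fA (spr N) 3) (pw7 f X g.x3))))
        (Nat.add (Nat.mul (pw7 fA (spr N) 4) (pw7 f X g.x4))
          (Nat.mul (pw7 fA (spr N) 5) (pw7 f X g.x5))) = cdv (dv N) (b ∘ φ g) := by
      unfold cdv
      rw [Fin.sum_univ_six, ← h1, ← h1, ← h1, ← h1, ← h1, ← h1]
      simp only [Nat.add_eq, Nat.mul_eq, ← add_assoc]
      rfl
    refine ((ins_st (vk T) _ p n).seq' ih').of_eq ?_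
    rw [h2, vk_cdv hT (b := b ∘ φ g) (s5_inR N) fun r => hb _, List.map_cons, List.sum_cons, mul_add]

theorem s5_Eg (ε : ℝ) (G : List W) (a b : V) :
    Eg T ε G a b = (G.map fun g => T a ((-b) ∘ φ g)).sum
      + ε * (G.map fun g => T a (b ∘ φ g)).sum := by
  unfold Eg
  rw [List.sum_map_add, List.sum_map_mul_left]
  rfl

theorem s5_pr (hT : Prm T) {cf : Cf} {σ : ℝ} (hc : CfOK cf σ) {Gp Gm : List W} (hp : GB Gp)
    (hm : GB Gm) (m : ℕ) {r s : Row} (hr : RowOK [r]) (hs : RowOK [s]) :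
    St (vk T) (pr cf (pw7 fA (spr r.a) 0) (pw7 fA (spr r.a) 1) (pw7 fA (spr r.a) 2)
      (pw7 fA (spr r.a) 3) (pw7 fA (spr r.a) 4) (pw7 fA (spr r.a) 5) m (mapR pkR r)
      (prep1 Gp Gm (spr s.a) s)) (m * KK T σ Gp Gm r s) := by
  have hN : InR (-dv s.a) := fun i => by
    have := dv_bd s.a i
    simp only [Pi.neg_apply]
    omega
  obtain ⟨a0, a1, a2, a3, b0, b1, b2, b3⟩ := hr r List.mem_cons_self
  obtain ⟨c0, c1, c2, c3, d0, d1, d2, d3⟩ := hs s List.mem_cons_self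
  have k : ∀ {j j' i i' : ℕ}, j % 256 ≤ 175 → j' % 256 ≤ 175 → i % 256 ≤ 175 → i' % 256 ≤ 175 →
      (cf.p (kd (pkR j) (pkQ j')) (kd (pkR i) (pkQ i')) : ℝ)
        - cf.n (kd (pkR j) (pkQ j')) (kd (pkR i) (pkQ i'))
        = (dotv j j' : ℝ) + σ * dotv i i' := by
    intro j j' i i' h1 h2 h3 h4
    have e1 : (kd (pkR j) (pkQ j') : ℝ) = dotv j j' + 2 ^ 67 := by exact_mod_cast kd_spec h1 h2
    have e2 : (kd (pkR i) (pkQ i') : ℝ) = dotv i i' + 2 ^ 67 := by exact_mod_cast kd_spec h3 h4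
    rw [hc, e1, e2]
    ring
  refine ((s5_pl hT r.a hN (s5_pwN s.a) _ _ hp).seq'
    ((s5_pl hT r.a (s5_inR s.a) (s5_pwP s.a) _ _ hp).seq'
    ((s5_pl hT r.a hN (s5_pwN s.a) _ _ hm).seq'
    (s5_pl hT r.a (s5_inR s.a) (s5_pwP s.a) _ _ hm)))).of_eq ?_
  unfold KK Eb
  simp only [s5_Eg, mapR, prep1, Nat.add_eq, Nat.mul_eq]
  rw [← k a0 c0 b0 d0, ← k a1 c1 b1 d1, ← k a2 c2 b2 d2, ← k a3 c3 b3 d3]
  push_cast
  ring

theorem s5_one {r : Row} {rs : List Row} (h : RowOK (r :: rs)) : RowOK [r] := fun x hx =>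
  h x (List.mem_singleton.1 hx ▸ List.mem_cons_self)

theorem s5_tail {r : Row} {rs : List Row} (h : RowOK (r :: rs)) : RowOK rs := fun x hx =>
  h x (List.mem_cons_of_mem _ hx)

theorem s5_row (hT : Prm T) {cf : Cf} {σ : ℝ} (hc : CfOK cf σ) {Gp Gm : List W} (hp : GB Gp)
    (hm : GB Gm) {r : Row} (hr : RowOK [r]) {ss : List Row} (hs : RowOK ss) :
    St (vk T) (row1 cf (spr r.a) (mapR pkR r) (prep Gp Gm ss))
      (2 * (ss.map fun s => KK T σ Gp Gm r s).sum) := by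
  induction ss with
  | nil => exact (St.nil _).of_eq (by simp)
  | cons s ss ih =>
    refine ((s5_pr hT hc hp hm 2 hr (s5_one hs)).seq' (ih (s5_tail hs))).of_eq ?_
    rw [List.map_cons, List.sum_cons]
    push_cast
    ring

theorem s5_rect (hT : Prm T) {cf : Cf} {σ : ℝ} (hc : CfOK cf σ) {Gp Gm : List W} (hp : GB Gp)
    (hm : GB Gm) {rs ss : List Row} (hr : RowOK rs) (hs : RowOK ss) :
    St (vk T) (rect cf rs (prep Gp Gm ss)) (2 * XX (KK T σ Gp Gm) rs ss) := by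
  induction rs with
  | nil => exact (St.nil _).of_eq (by simp [XX])
  | cons r rs ih =>
    refine ((s5_row hT hc hp hm (s5_one hr) hs).seq' (ih (s5_tail hr))).of_eq ?_
    simp only [XX, List.map_cons, List.sum_cons]
    ring

theorem rect_st (hT : Prm T) {cf : Cf} {σ : ℝ} (hc : CfOK cf σ) {Gp Gm : List W} (hp : GB Gp)
    (hm : GB Gm) {rs ss : List Row} (hr : RowOK rs) (hs : RowOK ss) (i k : ℕ) :
    St (vk T) (gRect cf Gp Gm rs ss i k) (2 * XX (KK T σ Gp Gm) ((rs.drop i).take k) ss) :=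
  s5_rect hT hc hp hm (fun x hx => hr x (List.mem_of_mem_drop (List.mem_of_mem_take hx))) hs

theorem s5_tri (hT : Prm T) {cf : Cf} {σ : ℝ} (hc : CfOK cf σ) {Gp Gm : List W} (hp : GB Gp)
    (hm : GB Gm) {l : List Row} (hl : RowOK l) (k : ℕ) :
    St (vk T) (tri cf (l.take k) (prep Gp Gm l)) (TT (KK T σ Gp Gm) l k) := by
  induction l generalizing k with
  | nil =>
    rw [List.take_nil]
    exact (St.nil _).of_eq (by simp [TT])
  | cons r l ih =>
    cases k with
    | zero => exact (St.nil _).of_eq (by simp [TT])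
    | succ k =>
      refine (((s5_pr hT hc hp hm 1 (s5_one hl) (s5_one hl)).seq
        (s5_row hT hc hp hm (s5_one hl) (s5_tail hl))).seq' (ih (s5_tail hl) k)).of_eq ?_
      simp only [TT]
      push_cast
      ring

theorem tri_st (hT : Prm T) {cf : Cf} {σ : ℝ} (hc : CfOK cf σ) {Gp Gm : List W} (hp : GB Gp)
    (hm : GB Gm) {rs : List Row} (hr : RowOK rs) (i k : ℕ) :
    St (vk T) (gTri cf Gp Gm rs i k) (TT (KK T σ Gp Gm) (rs.drop i) k) :=
  s5_tri hT hc hp hm (fun x hx => hr x (List.mem_of_mem_drop hx)) k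

theorem XX_rect (K : Row → Row → ℝ) (rs ss : List Row) (i k j : ℕ) (h : j = i + k) :
    XX K (rs.drop i) ss = XX K ((rs.drop i).take k) ss + XX K (rs.drop j) ss := by
  subst h
  rw [← List.drop_drop]
  generalize rs.drop i = l
  unfold XX
  rw [← List.sum_append, ← List.map_append, List.take_append_drop]

theorem s5_XT {K : Row → Row → ℝ} (hK : ∀ r s, K s r = K r s) (l : List Row) (k : ℕ) :
    XX K l l = TT K l k + XX K (l.drop k) (l.drop k) := by
  induction l generalizing k with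
  | nil => simp [XX, TT]
  | cons r l ih =>
    cases k with
    | zero => simp [TT]
    | succ k =>
      have e : XX K (r :: l) (r :: l) = K r r + 2 * (l.map fun s => K r s).sum + XX K l l := by
        simp only [XX, List.map_cons, List.sum_cons, List.sum_map_add, hK r]
        ring
      rw [e, ih k, List.drop_succ_cons]
      simp only [TT]
      ring

theorem XX_tri {K : Row → Row → ℝ} (hK : ∀ r s, K s r = K r s) (rs : List Row) (i k j : ℕ)
    (h : j = i + k) :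
    XX K (rs.drop i) (rs.drop i) = TT K (rs.drop i) k + XX K (rs.drop j) (rs.drop j) := by
  subst h
  rw [← List.drop_drop]
  exact s5_XT hK _ k

theorem XX_end (K : Row → Row → ℝ) (rs ss : List Row) (i : ℕ) (h : rs.length ≤ i) :
    XX K (rs.drop i) ss = 0 := by
  rw [List.drop_eq_nil_of_le h]
  simp [XX]

end Vale.Agent.P355.K3
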