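import Vale.Agent.P355.K3Spec
import Vale.Agent.P355.CkS2

namespace Vale.Agent.P355.K3

open Finset

variable {T A B C : V → V → ℝ}

noncomputable def sgn (χ : ℝ) (g : W × Bool) : ℝ := if g.2 then 1 else χ

noncomputable def Mk (T : V → V → ℝ) (ε : ℝ) (a b : V) : ℝ := T a (-b) + ε * T a b

theorem Eb_eq (T : V → V → ℝ) (χ ε : ℝ) (Gp Gm : List W) (a b : V) :
    Eb T χ ε Gp Gm a b = ((lab Gp Gm).map fun g => sgn χ g * Mk T ε a (b ∘ φ g.1)).sum := by
  simp only [Eb, Eg, lab, List.map_append, List.sum_append, List.map_map, ← List.sum_map_mul_left]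
  congr 2
  refine List.map_congr_left fun g _ => ?_
  simp [sgn, Mk]

theorem φ_mul (p q : W) : φ (mulW p q) = φ q ∘ φ p := by
  funext r; fin_cases r <;> rfl

theorem Mk_perm (hT : Prm T) (ε : ℝ) {f : Fin 6 → Fin 6} (hf : Function.Bijective f) (a b : V) :
    Mk T ε (a ∘ f) (b ∘ f) = Mk T ε a b := by
  have : -(b ∘ f) = (-b) ∘ f := rfl
  simp only [Mk, this, hT f hf _ _]

theorem Mk_symm (hT : Sym T) (ε : ℝ) (a b : V) : Mk T ε b a = Mk T ε a b := by
  have : T b (-a) = T a (-b) := by rw [← hT.neg, neg_neg, hT.swap]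
  simp only [Mk, this, hT.swap a b]

theorem E_inner (hT : Prm T) {χ : ℝ} (hχ : χ * χ = 1) (ε : ℝ) {Gp Gm : List W} (hG : GOK Gp Gm)
    (a b : V) {g : W × Bool} (hg : g ∈ lab Gp Gm) :
    ((lab Gp Gm).map fun h => sgn χ g * sgn χ h * Mk T ε (a ∘ φ g.1) (b ∘ φ h.1)).sum =
      Eb T χ ε Gp Gm a b := by
  rw [← ((hG.2.2 g hg).map _).sum_eq, List.map_map, Eb_eq]
  congr 1
  refine List.map_congr_left fun h _ => ?_
  simp only [Function.comp, φ_mul]
  rw [← Function.comp_assoc, Mk_perm hT ε (hG.2.1 g hg)]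
  congr 1
  obtain ⟨g1, g2⟩ := g
  obtain ⟨h1, h2⟩ := h
  cases g2 <;> cases h2 <;> simp [sgn, hχ]

theorem E_double (hT : Prm T) {χ : ℝ} (hχ : χ * χ = 1) (ε : ℝ) {Gp Gm : List W} (hG : GOK Gp Gm)
    (a b : V) : ((lab Gp Gm).map fun g => ((lab Gp Gm).map fun h =>
      sgn χ g * sgn χ h * Mk T ε (a ∘ φ g.1) (b ∘ φ h.1)).sum).sum =
      (lab Gp Gm).length * Eb T χ ε Gp Gm a b := by
  rw [List.map_congr_left fun g hg => E_inner hT hχ ε hG a b hg]
  simp

theorem len_pos {Gp Gm : List W} (hG : GOK Gp Gm) : (0 : ℝ) < (lab Gp Gm).length := by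
  have := List.length_pos_iff.mpr hG.1
  have h : 0 < (lab Gp Gm).length := by simp only [lab, List.length_append, List.length_map]; omega
  exact_mod_cast h

theorem Eb_symm (hT : Sym T) {χ : ℝ} (hχ : χ * χ = 1) (ε : ℝ) {Gp Gm : List W} (hG : GOK Gp Gm)
    (a b : V) : Eb T χ ε Gp Gm b a = Eb T χ ε Gp Gm a b := by
  refine mul_left_cancel₀ (len_pos hG).ne' ?_
  rw [← E_double hT.perm hχ ε hG, ← E_double hT.perm hχ ε hG, Ck.lsum_comm]
  congr 1
  refine List.map_congr_left fun g _ => ?_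
  congr 1
  refine List.map_congr_left fun g' _ => ?_
  rw [Mk_symm hT]; ring

theorem dotv_comm (N M : ℕ) : dotv M N = dotv N M :=
  sum_congr rfl fun _ _ => mul_comm _ _

theorem KK_symm (hT : Sym T) (σ : ℝ) {Gp Gm : List W} (hG : GOK Gp Gm) (r s : Row) :
    KK T σ Gp Gm s r = KK T σ Gp Gm r s := by
  simp only [KK, dotv_comm r.j0, dotv_comm r.j1, dotv_comm r.j2, dotv_comm r.j3, dotv_comm r.s0,
    dotv_comm r.s1, dotv_comm r.s2, dotv_comm r.s3,
    Eb_symm hT (χ := 1) (by norm_num) _ hG (dv r.a),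
    Eb_symm hT (χ := -1) (by norm_num) _ hG (dv r.a)]

theorem QF_list (T : V → V → ℝ) (ε : ℝ) {α : Type} (l m : List α) (x y : α → ℝ) (a : α → V) :
    QF T ε (fun i : Fin l.length => x l[i]) (fun i => a l[i]) (fun j : Fin m.length => y m[j])
      (fun j => a m[j]) =
      (l.map fun p => (m.map fun q => x p * y q * Mk T ε (a p) (a q)).sum).sum := by
  rw [← Fin.sum_univ_fun_getElem]
  refine sum_congr rfl fun i _ => ?_
  rw [← Fin.sum_univ_fun_getElem]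
  rfl

theorem prod_form (hT : Prm T) {χ : ℝ} (hχ : χ * χ = 1) (ε : ℝ) {Gp Gm : List W} (hG : GOK Gp Gm)
    (rs ss : List Row) (x : Row → ℝ) :
    ((rs.product (lab Gp Gm)).map fun p => ((ss.product (lab Gp Gm)).map fun q =>
      x p.1 * sgn χ p.2 * (x q.1 * sgn χ q.2) *
        Mk T ε (dv p.1.a ∘ φ p.2.1) (dv q.1.a ∘ φ q.2.1)).sum).sum =
      (lab Gp Gm).length * XX (fun r s => x r * x s * Eb T χ ε Gp Gm (dv r.a) (dv s.a)) rs ss := by
  rw [Ck.lsum_prod, XX, ← List.sum_map_mul_left]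
  congr 1
  refine List.map_congr_left fun r _ => ?_
  simp only [Ck.lsum_prod]
  rw [Ck.lsum_comm, ← List.sum_map_mul_left]
  congr 1
  refine List.map_congr_left fun s _ => ?_
  rw [mul_left_comm, ← E_double hT hχ ε hG, ← List.sum_map_mul_left]
  congr 1
  refine List.map_congr_left fun g _ => ?_
  rw [← List.sum_map_mul_left]
  congr 1
  refine List.map_congr_left fun g' _ => ?_
  ring

theorem XX_dot (E : Row → Row → ℝ) (j : Row → ℕ) (rs ss : List Row) :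
    XX (fun r s => (dotv (j r) (j s) : ℝ) * E r s) rs ss =
      ∑ k ∈ range 176, XX (fun r s => (lv (j r) k : ℝ) * (lv (j s) k : ℝ) * E r s) rs ss := by
  simp only [XX]
  rw [← Ck.lsum_fin]
  congr 1
  refine List.map_congr_left fun r _ => ?_
  rw [← Ck.lsum_fin]
  congr 1
  refine List.map_congr_left fun s _ => ?_
  rw [dotv, ← sum_mul]; push_cast; rfl

theorem prm_add (hB : Sym B) (hC : Sym C) (σ : ℝ) : Prm fun a b => B a b + σ * C a b :=
  fun f hf a b => by simp only [hB.perm f hf, hC.perm f hf]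

theorem blkJ (hL : AxL A B C) (hP : AxP A B C) {χ ε : ℝ} (hχ : χ * χ = 1) (hε : ε = 1 ∨ ε = -1)
    {Gp Gm : List W} (hG : GOK Gp Gm) (r1 r2 : List Row) (j : Row → ℕ) :
    0 ≤ XX (fun r s => (dotv (j r) (j s) : ℝ) * Eb A χ ε Gp Gm (dv r.a) (dv s.a)) r1 r1 +
      2 * XX (fun r s => (dotv (j r) (j s) : ℝ) *
        Eb (fun a b => B a (-a - b)) χ ε Gp Gm (dv r.a) (dv s.a)) r1 r2 +
      XX (fun r s => (dotv (j r) (j s) : ℝ) *
        Eb (fun a b => B a b + C a b) χ ε Gp Gm (dv r.a) (dv s.a)) r2 r2 := by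
  rw [XX_dot, XX_dot, XX_dot, mul_sum, ← sum_add_distrib, ← sum_add_distrib]
  refine sum_nonneg fun k _ => ?_
  have h := hP.psdJ ε hε _ _
    (fun i : Fin (r1.product (lab Gp Gm)).length =>
      (fun p : Row × W × Bool => (lv (j p.1) k : ℝ) * sgn χ p.2) (r1.product (lab Gp Gm))[i])
    (fun i => (fun p : Row × W × Bool => dv p.1.a ∘ φ p.2.1) (r1.product (lab Gp Gm))[i])
    (fun i : Fin (r2.product (lab Gp Gm)).length =>
      (fun p : Row × W × Bool => (lv (j p.1) k : ℝ) * sgn χ p.2) (r2.product (lab Gp Gm))[i])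
    (fun i => (fun p : Row × W × Bool => dv p.1.a ∘ φ p.2.1) (r2.product (lab Gp Gm))[i])
  have pX : Prm fun a b => B a (-a - b) := fun f hf a b => hL.symB.perm f hf a (-a - b)
  have pS : Prm fun a b => B a b + C a b := fun f hf a b => by
    simp only [hL.symB.perm f hf, hL.symC.perm f hf]
  have q := fun T l m => QF_list T ε l m
    (fun p : Row × W × Bool => (lv (j p.1) k : ℝ) * sgn χ p.2)
    (fun p : Row × W × Bool => (lv (j p.1) k : ℝ) * sgn χ p.2)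
    (fun p : Row × W × Bool => dv p.1.a ∘ φ p.2.1)
  rw [q, q, q, prod_form hL.symA.perm hχ ε hG r1 r1 fun r => (lv (j r) k : ℝ),
    prod_form pX hχ ε hG r1 r2 fun r => (lv (j r) k : ℝ),
    prod_form pS hχ ε hG r2 r2 fun r => (lv (j r) k : ℝ)] at h
  refine nonneg_of_mul_nonneg_right ?_ (len_pos hG)
  refine h.trans (le_of_eq ?_)
  ring

theorem blkS (hL : AxL A B C) (hP : AxP A B C) {χ ε : ℝ} (hχ : χ * χ = 1) (hε : ε = 1 ∨ ε = -1)
    {Gp Gm : List W} (hG : GOK Gp Gm) (r2 : List Row) (j : Row → ℕ) :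
    0 ≤ XX (fun r s => (dotv (j r) (j s) : ℝ) *
        Eb (fun a b => B a b - C a b) χ ε Gp Gm (dv r.a) (dv s.a)) r2 r2 := by
  rw [XX_dot]
  refine sum_nonneg fun k _ => ?_
  have h : 0 ≤ QF (fun a b => B a b - C a b) ε _ _ _ _ := hP.psdS ε hε _
    (fun i : Fin (r2.product (lab Gp Gm)).length =>
      (fun p : Row × W × Bool => (lv (j p.1) k : ℝ) * sgn χ p.2) (r2.product (lab Gp Gm))[i])
    (fun i => (fun p : Row × W × Bool => dv p.1.a ∘ φ p.2.1) (r2.product (lab Gp Gm))[i])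
  have pS : Prm fun a b => B a b - C a b := fun f hf a b => by
    simp only [hL.symB.perm f hf, hL.symC.perm f hf]
  have q := fun T l m => QF_list T ε l m
    (fun p : Row × W × Bool => (lv (j p.1) k : ℝ) * sgn χ p.2)
    (fun p : Row × W × Bool => (lv (j p.1) k : ℝ) * sgn χ p.2)
    (fun p : Row × W × Bool => dv p.1.a ∘ φ p.2.1)
  rw [q, prod_form pS hχ ε hG r2 r2 fun r => (lv (j r) k : ℝ)] at h
  exact nonneg_of_mul_nonneg_right h (len_pos hG)

theorem Eb_add (B C : V → V → ℝ) (χ ε : ℝ) (Gp Gm : List W) (a b : V) :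
    Eb (fun a b => B a b + C a b) χ ε Gp Gm a b = Eb B χ ε Gp Gm a b + Eb C χ ε Gp Gm a b := by
  simp only [Eb_eq, ← List.sum_map_add]
  congr 1
  refine List.map_congr_left fun g _ => ?_
  simp only [Mk]; ring

theorem Eb_sub (B C : V → V → ℝ) (χ ε : ℝ) (Gp Gm : List W) (a b : V) :
    Eb (fun a b => B a b - C a b) χ ε Gp Gm a b = Eb B χ ε Gp Gm a b - Eb C χ ε Gp Gm a b := by
  rw [eq_sub_iff_add_eq, ← Eb_add]
  simp only [sub_add_cancel]

theorem XX_add (K K' : Row → Row → ℝ) (l m : List Row) :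
    XX K l m + XX K' l m = XX (fun r s => K r s + K' r s) l m := by
  simp only [XX, ← List.sum_map_add]

theorem psd_total (hL : AxL A B C) (hP : AxP A B C) {Gp Gm : List W} (hG : GOK Gp Gm)
    (r1 r2 : List Row) :
    0 ≤ XX (KK A 0 Gp Gm) r1 r1 + 2 * XX (KK (fun a b => B a (-a - b)) 0 Gp Gm) r1 r2 +
      XX (KK B 1 Gp Gm) r2 r2 + XX (KK C (-1) Gp Gm) r2 r2 := by
  have p1 : (1 : ℝ) * 1 = 1 := by norm_num
  have m1 : (-1 : ℝ) * -1 = 1 := by norm_num
  have j0 := blkJ hL hP p1 (Or.inl rfl) hG r1 r2 Row.j0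
  have j1 := blkJ hL hP p1 (Or.inr rfl) hG r1 r2 Row.j1
  have j2 := blkJ hL hP m1 (Or.inl rfl) hG r1 r2 Row.j2
  have j3 := blkJ hL hP m1 (Or.inr rfl) hG r1 r2 Row.j3
  have s0 := blkS hL hP p1 (Or.inl rfl) hG r2 Row.s0
  have s1 := blkS hL hP p1 (Or.inr rfl) hG r2 Row.s1
  have s2 := blkS hL hP m1 (Or.inl rfl) hG r2 Row.s2
  have s3 := blkS hL hP m1 (Or.inr rfl) hG r2 Row.s3
  have e0 : ∀ (T : V → V → ℝ) (l m : List Row), XX (KK T 0 Gp Gm) l m =
      XX (fun r s => (dotv r.j0 s.j0 : ℝ) * Eb T 1 1 Gp Gm (dv r.a) (dv s.a)) l m +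
      XX (fun r s => (dotv r.j1 s.j1 : ℝ) * Eb T 1 (-1) Gp Gm (dv r.a) (dv s.a)) l m +
      XX (fun r s => (dotv r.j2 s.j2 : ℝ) * Eb T (-1) 1 Gp Gm (dv r.a) (dv s.a)) l m +
      XX (fun r s => (dotv r.j3 s.j3 : ℝ) * Eb T (-1) (-1) Gp Gm (dv r.a) (dv s.a)) l m := by
    intro T l m
    simp only [XX_add]
    congr 1
    funext r s
    simp only [KK]; ring
  have e1 : XX (KK B 1 Gp Gm) r2 r2 + XX (KK C (-1) Gp Gm) r2 r2 =
      XX (fun r s => (dotv r.j0 s.j0 : ℝ) *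
        Eb (fun a b => B a b + C a b) 1 1 Gp Gm (dv r.a) (dv s.a)) r2 r2 +
      XX (fun r s => (dotv r.j1 s.j1 : ℝ) *
        Eb (fun a b => B a b + C a b) 1 (-1) Gp Gm (dv r.a) (dv s.a)) r2 r2 +
      XX (fun r s => (dotv r.j2 s.j2 : ℝ) *
        Eb (fun a b => B a b + C a b) (-1) 1 Gp Gm (dv r.a) (dv s.a)) r2 r2 +
      XX (fun r s => (dotv r.j3 s.j3 : ℝ) *
        Eb (fun a b => B a b + C a b) (-1) (-1) Gp Gm (dv r.a) (dv s.a)) r2 r2 +
      XX (fun r s => (dotv r.s0 s.s0 : ℝ) *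
        Eb (fun a b => B a b - C a b) 1 1 Gp Gm (dv r.a) (dv s.a)) r2 r2 +
      XX (fun r s => (dotv r.s1 s.s1 : ℝ) *
        Eb (fun a b => B a b - C a b) 1 (-1) Gp Gm (dv r.a) (dv s.a)) r2 r2 +
      XX (fun r s => (dotv r.s2 s.s2 : ℝ) *
        Eb (fun a b => B a b - C a b) (-1) 1 Gp Gm (dv r.a) (dv s.a)) r2 r2 +
      XX (fun r s => (dotv r.s3 s.s3 : ℝ) *
        Eb (fun a b => B a b - C a b) (-1) (-1) Gp Gm (dv r.a) (dv s.a)) r2 r2 := by
    simp only [XX_add]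
    congr 1
    funext r s
    simp only [KK, Eb_add, Eb_sub]; ring
  rw [e0, e0]
  linarith

end Vale.Agent.P355.K3
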