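import Vale.Agent.P355.K3S2

/-! Soundness of the expansion of products of power sums and of the frame equations. -/

namespace Vale.Agent.P355.K3

open Finset

variable {T U A B C : V → V → ℝ} {v : ℕ → ℝ}

namespace S7

theorem comp_e {φ : Fin 6 → Fin 6} (hφ : Function.Bijective φ) (a : V) (c : ℤ) (r : Fin 6) :
    (a + c • e (φ r)) ∘ φ = a ∘ φ + c • e r := by
  funext i
  simp [e, Pi.single_apply, hφ.1.eq_iff]

theorem pw_prm (hT : Prm T) : ∀ l, Prm (pw T l)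
  | [] => hT
  | t :: ts => fun φ hφ a b => by
    simp only [pw]
    rw [← hφ.sum_comp fun r => pw T ts (a + t.1 • e r) (b + t.2 • e r)]
    refine sum_congr rfl fun r _ => ?_
    rw [← comp_e hφ, ← comp_e hφ, pw_prm hT ts φ hφ]

def Bd (l : List (ℤ × ℤ)) (x y : V) : Prop :=
  ∀ r, |x r| + (wt (fun d => d.1) l : ℤ) ≤ 20 ∧ |y r| + (wt (fun d => d.2) l : ℤ) ≤ 20 ∧
    |x r + y r| + (wt (fun d => d.1 + d.2) l : ℤ) ≤ 20

def Lf (l : List (ℤ × ℤ)) (k N : ℕ) : Prop := ∃ x y, Rep N x y ∧ k = cdv x y ∧ Bd l x y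

def Inv (l : List (ℤ × ℤ)) : Ts → Prop
  | Ts.lf k N _ => Lf l k N
  | Ts.nd a _ b => Inv l a ∧ Inv l b

noncomputable def evS (F : V → V → ℝ) : Ts → ℝ
  | Ts.lf k _ s => s * vk F k
  | Ts.nd a _ b => evS F a + evS F b

theorem wt_cons (f : ℤ × ℤ → ℤ) (d : ℤ × ℤ) (l : List (ℤ × ℤ)) :
    (wt f (d :: l) : ℤ) = |f d| + wt f l := by
  change ((Nat.add (f d).natAbs (wt f l) : ℕ) : ℤ) = _
  rw [Nat.add_eq, Nat.cast_add, Int.natCast_natAbs]

theorem insT_spec {l : List (ℤ × ℤ)} {h k N p : ℕ} (hL : Lf l k N) (F : V → V → ℝ) :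
    ∀ (t : Ts) (c : Ts → Bool), Inv l t → insT h k N p t c = true →
      ∃ t', c t' = true ∧ Inv l t' ∧ evS F t' = evS F t + p * vk F k := by
  intro t
  induction t with
  | lf k' N' s =>
    intro c hI hc
    change Bool.rec (motive := fun _ => Bool)
      (Bool.rec (motive := fun _ => Bool)
        (c (Ts.nd (Ts.lf k' N' s) (Nat.mod k' 1000000007) (Ts.lf k N p)))
        (c (Ts.nd (Ts.lf k N p) h (Ts.lf k' N' s))) (Nat.ble h (Nat.mod k' 1000000007)))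
      (lfT k' N' (Nat.add s p) c) (Nat.beq k k') = true at hc
    cases h1 : Nat.beq k k' with
    | true =>
      rw [h1] at hc
      change lfT k' N' (Nat.add s p) c = true at hc
      generalize hq : Nat.add s p = q at hc
      cases q with
      | zero => exact absurd hc (by simp [lfT])
      | succ m =>
        refine ⟨Ts.lf k' N' (m + 1), hc, hI, ?_⟩
        rw [Nat.add_eq] at hq
        simp only [evS, ← hq, Nat.eq_of_beq_eq_true h1]
        push_cast; ring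
    | false =>
      rw [h1] at hc
      cases h2 : Nat.ble h (Nat.mod k' 1000000007) with
      | true =>
        rw [h2] at hc
        exact ⟨_, hc, ⟨hL, hI⟩, by simp only [evS]; ring⟩
      | false =>
        rw [h2] at hc
        exact ⟨_, hc, ⟨hI, hL⟩, by simp only [evS]⟩
  | nd a k' b iha ihb =>
    intro c hI hc
    change Bool.rec (motive := fun _ => Bool) (insT h k N p b fun r' => c (Ts.nd a k' r'))
      (insT h k N p a fun l' => c (Ts.nd l' k' b)) (Nat.ble h k') = true at hc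
    cases h1 : Nat.ble h k' with
    | true =>
      rw [h1] at hc
      obtain ⟨t', h2, h3, h4⟩ := iha _ hI.1 hc
      exact ⟨_, h2, ⟨h3, hI.2⟩, by simp only [evS, h4]; ring⟩
    | false =>
      rw [h1] at hc
      obtain ⟨t', h2, h3, h4⟩ := ihb _ hI.2 hc
      exact ⟨_, h2, ⟨hI.1, h3⟩, by simp only [evS, h4]; ring⟩

theorem lin_e (c : ℤ) (r : Fin 6) : lin (c • e r) = c * 2048 ^ (r : ℕ) := by
  simp [lin, e, Pi.single_apply]

theorem dP_dN (d : ℤ × ℤ) :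
    (dP d : ℤ) - dN d = d.1 * ((AXp : ℤ) - AXn) + d.2 * ((AYp : ℤ) - AYn) := by
  have h1 := Int.toNat_sub_toNat_neg d.1
  have h2 := Int.toNat_sub_toNat_neg d.2
  simp only [dP, dN, Nat.add_eq, Nat.mul_eq]
  push_cast
  generalize (AXp : ℤ) = a, (AXn : ℤ) = b, (AYp : ℤ) = a', (AYn : ℤ) = b'
  linear_combination (a - b) * h1 + (a' - b') * h2

theorem bd_step {l : List (ℤ × ℤ)} {d : ℤ × ℤ} {x y : V} (h : Bd (d :: l) x y) (r : Fin 6) :
    Bd l (x + d.1 • e r) (y + d.2 • e r) := by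
  intro i
  obtain ⟨h1, h2, h3⟩ := h i
  rw [wt_cons] at h1 h2 h3
  have a1 := abs_add_le (x i) d.1
  have a2 := abs_add_le (y i) d.2
  have a3 := abs_add_le (x i + y i) (d.1 + d.2)
  have b1 := abs_nonneg d.1
  have b2 := abs_nonneg d.2
  have b3 := abs_nonneg (d.1 + d.2)
  by_cases hi : i = r
  · have e1 : x i + d.1 + (y i + d.2) = x i + y i + (d.1 + d.2) := by ring
    simp only [e, Pi.add_apply, Pi.smul_apply, hi, Pi.single_eq_same, smul_eq_mul, mul_one]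
    rw [← hi, e1]
    exact ⟨by linarith, by linarith, by linarith⟩
  · simp only [e, Pi.add_apply, Pi.smul_apply, Pi.single_eq_of_ne hi, smul_eq_mul, mul_zero,
      add_zero]
    exact ⟨by linarith, by linarith, by linarith⟩

theorem Bd.inR {l : List (ℤ × ℤ)} {x y : V} (h : Bd l x y) : InR x ∧ InR y ∧ InR (x + y) := by
  refine ⟨fun r => abs_le.1 ?_, fun r => abs_le.1 ?_, fun r => abs_le.1 ?_⟩
  · have := (h r).1; omega
  · have := (h r).2.1; omega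
  · have := (h r).2.2; rw [Pi.add_apply]; omega

theorem mv_spec {l : List (ℤ × ℤ)} {d : ℤ × ℤ} {N : ℕ} {x y : V} (hR : Rep N x y)
    (hB : Bd (d :: l) x y) {F : V → V → ℝ} (hF : Prm F) (r : Fin 6) {s : ℕ} (hs : s = 11 * r)
    {p : ℕ} {t : Ts} {c : Ts → Bool} (hI : Inv l t) (hc : mv (dP d) (dN d) N s p t c = true) :
    ∃ t', c t' = true ∧ Inv l t' ∧
      evS F t' = evS F t + p * F (x + d.1 • e r) (y + d.2 • e r) := by
  have hb := bd_step hB r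
  obtain ⟨h1, h2, h3⟩ := hb.inR
  have hR' : Rep (Nat.sub (Nat.add N (Nat.shiftLeft (dP d) s)) (Nat.shiftLeft (dN d) s))
      (x + d.1 • e r) (y + d.2 • e r) := by
    refine rep_add hR h1 h2 h3 ?_
    rw [lin_e, lin_e]
    change ((dP d <<< s : ℕ) : ℤ) - ((dN d <<< s : ℕ) : ℤ) = _
    rw [Nat.shiftLeft_eq, Nat.shiftLeft_eq, hs, pow_mul]
    push_cast
    linear_combination (2048 : ℤ) ^ (r : ℕ) * dP_dN d
  obtain ⟨t', h4, h5, h6⟩ := insT_spec (l := l) ⟨_, _, hR', key_tR hR' 0, hb⟩ F t c hI hc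
  exact ⟨t', h4, h5, by rw [h6, key_tR hR' 0, vk_cdv hF h1 h2]⟩

theorem mv6_spec {l : List (ℤ × ℤ)} {d : ℤ × ℤ} {N : ℕ} {x y : V} (hR : Rep N x y)
    (hB : Bd (d :: l) x y) {F : V → V → ℝ} (hF : Prm F)
    {p : ℕ} {t : Ts} {c : Ts → Bool} (hI : Inv l t) (hc : mv6 (dP d) (dN d) N p t c = true) :
    ∃ t', c t' = true ∧ Inv l t' ∧
      evS F t' = evS F t + p * ∑ r, F (x + d.1 • e r) (y + d.2 • e r) := by
  obtain ⟨t0, c0, i0, e0⟩ := mv_spec hR hB hF 0 rfl hI hc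
  obtain ⟨t1, c1, i1, e1⟩ := mv_spec hR hB hF 1 rfl i0 c0
  obtain ⟨t2, c2, i2, e2⟩ := mv_spec hR hB hF 2 rfl i1 c1
  obtain ⟨t3, c3, i3, e3⟩ := mv_spec hR hB hF 3 rfl i2 c2
  obtain ⟨t4, c4, i4, e4⟩ := mv_spec hR hB hF 4 rfl i3 c3
  obtain ⟨t5, c5, i5, e5⟩ := mv_spec hR hB hF 5 rfl i4 c4
  refine ⟨t5, c5, i5, ?_⟩
  rw [e5, e4, e3, e2, e1, e0, Fin.sum_univ_six]
  ring

theorem lvl_spec (hT : Prm T) {l : List (ℤ × ℤ)} {d : ℤ × ℤ} : ∀ (u t : Ts) (c : Ts → Bool),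
    Inv (d :: l) u → Inv l t → lvl (dP d) (dN d) u t c = true →
    ∃ t', c t' = true ∧ Inv l t' ∧
      evS (pw T l) t' = evS (pw T l) t + evS (pw T (d :: l)) u := by
  intro u
  induction u with
  | lf k N p =>
    intro t c hu hI hc
    obtain ⟨x, y, hR, hk, hB⟩ := hu
    cases p with
    | zero => exact ⟨t, hc, hI, by simp [evS]⟩
    | succ m =>
      obtain ⟨t', h1, h2, h3⟩ := mv6_spec hR hB (pw_prm hT l) (p := m + 1) hI hc
      refine ⟨t', h1, h2, ?_⟩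
      rw [h3, evS, hk, vk_cdv (pw_prm hT (d :: l)) hR.1 hR.2.1, pw]
  | nd a k b iha ihb =>
    intro t c hu hI hc
    obtain ⟨t1, c1, i1, e1⟩ := iha t _ hu.1 hI hc
    obtain ⟨t2, c2, i2, e2⟩ := ihb t1 c hu.2 i1 c1
    exact ⟨t2, c2, i2, by rw [e2, e1, evS, add_assoc]⟩

theorem Inv.bd0 {l : List (ℤ × ℤ)} : ∀ u : Ts, Inv l u → Bd l 0 0
  | Ts.lf _ _ _, ⟨x, y, _, _, h⟩ => fun r => by
    obtain ⟨h1, h2, h3⟩ := h r
    have a1 := abs_nonneg (x r)
    have a2 := abs_nonneg (y r)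
    have a3 := abs_nonneg (x r + y r)
    simp only [Pi.zero_apply, abs_zero, add_zero, zero_add]
    exact ⟨by linarith, by linarith, by linarith⟩
  | Ts.nd a _ _, h => Inv.bd0 a h.1

theorem bd_tail {l : List (ℤ × ℤ)} {d : ℤ × ℤ} {x y : V} (h : Bd (d :: l) x y) : Bd l x y := by
  intro r
  obtain ⟨h1, h2, h3⟩ := h r
  rw [wt_cons] at h1 h2 h3
  have b1 := abs_nonneg d.1
  have b2 := abs_nonneg d.2
  have b3 := abs_nonneg (d.1 + d.2)
  exact ⟨by linarith, by linarith, by linarith⟩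

theorem inv0 {l : List (ℤ × ℤ)} (h : Bd l 0 0) (s : ℕ) : Inv l (Ts.lf (key tR 0 V00) V00 s) :=
  ⟨0, 0, rep_V00, key_tR rep_V00 0, h⟩

theorem lvls_spec (hT : Prm T) : ∀ (l : List (ℤ × ℤ)) (u : Ts) (c : Ts → Bool), Inv l u →
    lvls l u c = true → ∃ u', c u' = true ∧ Inv [] u' ∧ evS T u' = evS (pw T l) u := by
  intro l
  induction l with
  | nil => exact fun u c hu hc => ⟨u, hc, hu, rfl⟩
  | cons d l ih =>
    intro u c hu hc
    obtain ⟨t1, c1, i1, e1⟩ := lvl_spec hT u _ (fun u' => lvls l u' c) hu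
      (inv0 (bd_tail (Inv.bd0 u hu)) 0) hc
    obtain ⟨t2, c2, i2, e2⟩ := ih t1 c i1 c1
    exact ⟨t2, c2, i2, by rw [e2, e1]; simp [evS]⟩

theorem out_spec {tb : ℕ} (hT : Prm T) (hk : KOK T tb T) (p n : ℕ) :
    ∀ (u : Ts) (h : ℕ) (t : Tr) (c : ℕ → Tr → Bool), Inv [] u → out tb p n u h t c = true →
    ∃ h' t', c h' t' = true ∧ ev (vk T) t' = ev (vk T) t + ((p : ℝ) - n) * evS T u := by
  intro u
  induction u with
  | lf k N s =>
    intro h t c hu hc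
    obtain ⟨x, y, hR, hk', -⟩ := hu
    obtain ⟨t', h1, h2⟩ := ins_st (vk T) (key tb h N) (Nat.mul s p) (Nat.mul s n) t _ hc
    refine ⟨_, t', h1, ?_⟩
    rw [h2, hk h N x y hR, evS, hk', vk_cdv hT hR.1 hR.2.1, Nat.mul_eq, Nat.mul_eq]
    push_cast; ring
  | nd a k b iha ihb =>
    intro h t c hu hc
    obtain ⟨h1, t1, c1, e1⟩ := iha h t _ hu.1 hc
    obtain ⟨h2, t2, c2, e2⟩ := ihb h1 t1 c hu.2 c1
    exact ⟨h2, t2, c2, by rw [e2, e1, evS]; ring⟩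

theorem pow_six {e0 e1 : ℕ} {X0 X1 : ℝ} (h2 : e0 % 2 = e1 % 2) (hle : e1 ≤ e0)
    (h : √6 ^ e0 * X0 = √6 ^ e1 * X1) : 6 ^ ((e0 - e1) / 2) * X0 = 6 ^ ((e1 - e0) / 2) * X1 := by
  obtain ⟨j, rfl⟩ : ∃ j, e0 = e1 + 2 * j := ⟨(e0 - e1) / 2, by omega⟩
  rw [show (e1 + 2 * j - e1) / 2 = j by omega, show (e1 - (e1 + 2 * j)) / 2 = 0 by omega,
    pow_zero, one_mul]
  rw [pow_add, pow_mul, Real.sq_sqrt (by norm_num), mul_assoc] at h
  exact mul_left_cancel₀ (by positivity) h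

end S7

open S7

theorem gPw_st {tb : ℕ} (hT : Prm T) (hk : KOK T tb T) (p n h : ℕ) (l : List (ℤ × ℤ)) :
    St (vk T) (gPw tb p n h l) (((p : ℝ) - n) * pw T l 0 0) := by
  intro t c hc
  change Bool.rec (motive := fun _ => Bool) false
    (lvls l (Ts.lf (key tR 0 V00) V00 1) fun u => out tb p n u h t fun _ t' => c t') (wOK l)
      = true at hc
  cases h1 : wOK l with
  | false => rw [h1] at hc; exact absurd hc (by simp)
  | true =>
    rw [h1] at hc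
    simp only [wOK, Bool.and_eq_true, Nat.ble_eq] at h1
    have hB : Bd l 0 0 := fun r => by
      simp only [Pi.zero_apply, abs_zero, add_zero, zero_add]
      exact ⟨by exact_mod_cast h1.1.1, by exact_mod_cast h1.1.2, by exact_mod_cast h1.2⟩
    obtain ⟨u, c1, i1, e1⟩ := lvls_spec hT l _ _ (inv0 hB 1) hc
    obtain ⟨_, t', c2, e2⟩ := out_spec hT hk p n u h t _ i1 c1
    refine ⟨t', c2, ?_⟩
    rw [e2, e1, evS, key_tR rep_V00 0, vk_cdv (pw_prm hT l) rep_V00.1 rep_V00.2.1]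
    simp

namespace S7

theorem gF2_st {tb : ℕ} (hT : Prm T) (hk : KOK T tb T) (f : Fr) (e0 e1 : ℕ)
    (l0 l1 : List (ℤ × ℤ)) (h : √6 ^ e0 * pw T l0 0 0 = √6 ^ e1 * pw T l1 0 0) :
    St (vk T) (gF2 tb f e0 e1 l0 l1) 0 := by
  intro t c hc
  unfold gF2 at hc
  cases h1 : Nat.beq (Nat.mod e0 2) (Nat.mod e1 2) with
  | false => rw [h1] at hc; exact absurd hc (by simp)
  | true =>
    rw [h1] at hc
    have h2 : e0 % 2 = e1 % 2 := Nat.eq_of_beq_eq_true h1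
    have h3 : (6 : ℝ) ^ ((e0 - e1) / 2) * pw T l0 0 0 = 6 ^ ((e1 - e0) / 2) * pw T l1 0 0 := by
      rcases le_total e1 e0 with h4 | h4
      · exact pow_six h2 h4 h
      · exact (pow_six h2.symm h4 h.symm).symm
    refine (((gPw_st hT hk _ _ f.h0 l0).seq' (gPw_st hT hk _ _ f.h1 l1)).of_eq ?_) t c hc
    change (((6 ^ ((e0 - e1) / 2) * f.p : ℕ) : ℝ) - ((6 ^ ((e0 - e1) / 2) * f.n : ℕ) : ℝ)) * _ +
      (((6 ^ ((e1 - e0) / 2) * f.n : ℕ) : ℝ) - ((6 ^ ((e1 - e0) / 2) * f.p : ℕ) : ℝ)) * _ = 0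
    push_cast
    linear_combination ((f.p : ℝ) - f.n) * h3

theorem gFL_st {g : Fr → Gen} (h : ∀ f, St v (g f) 0) : ∀ l, St v (gFL g l) 0
  | [] => St.nil v
  | f :: l => ((h f).seq' (gFL_st h l)).of_eq (add_zero 0)

end S7

theorem f33_st (hL : AxL A B C) (hF : AxF A B C) (l : List Fr) : St (vk A) (gFL g33 l) 0 :=
  gFL_st (fun f => gF2_st hL.symA.perm (kA hL.symA hL.rotA) f 0 0 _ _
    (congrArg (√6 ^ 0 * ·) (hF.f33 f.a f.b f.c f.d))) l

theorem f221_st (hL : AxL A B C) (hF : AxF A B C) (l : List Fr) : St (vk B) (gFL g221 l) 0 :=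
  gFL_st (fun f => gF2_st hL.symB.perm (kB hL.symB) f _ _ _ _ (hF.f221 f.a f.b f.c f.d)) l

theorem f1111_st (hL : AxL A B C) (hF : AxF A B C) (l : List Fr) :
    St (vk C) (gFL g1111 l) 0 :=
  gFL_st (fun f => gF2_st hL.symC.perm (kA hL.symC hL.rotC) f _ _ _ _ (hF.f1111 f.a f.b f.c)) l

end Vale.Agent.P355.K3
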