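import Vale.Agent.P355.K3S3
import Vale.Agent.P355.K3S5
import Vale.Agent.P355.K3S6
import Vale.Agent.P355.K3S7
import Vale.Agent.P355.R.A0
import Vale.Agent.P355.R.A1
import Vale.Agent.P355.R.X0
import Vale.Agent.P355.R.X1
import Vale.Agent.P355.R.X2
import Vale.Agent.P355.R.X3
import Vale.Agent.P355.R.X4
import Vale.Agent.P355.R.X5
import Vale.Agent.P355.R.X6
import Vale.Agent.P355.R.B0
import Vale.Agent.P355.R.B1
import Vale.Agent.P355.R.B2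
import Vale.Agent.P355.R.B3
import Vale.Agent.P355.R.B4
import Vale.Agent.P355.R.B5
import Vale.Agent.P355.R.B6
import Vale.Agent.P355.R.B7
import Vale.Agent.P355.R.B8
import Vale.Agent.P355.R.B9
import Vale.Agent.P355.R.C0
import Vale.Agent.P355.R.C1
import Vale.Agent.P355.R.C2
import Vale.Agent.P355.R.C3
import Vale.Agent.P355.R.C4
import Vale.Agent.P355.R.C5
import Vale.Agent.P355.R.C6
import Vale.Agent.P355.R.C7
import Vale.Agent.P355.R.C8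
import Vale.Agent.P355.R.C9
import Vale.Agent.P355.R.OA0
import Vale.Agent.P355.R.OA1
import Vale.Agent.P355.R.OA2
import Vale.Agent.P355.R.UB0
import Vale.Agent.P355.R.UB1
import Vale.Agent.P355.R.UB2
import Vale.Agent.P355.R.UB3
import Vale.Agent.P355.R.UB4
import Vale.Agent.P355.R.UC0
import Vale.Agent.P355.R.UC1
import Vale.Agent.P355.R.UC2
import Vale.Agent.P355.R.UC3
import Vale.Agent.P355.R.UC4
import Vale.Agent.P355.R.UC5
import Vale.Agent.P355.R.FB0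
import Vale.Agent.P355.R.FB1
import Vale.Agent.P355.R.FB2
import Vale.Agent.P355.R.FC0
import Vale.Agent.P355.R.FC1
import Vale.Agent.P355.R.ZA0
import Vale.Agent.P355.R.ZB0
import Vale.Agent.P355.R.ZB1
import Vale.Agent.P355.R.ZB2
import Vale.Agent.P355.R.ZB3
import Vale.Agent.P355.R.ZB4
import Vale.Agent.P355.R.ZB5
import Vale.Agent.P355.R.ZC0
import Vale.Agent.P355.R.ZC1

namespace Vale.Agent.P355.K3

theorem gp0 : GB Gp0 := by unfold GB; decide +kernel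
theorem gm0 : GB Gm0 := by unfold GB; decide +kernel
theorem go0 : GOK Gp0 Gm0 := by unfold GOK; decide +kernel
theorem ro00 : RowOK rw00 := by unfold RowOK; decide +kernel
theorem ro01 : RowOK rw01 := by unfold RowOK; decide +kernel
theorem gp1 : GB Gp1 := by unfold GB; decide +kernel
theorem gm1 : GB Gm1 := by unfold GB; decide +kernel
theorem go1 : GOK Gp1 Gm1 := by unfold GOK; decide +kernel
theorem ro10 : RowOK rw10 := by unfold RowOK; decide +kernel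
theorem ro11 : RowOK rw11 := by unfold RowOK; decide +kernel

set_option maxRecDepth 200000 in
theorem no_ax {A B C : V → V → ℝ} (hL : AxL A B C) (hP : AxP A B C) (hF : AxF A B C) : False := by
  have pA : Prm A := hL.symA.perm
  have pB : Prm B := hL.symB.perm
  have pC : Prm C := hL.symC.perm
  have pX : Prm fun a b => B a (-a - b) := fun f hf a b => hL.symB.perm f hf a (-a - b)
  have kA1 := kA hL.symA hL.rotA
  have kB1 := kB hL.symB
  have kC1 := kA hL.symC hL.rotC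
  have kX1 := kX hL.symB
  have bA := vk_bd hP.bdA
  have bB := vk_bd hP.bdB
  have bC := vk_bd hP.bdC
  have bX := vk_bd (T := fun a b => B a (-a - b)) fun a b => hP.bdB a (-a - b)
  have hA0 := run_spec
    ((dneg_st (kR pA) _ _ _ _ _).seq
      ((tri_st pA cJ_ok gp0 gm0 ro00 0 17).seq
      (tri_st pA cJ_ok gp1 gm1 ro10 0 6))) bA runA0
  have hA1 := run_spec
    ((dneg_st (kR pA) _ _ _ _ _).seq
      ((tri_st pA cJ_ok gp0 gm0 ro00 17 36).seq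
      (tri_st pA cJ_ok gp1 gm1 ro10 6 18))) bA runA1
  have hX0 := run_spec
    ((dneg_st (kR pX) _ _ _ _ _).seq
      ((dneg_st (kR pX) _ _ _ _ _).seq
      ((dneg_st (kR pX) _ _ _ _ _).seq
      ((dneg_st (kR pX) _ _ _ _ _).seq
      ((dneg_st (kR pX) _ _ _ _ _).seq
      ((dneg_st (kR pX) _ _ _ _ _).seq
      ((rect_st pX cJ_ok gp0 gm0 ro00 ro01 0 9).seq
      (rect_st pX cJ_ok gp1 gm1 ro10 ro11 0 2)))))))) bX runX0
  have hX1 := run_spec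
    ((dneg_st (kR pX) _ _ _ _ _).seq
      ((dneg_st (kR pX) _ _ _ _ _).seq
      ((dneg_st (kR pX) _ _ _ _ _).seq
      ((dneg_st (kR pX) _ _ _ _ _).seq
      ((dneg_st (kR pX) _ _ _ _ _).seq
      ((dneg_st (kR pX) _ _ _ _ _).seq
      ((rect_st pX cJ_ok gp0 gm0 ro00 ro01 9 7).seq
      (rect_st pX cJ_ok gp1 gm1 ro10 ro11 2 4)))))))) bX runX1
  have hX2 := run_spec
    ((dneg_st (kR pX) _ _ _ _ _).seq
      ((dneg_st (kR pX) _ _ _ _ _).seq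
      ((dneg_st (kR pX) _ _ _ _ _).seq
      ((dneg_st (kR pX) _ _ _ _ _).seq
      ((dneg_st (kR pX) _ _ _ _ _).seq
      ((dneg_st (kR pX) _ _ _ _ _).seq
      ((rect_st pX cJ_ok gp0 gm0 ro00 ro01 16 7).seq
      (rect_st pX cJ_ok gp1 gm1 ro10 ro11 6 4)))))))) bX runX2
  have hX3 := run_spec
    ((dneg_st (kR pX) _ _ _ _ _).seq
      ((dneg_st (kR pX) _ _ _ _ _).seq
      ((dneg_st (kR pX) _ _ _ _ _).seq
      ((dneg_st (kR pX) _ _ _ _ _).seq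
      ((dneg_st (kR pX) _ _ _ _ _).seq
      ((dneg_st (kR pX) _ _ _ _ _).seq
      ((rect_st pX cJ_ok gp0 gm0 ro00 ro01 23 11).seq
      (rect_st pX cJ_ok gp1 gm1 ro10 ro11 10 0)))))))) bX runX3
  have hX4 := run_spec
    ((dneg_st (kR pX) _ _ _ _ _).seq
      ((dneg_st (kR pX) _ _ _ _ _).seq
      ((dneg_st (kR pX) _ _ _ _ _).seq
      ((dneg_st (kR pX) _ _ _ _ _).seq
      ((dneg_st (kR pX) _ _ _ _ _).seq
      ((dneg_st (kR pX) _ _ _ _ _).seq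
      ((rect_st pX cJ_ok gp0 gm0 ro00 ro01 34 9).seq
      (rect_st pX cJ_ok gp1 gm1 ro10 ro11 10 1)))))))) bX runX4
  have hX5 := run_spec
    ((dneg_st (kR pX) _ _ _ _ _).seq
      ((dneg_st (kR pX) _ _ _ _ _).seq
      ((dneg_st (kR pX) _ _ _ _ _).seq
      ((dneg_st (kR pX) _ _ _ _ _).seq
      ((dneg_st (kR pX) _ _ _ _ _).seq
      ((dneg_st (kR pX) _ _ _ _ _).seq
      ((rect_st pX cJ_ok gp0 gm0 ro00 ro01 43 6).seq
      (rect_st pX cJ_ok gp1 gm1 ro10 ro11 11 6)))))))) bX runX5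
  have hX6 := run_spec
    ((dneg_st (kR pX) _ _ _ _ _).seq
      ((dneg_st (kR pX) _ _ _ _ _).seq
      ((dneg_st (kR pX) _ _ _ _ _).seq
      ((dneg_st (kR pX) _ _ _ _ _).seq
      ((dneg_st (kR pX) _ _ _ _ _).seq
      ((dneg_st (kR pX) _ _ _ _ _).seq
      ((rect_st pX cJ_ok gp0 gm0 ro00 ro01 49 4).seq
      (rect_st pX cJ_ok gp1 gm1 ro10 ro11 17 7)))))))) bX runX6
  have hB0 := run_spec
    ((dneg_st (kR pB) _ _ _ _ _).seq
      ((dneg_st (kR pB) _ _ _ _ _).seq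
      ((dneg_st (kR pB) _ _ _ _ _).seq
      ((dneg_st (kR pB) _ _ _ _ _).seq
      ((dneg_st (kR pB) _ _ _ _ _).seq
      ((dneg_st (kR pB) _ _ _ _ _).seq
      ((tri_st pB cB_ok gp0 gm0 ro01 0 9).seq
      (tri_st pB cB_ok gp1 gm1 ro11 0 2)))))))) bB runB0
  have hB1 := run_spec
    ((dneg_st (kR pB) _ _ _ _ _).seq
      ((dneg_st (kR pB) _ _ _ _ _).seq
      ((dneg_st (kR pB) _ _ _ _ _).seq
      ((dneg_st (kR pB) _ _ _ _ _).seq
      ((dneg_st (kR pB) _ _ _ _ _).seq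
      ((dneg_st (kR pB) _ _ _ _ _).seq
      ((tri_st pB cB_ok gp0 gm0 ro01 9 9).seq
      (tri_st pB cB_ok gp1 gm1 ro11 2 3)))))))) bB runB1
  have hB2 := run_spec
    ((dneg_st (kR pB) _ _ _ _ _).seq
      ((dneg_st (kR pB) _ _ _ _ _).seq
      ((dneg_st (kR pB) _ _ _ _ _).seq
      ((dneg_st (kR pB) _ _ _ _ _).seq
      ((dneg_st (kR pB) _ _ _ _ _).seq
      ((dneg_st (kR pB) _ _ _ _ _).seq
      ((tri_st pB cB_ok gp0 gm0 ro01 18 10).seq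
      (tri_st pB cB_ok gp1 gm1 ro11 5 3)))))))) bB runB2
  have hB3 := run_spec
    ((dneg_st (kR pB) _ _ _ _ _).seq
      ((dneg_st (kR pB) _ _ _ _ _).seq
      ((dneg_st (kR pB) _ _ _ _ _).seq
      ((dneg_st (kR pB) _ _ _ _ _).seq
      ((dneg_st (kR pB) _ _ _ _ _).seq
      ((dneg_st (kR pB) _ _ _ _ _).seq
      ((tri_st pB cB_ok gp0 gm0 ro01 28 6).seq
      (tri_st pB cB_ok gp1 gm1 ro11 8 8)))))))) bB runB3
  have hB4 := run_spec
    ((dneg_st (kR pB) _ _ _ _ _).seq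
      ((dneg_st (kR pB) _ _ _ _ _).seq
      ((dneg_st (kR pB) _ _ _ _ _).seq
      ((dneg_st (kR pB) _ _ _ _ _).seq
      ((dneg_st (kR pB) _ _ _ _ _).seq
      ((dneg_st (kR pB) _ _ _ _ _).seq
      ((tri_st pB cB_ok gp0 gm0 ro01 34 10).seq
      (tri_st pB cB_ok gp1 gm1 ro11 16 5)))))))) bB runB4
  have hB5 := run_spec
    ((dneg_st (kR pB) _ _ _ _ _).seq
      ((dneg_st (kR pB) _ _ _ _ _).seq
      ((dneg_st (kR pB) _ _ _ _ _).seq
      ((dneg_st (kR pB) _ _ _ _ _).seq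
      ((dneg_st (kR pB) _ _ _ _ _).seq
      ((dneg_st (kR pB) _ _ _ _ _).seq
      ((tri_st pB cB_ok gp0 gm0 ro01 44 12).seq
      (tri_st pB cB_ok gp1 gm1 ro11 21 5)))))))) bB runB5
  have hB6 := run_spec
    ((dneg_st (kR pB) _ _ _ _ _).seq
      ((dneg_st (kR pB) _ _ _ _ _).seq
      ((dneg_st (kR pB) _ _ _ _ _).seq
      ((dneg_st (kR pB) _ _ _ _ _).seq
      ((dneg_st (kR pB) _ _ _ _ _).seq
      ((dneg_st (kR pB) _ _ _ _ _).seq
      ((tri_st pB cB_ok gp0 gm0 ro01 56 12).seq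
      (tri_st pB cB_ok gp1 gm1 ro11 26 6)))))))) bB runB6
  have hB7 := run_spec
    ((dneg_st (kR pB) _ _ _ _ _).seq
      ((dneg_st (kR pB) _ _ _ _ _).seq
      ((dneg_st (kR pB) _ _ _ _ _).seq
      ((dneg_st (kR pB) _ _ _ _ _).seq
      ((dneg_st (kR pB) _ _ _ _ _).seq
      ((dneg_st (kR pB) _ _ _ _ _).seq
      ((tri_st pB cB_ok gp0 gm0 ro01 68 19).seq
      (tri_st pB cB_ok gp1 gm1 ro11 32 4)))))))) bB runB7
  have hB8 := run_spec
    ((dneg_st (kR pB) _ _ _ _ _).seq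
      ((dneg_st (kR pB) _ _ _ _ _).seq
      ((dneg_st (kR pB) _ _ _ _ _).seq
      ((dneg_st (kR pB) _ _ _ _ _).seq
      ((dneg_st (kR pB) _ _ _ _ _).seq
      ((dneg_st (kR pB) _ _ _ _ _).seq
      ((tri_st pB cB_ok gp0 gm0 ro01 87 19).seq
      (tri_st pB cB_ok gp1 gm1 ro11 36 10)))))))) bB runB8
  have hB9 := run_spec
    ((dneg_st (kR pB) _ _ _ _ _).seq
      ((dneg_st (kR pB) _ _ _ _ _).seq
      ((dneg_st (kR pB) _ _ _ _ _).seq
      ((dneg_st (kR pB) _ _ _ _ _).seq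
      ((dneg_st (kR pB) _ _ _ _ _).seq
      ((dneg_st (kR pB) _ _ _ _ _).seq
      ((tri_st pB cB_ok gp0 gm0 ro01 106 43).seq
      (tri_st pB cB_ok gp1 gm1 ro11 46 26)))))))) bB runB9
  have hC0 := run_spec
    ((dneg_st (kR pC) _ _ _ _ _).seq
      ((dneg_st (kR pC) _ _ _ _ _).seq
      ((tri_st pC cC_ok gp0 gm0 ro01 0 9).seq
      (tri_st pC cC_ok gp1 gm1 ro11 0 2)))) bC runC0
  have hC1 := run_spec
    ((dneg_st (kR pC) _ _ _ _ _).seq
      ((dneg_st (kR pC) _ _ _ _ _).seq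
      ((tri_st pC cC_ok gp0 gm0 ro01 9 9).seq
      (tri_st pC cC_ok gp1 gm1 ro11 2 3)))) bC runC1
  have hC2 := run_spec
    ((dneg_st (kR pC) _ _ _ _ _).seq
      ((dneg_st (kR pC) _ _ _ _ _).seq
      ((tri_st pC cC_ok gp0 gm0 ro01 18 10).seq
      (tri_st pC cC_ok gp1 gm1 ro11 5 3)))) bC runC2
  have hC3 := run_spec
    ((dneg_st (kR pC) _ _ _ _ _).seq
      ((dneg_st (kR pC) _ _ _ _ _).seq
      ((tri_st pC cC_ok gp0 gm0 ro01 28 6).seq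
      (tri_st pC cC_ok gp1 gm1 ro11 8 8)))) bC runC3
  have hC4 := run_spec
    ((dneg_st (kR pC) _ _ _ _ _).seq
      ((dneg_st (kR pC) _ _ _ _ _).seq
      ((tri_st pC cC_ok gp0 gm0 ro01 34 10).seq
      (tri_st pC cC_ok gp1 gm1 ro11 16 5)))) bC runC4
  have hC5 := run_spec
    ((dneg_st (kR pC) _ _ _ _ _).seq
      ((dneg_st (kR pC) _ _ _ _ _).seq
      ((tri_st pC cC_ok gp0 gm0 ro01 44 12).seq
      (tri_st pC cC_ok gp1 gm1 ro11 21 5)))) bC runC5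
  have hC6 := run_spec
    ((dneg_st (kR pC) _ _ _ _ _).seq
      ((dneg_st (kR pC) _ _ _ _ _).seq
      ((tri_st pC cC_ok gp0 gm0 ro01 56 12).seq
      (tri_st pC cC_ok gp1 gm1 ro11 26 6)))) bC runC6
  have hC7 := run_spec
    ((dneg_st (kR pC) _ _ _ _ _).seq
      ((dneg_st (kR pC) _ _ _ _ _).seq
      ((tri_st pC cC_ok gp0 gm0 ro01 68 19).seq
      (tri_st pC cC_ok gp1 gm1 ro11 32 4)))) bC runC7
  have hC8 := run_spec
    ((dneg_st (kR pC) _ _ _ _ _).seq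
      ((dneg_st (kR pC) _ _ _ _ _).seq
      ((tri_st pC cC_ok gp0 gm0 ro01 87 19).seq
      (tri_st pC cC_ok gp1 gm1 ro11 36 10)))) bC runC8
  have hC9 := run_spec
    ((dneg_st (kR pC) _ _ _ _ _).seq
      ((dneg_st (kR pC) _ _ _ _ _).seq
      ((tri_st pC cC_ok gp0 gm0 ro01 106 43).seq
      (tri_st pC cC_ok gp1 gm1 ro11 46 26)))) bC runC9
  have hOA0 := run_spec
    ((dneg_st kA1 _ _ _ _ _).seq
      (o_st kA1 hL.symA hL.oA _ _ _ _)) bA runOA0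
  have hOA1 := run_spec
    ((dneg_st kA1 _ _ _ _ _).seq
      (o_st kA1 hL.symA hL.oA _ _ _ _)) bA runOA1
  have hOA2 := run_spec
    ((dneg_st kA1 _ _ _ _ _).seq
      (o_st kA1 hL.symA hL.oA _ _ _ _)) bA runOA2
  have hUB0 := run_spec
    ((dneg_st kB1 _ _ _ _ _).seq
      ((dneg_st kB1 _ _ _ _ _).seq
      ((dneg_st kB1 _ _ _ _ _).seq
      ((dneg_st kB1 _ _ _ _ _).seq
      ((dneg_st kB1 _ _ _ _ _).seq
      ((dneg_st kB1 _ _ _ _ _).seq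
      (u_st kB1 hL.uB _ _ _ _))))))) bB runUB0
  have hUB1 := run_spec
    ((dneg_st kB1 _ _ _ _ _).seq
      ((dneg_st kB1 _ _ _ _ _).seq
      ((dneg_st kB1 _ _ _ _ _).seq
      ((dneg_st kB1 _ _ _ _ _).seq
      ((dneg_st kB1 _ _ _ _ _).seq
      ((dneg_st kB1 _ _ _ _ _).seq
      (u_st kB1 hL.uB _ _ _ _))))))) bB runUB1
  have hUB2 := run_spec
    ((dneg_st kB1 _ _ _ _ _).seq
      ((dneg_st kB1 _ _ _ _ _).seq
      ((dneg_st kB1 _ _ _ _ _).seq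
      ((dneg_st kB1 _ _ _ _ _).seq
      ((dneg_st kB1 _ _ _ _ _).seq
      ((dneg_st kB1 _ _ _ _ _).seq
      (u_st kB1 hL.uB _ _ _ _))))))) bB runUB2
  have hUB3 := run_spec
    ((dneg_st kB1 _ _ _ _ _).seq
      ((dneg_st kB1 _ _ _ _ _).seq
      ((dneg_st kB1 _ _ _ _ _).seq
      ((dneg_st kB1 _ _ _ _ _).seq
      ((dneg_st kB1 _ _ _ _ _).seq
      ((dneg_st kB1 _ _ _ _ _).seq
      (u_st kB1 hL.uB _ _ _ _))))))) bB runUB3
  have hUB4 := run_spec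
    ((dneg_st kB1 _ _ _ _ _).seq
      ((dneg_st kB1 _ _ _ _ _).seq
      ((dneg_st kB1 _ _ _ _ _).seq
      ((dneg_st kB1 _ _ _ _ _).seq
      ((dneg_st kB1 _ _ _ _ _).seq
      ((dneg_st kB1 _ _ _ _ _).seq
      (u_st kB1 hL.uB _ _ _ _))))))) bB runUB4
  have hUC0 := run_spec
    ((dneg_st kC1 _ _ _ _ _).seq
      ((dneg_st kC1 _ _ _ _ _).seq
      (u_st kC1 hL.uC _ _ _ _))) bC runUC0
  have hUC1 := run_spec
    ((dneg_st kC1 _ _ _ _ _).seq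
      ((dneg_st kC1 _ _ _ _ _).seq
      (u_st kC1 hL.uC _ _ _ _))) bC runUC1
  have hUC2 := run_spec
    ((dneg_st kC1 _ _ _ _ _).seq
      ((dneg_st kC1 _ _ _ _ _).seq
      (u_st kC1 hL.uC _ _ _ _))) bC runUC2
  have hUC3 := run_spec
    ((dneg_st kC1 _ _ _ _ _).seq
      ((dneg_st kC1 _ _ _ _ _).seq
      (u_st kC1 hL.uC _ _ _ _))) bC runUC3
  have hUC4 := run_spec
    ((dneg_st kC1 _ _ _ _ _).seq
      ((dneg_st kC1 _ _ _ _ _).seq
      (u_st kC1 hL.uC _ _ _ _))) bC runUC4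
  have hUC5 := run_spec
    ((dneg_st kC1 _ _ _ _ _).seq
      ((dneg_st kC1 _ _ _ _ _).seq
      (u_st kC1 hL.uC _ _ _ _))) bC runUC5
  have hFB0 := run_spec
    ((dneg_st kB1 _ _ _ _ _).seq
      ((dneg_st kB1 _ _ _ _ _).seq
      ((dneg_st kB1 _ _ _ _ _).seq
      ((dneg_st kB1 _ _ _ _ _).seq
      ((dneg_st kB1 _ _ _ _ _).seq
      ((dneg_st kB1 _ _ _ _ _).seq
      (f221_st hL hF _))))))) bB runFB0
  have hFB1 := run_spec
    ((dneg_st kB1 _ _ _ _ _).seq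
      ((dneg_st kB1 _ _ _ _ _).seq
      ((dneg_st kB1 _ _ _ _ _).seq
      ((dneg_st kB1 _ _ _ _ _).seq
      ((dneg_st kB1 _ _ _ _ _).seq
      ((dneg_st kB1 _ _ _ _ _).seq
      (f221_st hL hF _))))))) bB runFB1
  have hFB2 := run_spec
    ((dneg_st kB1 _ _ _ _ _).seq
      ((dneg_st kB1 _ _ _ _ _).seq
      ((dneg_st kB1 _ _ _ _ _).seq
      ((dneg_st kB1 _ _ _ _ _).seq
      ((dneg_st kB1 _ _ _ _ _).seq
      ((dneg_st kB1 _ _ _ _ _).seq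
      (f221_st hL hF _))))))) bB runFB2
  have hFC0 := run_spec
    ((dneg_st kC1 _ _ _ _ _).seq
      ((dneg_st kC1 _ _ _ _ _).seq
      (f1111_st hL hF _))) bC runFC0
  have hFC1 := run_spec
    ((dneg_st kC1 _ _ _ _ _).seq
      ((dneg_st kC1 _ _ _ _ _).seq
      (f1111_st hL hF _))) bC runFC1
  have hZA0 := run_spec
    ((dpos_st kA1 _ _ _ _ _).seq
      ((dpos_st kA1 _ _ _ _ _).seq
      ((dpos_st kA1 _ _ _ _ _).seq
      ((dpos_st kA1 _ _ _ _ _).seq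
      ((dpos_st kA1 _ _ _ _ _).seq
      ((f33_st hL hF _).seq
      ((dneg_st (kZ hL.symA) _ _ _ _ _).seq
      ((van0_st kA1 (hL.vA 0 1 (by decide)) _ _ _).seq
      (gC_st pA _ _))))))))) bA runZA0
  have hZB0 := run_spec
    ((dpos_st kB1 _ _ _ _ _).seq
      ((dpos_st kB1 _ _ _ _ _).seq
      ((dpos_st kB1 _ _ _ _ _).seq
      ((dpos_st kB1 _ _ _ _ _).seq
      ((dpos_st kB1 _ _ _ _ _).seq
      ((dpos_st kB1 _ _ _ _ _).seq
      ((dpos_st kB1 _ _ _ _ _).seq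
      ((dpos_st kB1 _ _ _ _ _).seq
      ((dpos_st kX1 _ _ _ _ _).seq
      ((dpos_st kX1 _ _ _ _ _).seq
      ((dpos_st kX1 _ _ _ _ _).seq
      ((dpos_st kX1 _ _ _ _ _).seq
      ((dpos_st kX1 _ _ _ _ _).seq
      ((dpos_st kX1 _ _ _ _ _).seq
      ((dpos_st kX1 _ _ _ _ _).seq
      ((dpos_st kB1 _ _ _ _ _).seq
      ((dpos_st kB1 _ _ _ _ _).seq
      ((dpos_st kB1 _ _ _ _ _).seq
      ((dpos_st kB1 _ _ _ _ _).seq
      ((dpos_st kB1 _ _ _ _ _).seq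
      ((dpos_st kB1 _ _ _ _ _).seq
      ((dpos_st kB1 _ _ _ _ _).seq
      ((dpos_st kB1 _ _ _ _ _).seq
      ((dpos_st kB1 _ _ _ _ _).seq
      ((dpos_st kB1 _ _ _ _ _).seq
      ((o_st kB1 hL.symB hL.oB _ _ _ _).seq
      ((dneg_st (kZ hL.symB) _ _ _ _ _).seq
      ((van0_st kB1 (hL.vB 0 1 (by decide)) _ _ _).seq
      (gC_st pB _ _))))))))))))))))))))))))))))) bB runZB0
  have hZB1 := run_spec
    ((dpos_st kB1 _ _ _ _ _).seq
      ((dpos_st kB1 _ _ _ _ _).seq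
      ((dpos_st kB1 _ _ _ _ _).seq
      ((dpos_st kB1 _ _ _ _ _).seq
      ((dpos_st kB1 _ _ _ _ _).seq
      ((dpos_st kB1 _ _ _ _ _).seq
      ((dpos_st kB1 _ _ _ _ _).seq
      ((dpos_st kB1 _ _ _ _ _).seq
      ((dpos_st kX1 _ _ _ _ _).seq
      ((dpos_st kX1 _ _ _ _ _).seq
      ((dpos_st kX1 _ _ _ _ _).seq
      ((dpos_st kX1 _ _ _ _ _).seq
      ((dpos_st kX1 _ _ _ _ _).seq
      ((dpos_st kX1 _ _ _ _ _).seq
      ((dpos_st kX1 _ _ _ _ _).seq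
      ((dpos_st kB1 _ _ _ _ _).seq
      ((dpos_st kB1 _ _ _ _ _).seq
      ((dpos_st kB1 _ _ _ _ _).seq
      ((dpos_st kB1 _ _ _ _ _).seq
      ((dpos_st kB1 _ _ _ _ _).seq
      ((dpos_st kB1 _ _ _ _ _).seq
      ((dpos_st kB1 _ _ _ _ _).seq
      ((dpos_st kB1 _ _ _ _ _).seq
      ((dpos_st kB1 _ _ _ _ _).seq
      ((dpos_st kB1 _ _ _ _ _).seq
      ((o_st kB1 hL.symB hL.oB _ _ _ _).seq
      ((dneg_st (kZ hL.symB) _ _ _ _ _).seq
      ((van0_st kB1 (hL.vB 0 1 (by decide)) _ _ _).seq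
      ((van3_st kB1 (hL.vB3 0 1 (by decide)) _ _ _).seq
      (gC_st pB _ _)))))))))))))))))))))))))))))) bB runZB1
  have hZB2 := run_spec
    ((dpos_st kB1 _ _ _ _ _).seq
      ((dpos_st kB1 _ _ _ _ _).seq
      ((dpos_st kB1 _ _ _ _ _).seq
      ((dpos_st kB1 _ _ _ _ _).seq
      ((dpos_st kB1 _ _ _ _ _).seq
      ((dpos_st kB1 _ _ _ _ _).seq
      ((dpos_st kB1 _ _ _ _ _).seq
      ((dpos_st kB1 _ _ _ _ _).seq
      ((dpos_st kX1 _ _ _ _ _).seq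
      ((dpos_st kX1 _ _ _ _ _).seq
      ((dpos_st kX1 _ _ _ _ _).seq
      ((dpos_st kX1 _ _ _ _ _).seq
      ((dpos_st kX1 _ _ _ _ _).seq
      ((dpos_st kX1 _ _ _ _ _).seq
      ((dpos_st kX1 _ _ _ _ _).seq
      ((dpos_st kB1 _ _ _ _ _).seq
      ((dpos_st kB1 _ _ _ _ _).seq
      ((dpos_st kB1 _ _ _ _ _).seq
      ((dpos_st kB1 _ _ _ _ _).seq
      ((dpos_st kB1 _ _ _ _ _).seq
      ((dpos_st kB1 _ _ _ _ _).seq
      ((dpos_st kB1 _ _ _ _ _).seq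
      ((dpos_st kB1 _ _ _ _ _).seq
      ((dpos_st kB1 _ _ _ _ _).seq
      ((dpos_st kB1 _ _ _ _ _).seq
      ((o_st kB1 hL.symB hL.oB _ _ _ _).seq
      ((dneg_st (kZ hL.symB) _ _ _ _ _).seq
      ((van0_st kB1 (hL.vB 0 1 (by decide)) _ _ _).seq
      (gC_st pB _ _))))))))))))))))))))))))))))) bB runZB2
  have hZB3 := run_spec
    ((dpos_st kB1 _ _ _ _ _).seq
      ((dpos_st kB1 _ _ _ _ _).seq
      ((dpos_st kB1 _ _ _ _ _).seq
      ((dpos_st kB1 _ _ _ _ _).seq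
      ((dpos_st kB1 _ _ _ _ _).seq
      ((dpos_st kB1 _ _ _ _ _).seq
      ((dpos_st kB1 _ _ _ _ _).seq
      ((dpos_st kB1 _ _ _ _ _).seq
      ((dpos_st kX1 _ _ _ _ _).seq
      ((dpos_st kX1 _ _ _ _ _).seq
      ((dpos_st kX1 _ _ _ _ _).seq
      ((dpos_st kX1 _ _ _ _ _).seq
      ((dpos_st kX1 _ _ _ _ _).seq
      ((dpos_st kX1 _ _ _ _ _).seq
      ((dpos_st kX1 _ _ _ _ _).seq
      ((dpos_st kB1 _ _ _ _ _).seq
      ((dpos_st kB1 _ _ _ _ _).seq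
      ((dpos_st kB1 _ _ _ _ _).seq
      ((dpos_st kB1 _ _ _ _ _).seq
      ((dpos_st kB1 _ _ _ _ _).seq
      ((dpos_st kB1 _ _ _ _ _).seq
      ((dpos_st kB1 _ _ _ _ _).seq
      ((dpos_st kB1 _ _ _ _ _).seq
      ((dpos_st kB1 _ _ _ _ _).seq
      ((dpos_st kB1 _ _ _ _ _).seq
      ((o_st kB1 hL.symB hL.oB _ _ _ _).seq
      ((dneg_st (kZ hL.symB) _ _ _ _ _).seq
      ((van0_st kB1 (hL.vB 0 1 (by decide)) _ _ _).seq
      (gC_st pB _ _))))))))))))))))))))))))))))) bB runZB3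
  have hZB4 := run_spec
    ((dpos_st kB1 _ _ _ _ _).seq
      ((dpos_st kB1 _ _ _ _ _).seq
      ((dpos_st kB1 _ _ _ _ _).seq
      ((dpos_st kB1 _ _ _ _ _).seq
      ((dpos_st kB1 _ _ _ _ _).seq
      ((dpos_st kB1 _ _ _ _ _).seq
      ((dpos_st kB1 _ _ _ _ _).seq
      ((dpos_st kB1 _ _ _ _ _).seq
      ((dpos_st kX1 _ _ _ _ _).seq
      ((dpos_st kX1 _ _ _ _ _).seq
      ((dpos_st kX1 _ _ _ _ _).seq
      ((dpos_st kX1 _ _ _ _ _).seq
      ((dpos_st kX1 _ _ _ _ _).seq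
      ((dpos_st kX1 _ _ _ _ _).seq
      ((dpos_st kX1 _ _ _ _ _).seq
      ((dpos_st kB1 _ _ _ _ _).seq
      ((dpos_st kB1 _ _ _ _ _).seq
      ((dpos_st kB1 _ _ _ _ _).seq
      ((dpos_st kB1 _ _ _ _ _).seq
      ((dpos_st kB1 _ _ _ _ _).seq
      ((dpos_st kB1 _ _ _ _ _).seq
      ((dpos_st kB1 _ _ _ _ _).seq
      ((dpos_st kB1 _ _ _ _ _).seq
      ((dpos_st kB1 _ _ _ _ _).seq
      ((dpos_st kB1 _ _ _ _ _).seq
      ((o_st kB1 hL.symB hL.oB _ _ _ _).seq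
      ((dneg_st (kZ hL.symB) _ _ _ _ _).seq
      ((van0_st kB1 (hL.vB 0 1 (by decide)) _ _ _).seq
      (gC_st pB _ _))))))))))))))))))))))))))))) bB runZB4
  have hZB5 := run_spec
    ((dpos_st kB1 _ _ _ _ _).seq
      ((dpos_st kB1 _ _ _ _ _).seq
      ((dpos_st kB1 _ _ _ _ _).seq
      ((dpos_st kB1 _ _ _ _ _).seq
      ((dpos_st kB1 _ _ _ _ _).seq
      ((dpos_st kB1 _ _ _ _ _).seq
      ((dpos_st kB1 _ _ _ _ _).seq
      ((dpos_st kB1 _ _ _ _ _).seq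
      ((dpos_st kX1 _ _ _ _ _).seq
      ((dpos_st kX1 _ _ _ _ _).seq
      ((dpos_st kX1 _ _ _ _ _).seq
      ((dpos_st kX1 _ _ _ _ _).seq
      ((dpos_st kX1 _ _ _ _ _).seq
      ((dpos_st kX1 _ _ _ _ _).seq
      ((dpos_st kX1 _ _ _ _ _).seq
      ((dpos_st kB1 _ _ _ _ _).seq
      ((dpos_st kB1 _ _ _ _ _).seq
      ((dpos_st kB1 _ _ _ _ _).seq
      ((dpos_st kB1 _ _ _ _ _).seq
      ((dpos_st kB1 _ _ _ _ _).seq
      ((dpos_st kB1 _ _ _ _ _).seq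
      ((dpos_st kB1 _ _ _ _ _).seq
      ((dpos_st kB1 _ _ _ _ _).seq
      ((dpos_st kB1 _ _ _ _ _).seq
      ((dpos_st kB1 _ _ _ _ _).seq
      ((o_st kB1 hL.symB hL.oB _ _ _ _).seq
      ((dpos_st (kN hL.symB) _ _ _ _ _).seq
      ((dneg_st (kZ hL.symB) _ _ _ _ _).seq
      ((van0_st kB1 (hL.vB 0 1 (by decide)) _ _ _).seq
      (gC_st pB _ _)))))))))))))))))))))))))))))) bB runZB5
  have hZC0 := run_spec
    ((dpos_st kC1 _ _ _ _ _).seq
      ((dpos_st kC1 _ _ _ _ _).seq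
      ((dpos_st kC1 _ _ _ _ _).seq
      ((dpos_st kC1 _ _ _ _ _).seq
      ((dpos_st kC1 _ _ _ _ _).seq
      ((dpos_st kC1 _ _ _ _ _).seq
      ((dpos_st kC1 _ _ _ _ _).seq
      ((dpos_st kC1 _ _ _ _ _).seq
      ((dpos_st kC1 _ _ _ _ _).seq
      ((dpos_st kC1 _ _ _ _ _).seq
      ((dpos_st kC1 _ _ _ _ _).seq
      ((dpos_st kC1 _ _ _ _ _).seq
      ((dpos_st kC1 _ _ _ _ _).seq
      ((dpos_st kC1 _ _ _ _ _).seq
      ((dpos_st kC1 _ _ _ _ _).seq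
      ((dpos_st kC1 _ _ _ _ _).seq
      ((dpos_st kC1 _ _ _ _ _).seq
      ((dpos_st kC1 _ _ _ _ _).seq
      ((dpos_st (kZ hL.symC) _ _ _ _ _).seq
      ((dpos_st (kZ hL.symC) _ _ _ _ _).seq
      ((dpos_st (kZ hL.symC) _ _ _ _ _).seq
      ((dpos_st (kZ hL.symC) _ _ _ _ _).seq
      ((dpos_st (kZ hL.symC) _ _ _ _ _).seq
      ((dpos_st (kZ hL.symC) _ _ _ _ _).seq
      ((van0_st kC1 (hL.vC 0 1 (by decide)) _ _ _).seq
      (gC_st pC _ _)))))))))))))))))))))))))) bC runZC0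
  have hZC1 := run_spec
    ((dpos_st kC1 _ _ _ _ _).seq
      ((dpos_st kC1 _ _ _ _ _).seq
      ((dpos_st kC1 _ _ _ _ _).seq
      ((dpos_st kC1 _ _ _ _ _).seq
      ((dpos_st kC1 _ _ _ _ _).seq
      ((dpos_st kC1 _ _ _ _ _).seq
      ((dpos_st kC1 _ _ _ _ _).seq
      ((dpos_st kC1 _ _ _ _ _).seq
      ((dpos_st kC1 _ _ _ _ _).seq
      ((dpos_st kC1 _ _ _ _ _).seq
      ((dpos_st kC1 _ _ _ _ _).seq
      ((dpos_st kC1 _ _ _ _ _).seq
      ((dpos_st kC1 _ _ _ _ _).seq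
      ((dpos_st kC1 _ _ _ _ _).seq
      ((dpos_st kC1 _ _ _ _ _).seq
      ((dpos_st kC1 _ _ _ _ _).seq
      ((dpos_st kC1 _ _ _ _ _).seq
      ((dpos_st kC1 _ _ _ _ _).seq
      (gC_st pC _ _))))))))))))))))))) bC runZC1
  have c1 := XX_tri (fun r s => KK_symm hL.symA 0 go0 r s) rw00 0 17 17 rfl
  have c2 := XX_tri (fun r s => KK_symm hL.symA 0 go1 r s) rw10 0 6 6 rfl
  have c3 := XX_tri (fun r s => KK_symm hL.symA 0 go0 r s) rw00 17 36 53 rfl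
  have c4 := XX_tri (fun r s => KK_symm hL.symA 0 go1 r s) rw10 6 18 24 rfl
  have c5 := XX_rect (KK (fun a b => B a (-a - b)) 0 Gp0 Gm0) rw00 rw01 0 9 9 rfl
  have c6 := XX_rect (KK (fun a b => B a (-a - b)) 0 Gp1 Gm1) rw10 rw11 0 2 2 rfl
  have c7 := XX_rect (KK (fun a b => B a (-a - b)) 0 Gp0 Gm0) rw00 rw01 9 7 16 rfl
  have c8 := XX_rect (KK (fun a b => B a (-a - b)) 0 Gp1 Gm1) rw10 rw11 2 4 6 rfl
  have c9 := XX_rect (KK (fun a b => B a (-a - b)) 0 Gp0 Gm0) rw00 rw01 16 7 23 rfl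
  have c10 := XX_rect (KK (fun a b => B a (-a - b)) 0 Gp1 Gm1) rw10 rw11 6 4 10 rfl
  have c11 := XX_rect (KK (fun a b => B a (-a - b)) 0 Gp0 Gm0) rw00 rw01 23 11 34 rfl
  have c12 := XX_rect (KK (fun a b => B a (-a - b)) 0 Gp1 Gm1) rw10 rw11 10 0 10 rfl
  have c13 := XX_rect (KK (fun a b => B a (-a - b)) 0 Gp0 Gm0) rw00 rw01 34 9 43 rfl
  have c14 := XX_rect (KK (fun a b => B a (-a - b)) 0 Gp1 Gm1) rw10 rw11 10 1 11 rfl
  have c15 := XX_rect (KK (fun a b => B a (-a - b)) 0 Gp0 Gm0) rw00 rw01 43 6 49 rfl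
  have c16 := XX_rect (KK (fun a b => B a (-a - b)) 0 Gp1 Gm1) rw10 rw11 11 6 17 rfl
  have c17 := XX_rect (KK (fun a b => B a (-a - b)) 0 Gp0 Gm0) rw00 rw01 49 4 53 rfl
  have c18 := XX_rect (KK (fun a b => B a (-a - b)) 0 Gp1 Gm1) rw10 rw11 17 7 24 rfl
  have c19 := XX_tri (fun r s => KK_symm hL.symB 1 go0 r s) rw01 0 9 9 rfl
  have c20 := XX_tri (fun r s => KK_symm hL.symB 1 go1 r s) rw11 0 2 2 rfl
  have c21 := XX_tri (fun r s => KK_symm hL.symB 1 go0 r s) rw01 9 9 18 rfl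
  have c22 := XX_tri (fun r s => KK_symm hL.symB 1 go1 r s) rw11 2 3 5 rfl
  have c23 := XX_tri (fun r s => KK_symm hL.symB 1 go0 r s) rw01 18 10 28 rfl
  have c24 := XX_tri (fun r s => KK_symm hL.symB 1 go1 r s) rw11 5 3 8 rfl
  have c25 := XX_tri (fun r s => KK_symm hL.symB 1 go0 r s) rw01 28 6 34 rfl
  have c26 := XX_tri (fun r s => KK_symm hL.symB 1 go1 r s) rw11 8 8 16 rfl
  have c27 := XX_tri (fun r s => KK_symm hL.symB 1 go0 r s) rw01 34 10 44 rfl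
  have c28 := XX_tri (fun r s => KK_symm hL.symB 1 go1 r s) rw11 16 5 21 rfl
  have c29 := XX_tri (fun r s => KK_symm hL.symB 1 go0 r s) rw01 44 12 56 rfl
  have c30 := XX_tri (fun r s => KK_symm hL.symB 1 go1 r s) rw11 21 5 26 rfl
  have c31 := XX_tri (fun r s => KK_symm hL.symB 1 go0 r s) rw01 56 12 68 rfl
  have c32 := XX_tri (fun r s => KK_symm hL.symB 1 go1 r s) rw11 26 6 32 rfl
  have c33 := XX_tri (fun r s => KK_symm hL.symB 1 go0 r s) rw01 68 19 87 rfl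
  have c34 := XX_tri (fun r s => KK_symm hL.symB 1 go1 r s) rw11 32 4 36 rfl
  have c35 := XX_tri (fun r s => KK_symm hL.symB 1 go0 r s) rw01 87 19 106 rfl
  have c36 := XX_tri (fun r s => KK_symm hL.symB 1 go1 r s) rw11 36 10 46 rfl
  have c37 := XX_tri (fun r s => KK_symm hL.symB 1 go0 r s) rw01 106 43 149 rfl
  have c38 := XX_tri (fun r s => KK_symm hL.symB 1 go1 r s) rw11 46 26 72 rfl
  have c39 := XX_tri (fun r s => KK_symm hL.symC (-1) go0 r s) rw01 0 9 9 rfl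
  have c40 := XX_tri (fun r s => KK_symm hL.symC (-1) go1 r s) rw11 0 2 2 rfl
  have c41 := XX_tri (fun r s => KK_symm hL.symC (-1) go0 r s) rw01 9 9 18 rfl
  have c42 := XX_tri (fun r s => KK_symm hL.symC (-1) go1 r s) rw11 2 3 5 rfl
  have c43 := XX_tri (fun r s => KK_symm hL.symC (-1) go0 r s) rw01 18 10 28 rfl
  have c44 := XX_tri (fun r s => KK_symm hL.symC (-1) go1 r s) rw11 5 3 8 rfl
  have c45 := XX_tri (fun r s => KK_symm hL.symC (-1) go0 r s) rw01 28 6 34 rfl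
  have c46 := XX_tri (fun r s => KK_symm hL.symC (-1) go1 r s) rw11 8 8 16 rfl
  have c47 := XX_tri (fun r s => KK_symm hL.symC (-1) go0 r s) rw01 34 10 44 rfl
  have c48 := XX_tri (fun r s => KK_symm hL.symC (-1) go1 r s) rw11 16 5 21 rfl
  have c49 := XX_tri (fun r s => KK_symm hL.symC (-1) go0 r s) rw01 44 12 56 rfl
  have c50 := XX_tri (fun r s => KK_symm hL.symC (-1) go1 r s) rw11 21 5 26 rfl
  have c51 := XX_tri (fun r s => KK_symm hL.symC (-1) go0 r s) rw01 56 12 68 rfl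
  have c52 := XX_tri (fun r s => KK_symm hL.symC (-1) go1 r s) rw11 26 6 32 rfl
  have c53 := XX_tri (fun r s => KK_symm hL.symC (-1) go0 r s) rw01 68 19 87 rfl
  have c54 := XX_tri (fun r s => KK_symm hL.symC (-1) go1 r s) rw11 32 4 36 rfl
  have c55 := XX_tri (fun r s => KK_symm hL.symC (-1) go0 r s) rw01 87 19 106 rfl
  have c56 := XX_tri (fun r s => KK_symm hL.symC (-1) go1 r s) rw11 36 10 46 rfl
  have c57 := XX_tri (fun r s => KK_symm hL.symC (-1) go0 r s) rw01 106 43 149 rfl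
  have c58 := XX_tri (fun r s => KK_symm hL.symC (-1) go1 r s) rw11 46 26 72 rfl
  have c59 := XX_end (KK A 0 Gp0 Gm0) rw00 (rw00.drop 53) 53 (by decide +kernel)
  have c60 := XX_end (KK A 0 Gp1 Gm1) rw10 (rw10.drop 24) 24 (by decide +kernel)
  have c61 := XX_end (KK (fun a b => B a (-a - b)) 0 Gp0 Gm0) rw00 rw01 53 (by decide +kernel)
  have c62 := XX_end (KK (fun a b => B a (-a - b)) 0 Gp1 Gm1) rw10 rw11 24 (by decide +kernel)
  have c63 := XX_end (KK B 1 Gp0 Gm0) rw01 (rw01.drop 149) 149 (by decide +kernel)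
  have c64 := XX_end (KK B 1 Gp1 Gm1) rw11 (rw11.drop 72) 72 (by decide +kernel)
  have c65 := XX_end (KK C (-1) Gp0 Gm0) rw01 (rw01.drop 149) 149 (by decide +kernel)
  have c66 := XX_end (KK C (-1) Gp1 Gm1) rw11 (rw11.drop 72) 72 (by decide +kernel)
  have q0 := psd_total hL hP go0 (rw00.drop 0) (rw01.drop 0)
  have e0 : XX (KK (fun a b => B a (-a - b)) 0 Gp0 Gm0) (rw00.drop 0) (rw01.drop 0) =
      XX (KK (fun a b => B a (-a - b)) 0 Gp0 Gm0) (rw00.drop 0) rw01 := rfl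
  have q1 := psd_total hL hP go1 (rw10.drop 0) (rw11.drop 0)
  have e1 : XX (KK (fun a b => B a (-a - b)) 0 Gp1 Gm1) (rw10.drop 0) (rw11.drop 0) =
      XX (KK (fun a b => B a (-a - b)) 0 Gp1 Gm1) (rw10.drop 0) rw11 := rfl
  have y1 := z1_sum hL 2623897290485716361303824531456 268435456 536870912 8796093022208 rfl z1
  have yz2_0 := z2_sum hL 1311948645242858180651912265728 268435456 4398046511104 z2_0
  have yz2_1 := z2_sum hL 1311948645242858180651912265728 268435456 4398046511104 z2_1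
  have yz2_2 := z2_sum hL 655974322621429090325956132864 268435456 2199023255552 z2_2
  have yz2_3 := z2_sum hL 655974322621429090325956132864 268435456 2199023255552 z2_3
  have yz2_4 := z2_sum hL 2623897290485716361303824531456 268435456 8796093022208 z2_4
  have yz2_5 := z2_sum hL 2623897290485716361303824531456 268435456 8796093022208 z2_5
  have zA := hP.zA
  have zB := hP.zB
  have zC := hP.zC
  simp only [Nat.cast_ofNat, Nat.cast_zero] at hA0 hA1 hX0 hX1 hX2 hX3 hX4 hX5 hX6 hB0 hB1 hB2 hB3 hB4 hB5 hB6 hB7 hB8 hB9 hC0 hC1 hC2 hC3 hC4 hC5 hC6 hC7 hC8 hC9 hOA0 hOA1 hOA2 hUB0 hUB1 hUB2 hUB3 hUB4 hUC0 hUC1 hUC2 hUC3 hUC4 hUC5 hFB0 hFB1 hFB2 hFC0 hFC1 hZA0 hZB0 hZB1 hZB2 hZB3 hZB4 hZB5 hZC0 hZC1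
  linarith

end Vale.Agent.P355.K3
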