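import Vale.Agent.P355.K3Spec
import Vale.Agent.P355.CkS1

namespace Vale.Agent.P355.K3

open Finset

variable {T : V → V → ℝ} {v : ℕ → ℝ}

theorem cdv_inj {a b a' b' : V} (ha : InR a) (hb : InR b) (ha' : InR a') (hb' : InR b')
    (h : cdv a b = cdv a' b') :
    ∃ f : Fin 6 → Fin 6, Function.Bijective f ∧ a' = a ∘ f ∧ b' = b ∘ f := by
  have hc : ∀ k, Fintype.card {r // 41 * (a' r + 20).toNat + (b' r + 20).toNat = k} =
      Fintype.card {r // 41 * (a r + 20).toNat + (b r + 20).toNat = k} := fun k => by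
    rw [Fintype.card_subtype, Fintype.card_subtype,
      ← Ck.digit (fun r => 41 * (a' r + 20).toNat + (b' r + 20).toNat),
      ← Ck.digit (fun r => 41 * (a r + 20).toNat + (b r + 20).toNat)]
    unfold cdv at h
    rw [h]
  let f := Equiv.ofFiberEquiv (f := fun r => 41 * (a' r + 20).toNat + (b' r + 20).toNat)
    (g := fun r => 41 * (a r + 20).toNat + (b r + 20).toNat) fun k => Fintype.equivOfCardEq (hc k)
  have hf : ∀ r, 41 * (a (f r) + 20).toNat + (b (f r) + 20).toNat =
      41 * (a' r + 20).toNat + (b' r + 20).toNat := fun r =>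
    Equiv.ofFiberEquiv_map (f := fun r => 41 * (a' r + 20).toNat + (b' r + 20).toNat)
      (g := fun r => 41 * (a r + 20).toNat + (b r + 20).toNat)
      (fun k => Fintype.equivOfCardEq (hc k)) r
  refine ⟨f, f.bijective, ?_, ?_⟩ <;> funext r <;> have := hf r <;> have := ha (f r) <;>
    have := hb (f r) <;> have := ha' r <;> have := hb' r <;> simp only [Function.comp] <;> omega

theorem vk_cdv (hT : Prm T) {a b : V} (ha : InR a) (hb : InR b) : vk T (cdv a b) = T a b := by
  have h : ∃ p : V × V, InR p.1 ∧ InR p.2 ∧ cdv p.1 p.2 = cdv a b := ⟨(a, b), ha, hb, rfl⟩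
  rw [vk, dif_pos h]
  obtain ⟨f, hf, h1, h2⟩ := cdv_inj h.choose_spec.1 h.choose_spec.2.1 ha hb h.choose_spec.2.2
  exact (hT f hf _ _).symm.trans (by rw [← h1, ← h2])

theorem vk_bd {M : ℝ} (h : ∀ a b, |T a b| ≤ M) (n : ℕ) : |vk T n| ≤ M := by
  rw [vk]; split_ifs
  · exact h _ _
  · exact le_trans (by simp) (h 0 0)

theorem St.nil (v : ℕ → ℝ) : St v (fun t c => c t) 0 := fun t _ h => ⟨t, h, by simp⟩

theorem St.of_eq {f : Gen} {δ δ' : ℝ} (h : St v f δ) (e : δ = δ') : St v f δ' := e ▸ h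

theorem St.seq' {f g : Gen} {δ δ' : ℝ} (h : St v f δ) (h' : St v g δ') :
    St v (fun t c => f t fun t' => g t' c) (δ + δ') := fun t c hc => by
  obtain ⟨t1, h1, e1⟩ := h t _ hc
  obtain ⟨t2, h2, e2⟩ := h' t1 _ h1
  exact ⟨t2, h2, by rw [e2, e1, add_assoc]⟩

theorem St.seq {f g : Gen} {δ δ' : ℝ} (h : St v f δ) (h' : St v g δ') :
    St v (sq f g) (δ + δ') := h.seq' h'

theorem lfS_spec {k s p n : ℕ} {c : Tr → Bool} (h : lfS k (Nat.sub (Nat.add s p) n) c = true) :
    ∃ m : ℕ, c (Tr.lf k m) = true ∧ (m : ℝ) = s + p - n := by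
  generalize hq : Nat.sub (Nat.add s p) n = q at h
  cases q with
  | zero => exact absurd h (by simp [lfS])
  | succ m =>
    refine ⟨m + 1, h, ?_⟩
    simp only [Nat.add_eq, Nat.sub_eq] at hq
    have : m + 1 + n = s + p := by omega
    have h2 : ((m + 1 + n : ℕ) : ℝ) = ((s + p : ℕ) : ℝ) := by rw [this]
    push_cast at h2 ⊢
    linarith

theorem ins_st (v : ℕ → ℝ) (k p n : ℕ) : St v (ins k p n) (((p : ℝ) - n) * v k) := by
  intro t
  induction t with
  | lf k' s =>
    intro c h
    change Bool.rec (motive := fun _ => Bool) (spl k p n k' s c)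
      (lfS k' (Nat.sub (Nat.add s p) n) c) (Nat.beq k k') = true at h
    cases h1 : Nat.beq k k' with
    | true =>
      rw [h1] at h
      obtain ⟨m, hm, e⟩ := lfS_spec h
      refine ⟨_, hm, ?_⟩
      simp only [ev, e, Nat.eq_of_beq_eq_true h1]; ring
    | false =>
      rw [h1] at h
      obtain ⟨m, hm, e⟩ := lfS_spec h
      cases h2 : Nat.ble k k' with
      | true => rw [h2] at hm; exact ⟨_, hm, by simp only [ev, e]; ring⟩
      | false => rw [h2] at hm; exact ⟨_, hm, by simp only [ev, e]; ring⟩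
  | nd l k' r ihl ihr =>
    intro c h
    change Bool.rec (motive := fun _ => Bool) (ins k p n r fun r' => c (Tr.nd l k' r'))
        (ins k p n l fun l' => c (Tr.nd l' k' r)) (Nat.ble k k') = true at h
    cases h1 : Nat.ble k k' with
    | false =>
      rw [h1] at h
      obtain ⟨t', a, b⟩ := ihr _ h
      exact ⟨_, a, by simp only [ev, b]; ring⟩
    | true =>
      rw [h1] at h
      obtain ⟨t', a, b⟩ := ihl _ h
      exact ⟨_, a, by simp only [ev, b]; ring⟩

theorem unp_st {W : ℕ} {f : ℕ → Gen} {δ : ℕ → ℝ} (h : ∀ N, St v (f N) (δ N)) (k N : ℕ) :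
    St v (unp W f k N) (((List.range k).map fun i => N / W ^ i % W).map δ).sum := by
  induction k generalizing N with
  | zero => exact (St.nil _).of_eq (by simp)
  | succ k ih =>
    refine ((h (N % W)).seq' (ih (N / W))).of_eq ?_
    rw [List.range_succ_eq_map]
    simp only [List.map_cons, List.map_map, List.sum_cons, pow_zero, Nat.div_one]
    congr 2
    refine List.map_congr_left fun i _ => ?_
    simp only [Function.comp, Nat.div_div_eq_div_mul, Nat.succ_eq_add_one, pow_succ']

theorem eL_st {W : ℕ} {f : ℕ → Gen} {δ : ℕ → ℝ} (h : ∀ N, St v (f N) (δ N)) (l : List ℕ) :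
    St v (eL W f l) ((items W l).map δ).sum := by
  induction l with
  | nil => exact (St.nil _).of_eq (by simp [items])
  | cons N l ih =>
    refine ((unp_st h 32 N).seq' ih).of_eq ?_
    simp only [items, List.flatMap_cons, List.map_append, List.sum_append]

theorem ev_le {M : ℝ} (hv : ∀ k, |v k| ≤ M) (t : Tr) : ev v t ≤ M * nrm t := by
  induction t with
  | lf k s =>
    change ((s : ℝ) - OFF) * v k ≤ M * ((s - OFF + (OFF - s) : ℕ) : ℝ)
    have h1 : |(s : ℝ) - OFF| = ((s - OFF + (OFF - s) : ℕ) : ℝ) := by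
      rcases le_total s OFF with h | h
      · rw [Nat.sub_eq_zero_of_le h, zero_add, Nat.cast_sub h, abs_sub_comm,
          abs_of_nonneg (sub_nonneg.mpr (by exact_mod_cast h))]
      · rw [Nat.sub_eq_zero_of_le h, add_zero, Nat.cast_sub h,
          abs_of_nonneg (sub_nonneg.mpr (by exact_mod_cast h))]
    rw [← h1, mul_comm M]
    exact (le_abs_self _).trans (by
      rw [abs_mul]; exact mul_le_mul_of_nonneg_left (hv k) (abs_nonneg _))
  | nd l k r ihl ihr =>
    change ev v l + ev v r ≤ M * ((nrm l + nrm r : ℕ) : ℝ)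
    push_cast; linarith

theorem run_spec {f : Gen} {δ M : ℝ} {R : ℕ} (h : St v f δ) (hv : ∀ k, |v k| ≤ M)
    (hr : run f R = true) : δ ≤ M * R := by
  obtain ⟨t, h1, e⟩ := h _ _ hr
  have h2 : (nrm t : ℝ) ≤ R := by exact_mod_cast Nat.le_of_ble_eq_true h1
  have hM : 0 ≤ M := (abs_nonneg _).trans (hv 0)
  have h3 := ev_le hv t
  simp only [ev, sub_self, zero_mul, zero_add] at e
  rw [← e]
  exact h3.trans (mul_le_mul_of_nonneg_left h2 hM)

end Vale.Agent.P355.K3
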