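import Vale.Agent.P355.K3S1

namespace Vale.Agent.P355.K3

open Finset

variable {T : V → V → ℝ}

/-- six digits in base 2048 -/
def pk (f : Fin 6 → ℕ) : ℕ :=
  f 0 + 2048 * f 1 + 4194304 * f 2 + 8589934592 * f 3 + 17592186044416 * f 4 +
    36028797018963968 * f 5

theorem dg_eq (N s : ℕ) : dg N s = N / 2 ^ s % 2048 := by
  show N >>> s % 2048 = _
  rw [Nat.shiftRight_eq_div_pow]

theorem dg_pk {f : Fin 6 → ℕ} (h : ∀ r, f r < 2048) (r : Fin 6) : dg (pk f) (11 * r) = f r := by
  have h0 := h 0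
  have h1 := h 1
  have h2 := h 2
  have h3 := h 3
  have h4 := h 4
  have h5 := h 5
  rw [dg_eq, pk]
  fin_cases r <;> simp <;> omega

theorem pk_lt {f : Fin 6 → ℕ} (h : ∀ r, f r < 2048) : pk f < 73786976294838206464 := by
  have h0 := h 0
  have h1 := h 1
  have h2 := h 2
  have h3 := h 3
  have h4 := h 4
  have h5 := h 5
  rw [pk]
  omega

theorem cod_pk {f : Fin 6 → ℕ} (h : ∀ r, f r < 2048) : cod (pk f) = ∑ r, 7 ^ f r := by
  have h0 : pk f % 2048 = f 0 := by
    have := h 0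
    rw [pk]; omega
  have h1 : dg (pk f) 11 = f 1 := dg_pk h 1
  have h2 : dg (pk f) 22 = f 2 := dg_pk h 2
  have h3 : dg (pk f) 33 = f 3 := dg_pk h 3
  have h4 : dg (pk f) 44 = f 4 := dg_pk h 4
  have h5 : dg (pk f) 55 = f 5 := dg_pk h 5
  show 7 ^ (pk f % 2048) + 7 ^ dg (pk f) 11 + (7 ^ dg (pk f) 22 + 7 ^ dg (pk f) 33) +
    (7 ^ dg (pk f) 44 + 7 ^ dg (pk f) 55) = _
  rw [h0, h1, h2, h3, h4, h5, Fin.sum_univ_six]
  ring

theorem spr_eq (N : ℕ) : spr N = pk fun r => N / 17 ^ (r : ℕ) % 17 := by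
  show N % 17 + N / 17 % 17 * 2048 + (N / 289 % 17 * 4194304 + N / 4913 % 17 * 8589934592) +
    (N / 83521 % 17 * 17592186044416 + N / 1419857 % 17 * 36028797018963968) = _
  simp [pk]
  ring

theorem spr_dg (N : ℕ) (r : Fin 6) : (dg (spr N) (11 * r) : ℤ) = dv N r + 8 := by
  rw [spr_eq, dg_pk fun r => (Nat.mod_lt _ (by norm_num)).trans (by norm_num), dv, sub_add_cancel]

theorem dv_bd (N : ℕ) (r : Fin 6) : -8 ≤ dv N r ∧ dv N r ≤ 8 := by
  have := Nat.mod_lt (N / 17 ^ (r : ℕ)) (by norm_num : 0 < 17)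
  unfold dv
  omega

theorem lin_eq (a : V) : lin a = a 0 + 2048 * a 1 + 4194304 * a 2 + 8589934592 * a 3 +
    17592186044416 * a 4 + 36028797018963968 * a 5 := by
  simp [lin, Fin.sum_univ_six]
  ring

theorem p6_eq (a : V) : p6 a = lin a + 720927955982786580 := by
  simp [p6, lin, Fin.sum_univ_six]
  ring

theorem spr_lin (N : ℕ) : (spr N : ℤ) = lin (dv N) + 288371182393114632 := by
  rw [spr_eq, lin_eq]
  simp [pk, dv]
  ring

/-- the shifted digits of a vector -/
def nv (a : V) (r : Fin 6) : ℕ := (a r + 20).toNat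

theorem nv_le {a : V} (h : InR a) (r : Fin 6) : nv a r ≤ 40 := by
  have := h r
  unfold nv; omega

theorem nv_cast {a : V} (h : InR a) (r : Fin 6) : (nv a r : ℤ) = a r + 20 := by
  have := h r
  unfold nv; omega

theorem pk_nv {a : V} (h : InR a) : (pk (nv a) : ℤ) = p6 a := by
  rw [p6_eq, lin_eq, pk]
  push_cast
  simp only [nv_cast h]
  ring

theorem pk_inj {a b : V} (ha : InR a) (hb : InR b) (h : pk (nv a) = pk (nv b)) : a = b := by
  funext r
  have h1 := dg_pk (fun r => (nv_le ha r).trans_lt (by norm_num)) r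
  rw [h, dg_pk fun r => (nv_le hb r).trans_lt (by norm_num)] at h1
  have h2 := nv_cast ha r
  have h3 := nv_cast hb r
  omega

theorem InR.neg {a : V} (h : InR a) : InR (-a) := fun r => by
  have := h r
  simp only [Pi.neg_apply]
  omega

theorem inR_zero : InR 0 := fun r => by simp

/-- the seven fields -/
def WF (x y : V) : Fin 7 → V := ![x, y, -x - y, -x, -y, x + y, 0]

theorem Rep.inR {N : ℕ} {x y : V} (h : Rep N x y) (i : Fin 7) : InR (WF x y i) := by
  have h1 : InR (-x - y) := by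
    have := h.2.2.1.neg
    rwa [neg_add, ← sub_eq_add_neg] at this
  fin_cases i
  exacts [h.1, h.2.1, h1, h.1.neg, h.2.1.neg, h.2.2.1, inR_zero]

theorem hor (a b c d f g k : ℤ) :
    a + 2 ^ 66 * b + 2 ^ 132 * c + 2 ^ 198 * d + 2 ^ 264 * f + 2 ^ 330 * g + 2 ^ 396 * k =
      a + 73786976294838206464 * (b + 73786976294838206464 * (c + 73786976294838206464 *
        (d + 73786976294838206464 * (f + 73786976294838206464 * (g + 73786976294838206464 *
          (k + 73786976294838206464 * 0)))))) := by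
  rw [show (73786976294838206464 : ℤ) = 2 ^ 66 by norm_num, show 132 = 66 * 2 by rfl,
    show 198 = 66 * 3 by rfl, show 264 = 66 * 4 by rfl, show 330 = 66 * 5 by rfl,
    show 396 = 66 * 6 by rfl]
  simp only [pow_mul]
  generalize (2 : ℤ) ^ 66 = B
  ring

theorem fld_zero {a : ℕ} (m : ℕ) (h : a < 73786976294838206464) :
    fld (a + 73786976294838206464 * m) 0 = a := by
  show (a + 73786976294838206464 * m) % 73786976294838206464 = a
  omega

theorem fld_succ {a : ℕ} (m s : ℕ) (h : a < 73786976294838206464) :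
    fld (a + 73786976294838206464 * m) (66 + s) = fld m s := by
  show (a + 73786976294838206464 * m) >>> (66 + s) % 73786976294838206464 =
    m >>> s % 73786976294838206464
  rw [Nat.shiftRight_add, Nat.shiftRight_eq_div_pow _ 66]
  congr 2
  omega

theorem Rep.fld {N : ℕ} {x y : V} (h : Rep N x y) (i : Fin 7) :
    fld N (66 * i) = pk (nv (WF x y i)) := by
  have hb : ∀ i, pk (nv (WF x y i)) < 73786976294838206464 := fun i =>
    pk_lt fun r => (nv_le (h.inR i) r).trans_lt (by norm_num)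
  have hN : N = pk (nv (WF x y 0)) + 73786976294838206464 * (pk (nv (WF x y 1)) +
      73786976294838206464 * (pk (nv (WF x y 2)) + 73786976294838206464 * (pk (nv (WF x y 3)) +
      73786976294838206464 * (pk (nv (WF x y 4)) + 73786976294838206464 * (pk (nv (WF x y 5)) +
      73786976294838206464 * (pk (nv (WF x y 6)) + 73786976294838206464 * 0)))))) := by
    zify
    simp only [pk_nv (h.inR _)]
    exact h.2.2.2.trans (hor ..)
  rw [hN]
  fin_cases i
  · exact fld_zero _ (hb 0)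
  · exact (fld_succ _ 0 (hb 0)).trans (fld_zero _ (hb 1))
  · exact (fld_succ _ 66 (hb 0)).trans <| (fld_succ _ 0 (hb 1)).trans (fld_zero _ (hb 2))
  · exact (fld_succ _ 132 (hb 0)).trans <| (fld_succ _ 66 (hb 1)).trans <|
      (fld_succ _ 0 (hb 2)).trans (fld_zero _ (hb 3))
  · exact (fld_succ _ 198 (hb 0)).trans <| (fld_succ _ 132 (hb 1)).trans <|
      (fld_succ _ 66 (hb 2)).trans <| (fld_succ _ 0 (hb 3)).trans (fld_zero _ (hb 4))
  · exact (fld_succ _ 264 (hb 0)).trans <| (fld_succ _ 198 (hb 1)).trans <|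
      (fld_succ _ 132 (hb 2)).trans <| (fld_succ _ 66 (hb 3)).trans <|
      (fld_succ _ 0 (hb 4)).trans (fld_zero _ (hb 5))
  · exact (fld_succ _ 330 (hb 0)).trans <| (fld_succ _ 264 (hb 1)).trans <|
      (fld_succ _ 198 (hb 2)).trans <| (fld_succ _ 132 (hb 3)).trans <|
      (fld_succ _ 66 (hb 4)).trans <| (fld_succ _ 0 (hb 5)).trans (fld_zero _ (hb 6))

/-- the packed value as a linear function -/
theorem val_eq (x y : V) : p6 x + 2 ^ 66 * p6 y + 2 ^ 132 * p6 (-x - y) + 2 ^ 198 * p6 (-x) +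
    2 ^ 264 * p6 (-y) + 2 ^ 330 * p6 (x + y) + 2 ^ 396 * p6 0 =
    (V00 : ℤ) + lin x * ((AXp : ℤ) - AXn) + lin y * ((AYp : ℤ) - AYn) := by
  rw [hor]
  simp only [p6_eq, lin_eq, Pi.add_apply, Pi.sub_apply, Pi.neg_apply, Pi.zero_apply, V00, AXp,
    AXn, AYp, AYn]
  push_cast
  ring

theorem p6_nonneg {a : V} (h : InR a) : 0 ≤ p6 a := by
  rw [← pk_nv h]; positivity

theorem rep_of {a b : ℕ} {x y : V} (h1 : InR x) (h2 : InR y) (h3 : InR (x + y))
    (h : (a : ℤ) - b = (V00 : ℤ) + lin x * ((AXp : ℤ) - AXn) + lin y * ((AYp : ℤ) - AYn)) :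
    Rep (Nat.sub a b) x y := by
  have h4 : InR (-x - y) := by
    have := h3.neg
    rwa [neg_add, ← sub_eq_add_neg] at this
  refine ⟨h1, h2, h3, ?_⟩
  rw [← val_eq] at h
  have h5 : 0 ≤ (a : ℤ) - b := by
    rw [h]
    have := p6_nonneg h1
    have := p6_nonneg h2
    have := p6_nonneg h3
    have := p6_nonneg h4
    have := p6_nonneg h1.neg
    have := p6_nonneg h2.neg
    have := p6_nonneg inR_zero
    positivity
  rw [← h, Nat.sub_eq, Nat.cast_sub (by omega)]

theorem rep_mkV (N : ℕ) : Rep (mkV N) (iX N) (iY N) := by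
  refine rep_of (fun r => ?_) (fun r => ?_) (fun r => ?_) ?_
  · have := dv_bd N r
    unfold iX; omega
  · have := dv_bd (N / 24137569) r
    unfold iY; omega
  · have := dv_bd N r
    have := dv_bd (N / 24137569) r
    simp only [Pi.add_apply, iX, iY]; omega
  · simp only [Nat.add_eq, Nat.mul_eq, iX, iY]
    push_cast
    rw [spr_lin, spr_lin]
    show _ = (V00 : ℤ) + lin (dv N) * _ + lin (dv (Nat.div N 24137569)) * _
    simp only [V00, A0, AXp, AXn, AYp, AYn]
    push_cast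
    ring

theorem rep_V00 : Rep V00 0 0 := by
  refine rep_of (a := V00) (b := 0) inR_zero inR_zero (by rw [add_zero]; exact inR_zero) ?_
  simp [lin]

theorem lin_add (a b : V) : lin (a + b) = lin a + lin b := by
  simp only [lin_eq, Pi.add_apply]
  ring

theorem rep_add {N P Q : ℕ} {x y u w : V} (h : Rep N x y) (h1 : InR (x + u)) (h2 : InR (y + w))
    (h3 : InR (x + u + (y + w)))
    (hPQ : (P : ℤ) - Q = lin u * ((AXp : ℤ) - AXn) + lin w * ((AYp : ℤ) - AYn)) :
    Rep (Nat.sub (Nat.add N P) Q) (x + u) (y + w) := by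
  refine rep_of h1 h2 h3 ?_
  have h4 := h.2.2.2.trans (val_eq x y)
  rw [Nat.add_eq, Nat.cast_add, lin_add, lin_add]
  linear_combination h4 + hPQ

theorem inR_e01 : InR (e 0 - e 1) := fun r => by fin_cases r <;> simp [e]

theorem pk_e01 : pk (nv (e 0 - e 1)) = E01 := by simp [pk, nv, e, E01]

theorem fld0_E01 {N : ℕ} {x y : V} (h : Rep N x y) (h0 : fld N 0 = E01) : x = e 0 - e 1 :=
  pk_inj (h.inR 0) inR_e01 (((h.fld 0).symm.trans h0).trans pk_e01.symm)

theorem fld132_E01 {N : ℕ} {x y : V} (h : Rep N x y) (h0 : fld N 132 = E01) :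
    -x - y = e 0 - e 1 :=
  pk_inj (h.inR 2) inR_e01 (((h.fld 2).symm.trans h0).trans pk_e01.symm)

theorem key2_eq {N : ℕ} {x y : V} (h : Rep N x y) (i j : Fin 7) :
    key2 (66 * i + 512 * (66 * j)) N = cdv (WF x y i) (WF x y j) := by
  have h1 : (66 * i + 512 * (66 * j) : ℕ) % 512 = 66 * i := by omega
  have h2 : (66 * i + 512 * (66 * j) : ℕ) / 512 = 66 * j := by omega
  show cod (41 * fld N ((66 * i + 512 * (66 * j) : ℕ) % 512) +
    fld N ((66 * i + 512 * (66 * j) : ℕ) / 512)) = _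
  have h3 : 41 * pk (nv (WF x y i)) + pk (nv (WF x y j)) =
      pk fun r => 41 * nv (WF x y i) r + nv (WF x y j) r := by
    simp only [pk]; ring
  rw [h1, h2, h.fld, h.fld, h3, cod_pk fun r => by
    have := nv_le (h.inR i) r
    have := nv_le (h.inR j) r
    omega]
  rfl

/-- all entries of the table `tb` belong to `L` -/
def Tab (tb : ℕ) (L : List (Fin 7 × Fin 7)) : Prop :=
  ∀ k < 16, ∃ q ∈ L, tb >>> (18 * k) % 262144 = 66 * q.1 + 512 * (66 * q.2)

instance (tb : ℕ) (L : List (Fin 7 × Fin 7)) : Decidable (Tab tb L) := by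
  unfold Tab; infer_instance

theorem key_tab {tb : ℕ} {L : List (Fin 7 × Fin 7)} (hL : Tab tb L) {N : ℕ} {x y : V}
    (h : Rep N x y) (j : ℕ) : ∃ q ∈ L, key tb j N = cdv (WF x y q.1) (WF x y q.2) := by
  obtain ⟨q, hq, e⟩ := hL (j % 16) (Nat.mod_lt _ (by norm_num))
  refine ⟨q, hq, ?_⟩
  rw [← key2_eq h, ← e]
  rfl

theorem kok_tab (hT : Prm T) {tb : ℕ} (L : List (Fin 7 × Fin 7)) (hL : Tab tb L)
    {U : V → V → ℝ} (hU : ∀ x y, ∀ q ∈ L, T (WF x y q.1) (WF x y q.2) = U x y) : KOK T tb U := by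
  intro j N x y h
  obtain ⟨q, hq, e⟩ := key_tab hL h j
  rw [e, vk_cdv hT (h.inR _) (h.inR _), hU x y q hq]

theorem tab_tR : Tab tR [(0, 1)] := by decide +kernel

theorem key_tR {N : ℕ} {x y : V} (h : Rep N x y) (j : ℕ) : key tR j N = cdv x y := by
  obtain ⟨q, hq, e⟩ := key_tab tab_tR h j
  rw [List.mem_singleton.1 hq] at e
  exact e

theorem kR (hT : Prm T) : KOK T tR T :=
  kok_tab hT _ tab_tR fun x y => by simp [WF]

theorem kA (hT : Sym T) (hr : ∀ a b, T a (-a - b) = T a b) : KOK T tA T := by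
  refine kok_tab hT.perm [(0, 1), (1, 0), (3, 4), (4, 3), (0, 2), (2, 0), (3, 5), (5, 3), (1, 2),
    (2, 1), (4, 5), (5, 4)] (by decide +kernel) fun x y => ?_
  have h1 : T (-x) (x + y) = T x y := by
    rw [← hr x y, ← hT.neg x]; congr 1; abel
  have h2 : T y (-x - y) = T x y := by
    rw [← hT.swap x y, ← hr y x]; congr 1; abel
  have h3 : T (-y) (x + y) = T x y := by
    rw [← h2, ← hT.neg y]; congr 1; abel
  simp only [List.forall_mem_cons, List.not_mem_nil, false_imp_iff, implies_true, and_true]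
  exact ⟨rfl, hT.swap _ _, hT.neg _ _, (hT.swap _ _).trans (hT.neg _ _), hr _ _,
    (hT.swap _ _).trans (hr _ _), h1, (hT.swap _ _).trans h1, h2, (hT.swap _ _).trans h2, h3,
    (hT.swap _ _).trans h3⟩

theorem kB (hT : Sym T) : KOK T tB T := by
  refine kok_tab hT.perm [(0, 1), (1, 0), (3, 4), (4, 3)] (by decide +kernel) fun x y => ?_
  simp only [List.forall_mem_cons, List.not_mem_nil, false_imp_iff, implies_true, and_true]
  exact ⟨rfl, hT.swap _ _, hT.neg _ _, (hT.swap _ _).trans (hT.neg _ _)⟩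

theorem kX (hT : Sym T) : KOK T tX fun a b => T a (-a - b) := by
  refine kok_tab hT.perm [(0, 2), (2, 0), (3, 5), (5, 3)] (by decide +kernel) fun x y => ?_
  have h1 : T (-x) (x + y) = T x (-x - y) := by
    rw [← hT.neg x]; congr 1; abel
  simp only [List.forall_mem_cons, List.not_mem_nil, false_imp_iff, implies_true, and_true]
  exact ⟨rfl, hT.swap _ _, h1, (hT.swap _ _).trans h1⟩

theorem kO (hT : Sym T) : KOK T tO fun x y => T 0 (x + y) := by
  refine kok_tab hT.perm [(6, 2), (6, 5)] (by decide +kernel) fun x y => ?_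
  have h1 : T 0 (-x - y) = T 0 (x + y) := by
    rw [← hT.neg 0 (x + y), neg_zero]; congr 1; abel
  simp only [List.forall_mem_cons, List.not_mem_nil, false_imp_iff, implies_true, and_true]
  exact ⟨h1, rfl⟩

theorem kZ (hT : Sym T) : KOK T tZ fun x _ => T 0 x := by
  refine kok_tab hT.perm [(6, 0), (6, 3)] (by decide +kernel) fun x y => ?_
  have h1 : T 0 (-x) = T 0 x := by rw [← hT.neg 0 x, neg_zero]
  simp only [List.forall_mem_cons, List.not_mem_nil, false_imp_iff, implies_true, and_true]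
  exact ⟨rfl, h1⟩

theorem kN (hT : Sym T) : KOK T tN fun x _ => T x (-x) := by
  refine kok_tab hT.perm [(0, 3), (3, 0)] (by decide +kernel) fun x y => ?_
  simp only [List.forall_mem_cons, List.not_mem_nil, false_imp_iff, implies_true, and_true]
  exact ⟨rfl, hT.swap _ _⟩

end Vale.Agent.P355.K3
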