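import Vale.Agent.P355.K3S2

/-! Soundness of the item generators. -/

namespace Vale.Agent.P355.K3
open Finset

variable {T U A B C : V → V → ℝ} {v : ℕ → ℝ}

namespace S3

theorem it1_st {tb : ℕ} (hk : KOK T tb U) (j m o N : ℕ) : St (vk T) (it1 tb j m o N)
    ((m : ℝ) * (((top N / 256 : ℕ) : ℝ) - o) * U (iX N) (iY N)) := by
  refine (ins_st (vk T) _ (m * (top N / 256)) (m * o)).of_eq ?_
  rw [hk _ _ _ _ (rep_mkV N), Nat.cast_mul, Nat.cast_mul, mul_sub]

theorem it2_st {tb : ℕ} (hk : KOK T tb U) (j m o N : ℕ) : St (vk T) (it2 tb j m o N)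
    (-((m : ℝ) * (((top N / 256 : ℕ) : ℝ) - o) * U (iX N) (iY N))) := by
  refine (ins_st (vk T) _ (m * o) (m * (top N / 256))).of_eq ?_
  rw [hk _ _ _ _ (rep_mkV N), Nat.cast_mul, Nat.cast_mul]
  ring

theorem zero_st {W : ℕ} {f : ℕ → Gen} (h : ∀ N, St v (f N) 0) (l : List ℕ) : St v (eL W f l) 0 :=
  (eL_st (δ := fun _ => 0) h l).of_eq (by simp)

theorem guard {f : Gen} {b : Bool} {δ : ℝ} (h : b = true → St v f δ) :
    St v (fun t c => Bool.rec (motive := fun _ => Bool) false (f t c) b) δ := by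
  cases b with
  | false => exact fun _ _ hc => absurd hc Bool.false_ne_true
  | true => exact h rfl

theorem itV_st {tb : ℕ} (hk : KOK T tb T) {s N : ℕ} (o : ℕ)
    (h : fld (mkV N) s = E01 → T (iX N) (iY N) = 0) : St (vk T) (itV tb s o N) 0 :=
  guard (f := it1 tb 0 1 o N) (b := Nat.beq (fld (mkV N) s) E01) fun hb =>
    (it1_st hk 0 1 o N).of_eq (by rw [h (Nat.eq_of_beq_eq_true hb), mul_zero])

theorem stp_st {ι : Type} {tb N : ℕ} (hk : KOK T tb U) {x y : V} (hN : Rep N x y) (p n : ℕ)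
    {u w : ι → V} (hr : ∀ i, InR (x + u i) ∧ InR (y + w i) ∧ InR (x + u i + (y + w i)))
    {l : List (ℕ × ℕ)} {L : List ι} (hl : List.Forall₂ (fun d i => (d.1 : ℤ) - d.2 =
      lin (u i) * ((AXp : ℤ) - AXn) + lin (w i) * ((AYp : ℤ) - AYn)) l L) (h : ℕ) :
    St (vk T) (stp tb N p n l h)
      (((p : ℝ) - n) * (L.map fun i => U (x + u i) (y + w i)).sum) := by
  induction hl generalizing h with
  | nil => exact (St.nil _).of_eq (by simp)
  | @cons d i _ _ hd _ ih =>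
    refine ((ins_st (vk T) (key tb h (Nat.sub (Nat.add N d.1) d.2)) p n).seq'
      (ih (Nat.div h 16))).of_eq ?_
    rw [hk _ _ _ _ (rep_add hN (hr i).1 (hr i).2.1 (hr i).2.2 hd), List.map_cons, List.sum_cons,
      mul_add]

theorem lin_e (r : Fin 6) : lin (e r) = 2048 ^ (r : ℕ) := by
  simp [lin, e, Pi.single_apply]

theorem lin_sub (a b : V) : lin (a - b) = lin a - lin b := by
  simp only [lin, Pi.sub_apply, sub_mul, sum_sub_distrib]

theorem lin_zero : lin 0 = 0 := by simp [lin]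

theorem e_bd (r s : Fin 6) : 0 ≤ e r s ∧ e r s ≤ 1 := by
  simp only [e, Pi.single_apply]
  split_ifs <;> omega

theorem rng (N : ℕ) {u w : V} (hu : ∀ s, -1 ≤ u s ∧ u s ≤ 1) (hw : ∀ s, -1 ≤ w s ∧ w s ≤ 1) :
    InR (iX N + u) ∧ InR (iY N + w) ∧ InR (iX N + u + (iY N + w)) := by
  refine ⟨fun s => ?_, fun s => ?_, fun s => ?_⟩ <;>
  · have h1 := dv_bd N s
    have h2 := dv_bd (N / 24137569) s
    have h3 := hu s
    have h4 := hw s
    simp only [iX, iY, Pi.add_apply]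
    omega

def f6 : List (Fin 6) := [0, 1, 2, 3, 4, 5]

def f30 : List (Fin 6 × Fin 6) :=
  [(0, 1), (0, 2), (0, 3), (0, 4), (0, 5), (1, 0), (1, 2), (1, 3), (1, 4), (1, 5),
   (2, 0), (2, 1), (2, 3), (2, 4), (2, 5), (3, 0), (3, 1), (3, 2), (3, 4), (3, 5),
   (4, 0), (4, 1), (4, 2), (4, 3), (4, 5), (5, 0), (5, 1), (5, 2), (5, 3), (5, 4)]

theorem sum6 (f : Fin 6 → ℝ) : (f6.map f).sum = ∑ r, f r := by
  simp only [f6, List.map_cons, List.sum_cons, List.map_nil, List.sum_nil, Fin.sum_univ_six]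
  ring

theorem sum30 (f : Fin 6 → Fin 6 → ℝ) :
    (f30.map fun r => f r.1 r.2).sum = ∑ r, ∑ t, f r t - ∑ r, f r r := by
  simp only [f30, List.map_cons, List.sum_cons, List.map_nil, List.sum_nil, Fin.sum_univ_six]
  ring

theorem lO_ok : List.Forall₂ (fun (d : ℕ × ℕ) (r : Fin 6) => (d.1 : ℤ) - d.2 =
    2048 ^ (r : ℕ) * ((AXp : ℤ) - AXn) + (0 - 2048 ^ (r : ℕ)) * ((AYp : ℤ) - AYn)) lO f6 := by
  decide

theorem lU_ok : List.Forall₂ (fun (d : ℕ × ℕ) (r : Fin 6 × Fin 6) => (d.1 : ℤ) - d.2 =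
    (2048 ^ (r.1 : ℕ) - 2048 ^ (r.2 : ℕ)) * ((AXp : ℤ) - AXn) + 0 * ((AYp : ℤ) - AYn)) lU f30 := by
  decide

end S3

theorem dpos_st {tb : ℕ} (hk : KOK T tb U) (W j m o : ℕ) (l : List ℕ) :
    St (vk T) (eL W (it1 tb j m o) l) (dSum U W m o l) := eL_st (S3.it1_st hk j m o) l

theorem dneg_st {tb : ℕ} (hk : KOK T tb U) (W j m o : ℕ) (l : List ℕ) :
    St (vk T) (eL W (it2 tb j m o) l) (-dSum U W m o l) := by
  refine (eL_st (S3.it2_st hk j m o) l).of_eq ?_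
  rw [dSum, List.sum_neg, List.map_map]
  rfl

theorem z1_sum (h : AxL A B C) (W m m' o : ℕ) (hm : m' = 2 * m) (l : List ℕ) :
    dSum (fun x _ => B x (-x)) W m o l = dSum (fun x _ => A 0 x) W m' o l := by
  refine congrArg List.sum (List.map_congr_left fun N _ => ?_)
  have h1 := h.rotA (iX N) 0
  rw [sub_zero] at h1
  simp only [h.z1, h1, h.symA.swap 0, hm]
  push_cast
  ring

theorem z2_sum (h : AxL A B C) (W m o : ℕ) (l : List ℕ) :
    dSum (fun x _ => C 0 x) W m o l = dSum (fun x _ => B 0 x) W m o l := by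
  simp only [h.z2]

theorem van0_st {tb : ℕ} (hk : KOK T tb T) (h : ∀ b, T (e 0 - e 1) b = 0) (W o : ℕ) (l : List ℕ) :
    St (vk T) (eL W (itV tb 0 o) l) 0 :=
  S3.zero_st (fun N => S3.itV_st hk o fun h0 => by rw [fld0_E01 (rep_mkV N) h0, h]) l

theorem van3_st {tb : ℕ} (hk : KOK T tb T) (h : ∀ a, T a (-a - (e 0 - e 1)) = 0) (W o : ℕ)
    (l : List ℕ) : St (vk T) (eL W (itV tb 132 o) l) 0 := by
  refine S3.zero_st (fun N => S3.itV_st hk o fun h0 => ?_) l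
  rw [← h (iX N), ← fld132_E01 (rep_mkV N) h0, sub_sub_cancel]

theorem o_st {tb : ℕ} (hk : KOK T tb T) (hT : Sym T)
    (h : ∀ x y, ∑ r, T (x + e r) (y - e r) = T 0 (x + y)) (W m o : ℕ) (l : List ℕ) :
    St (vk T) (eL W (itO tb m o) l) 0 := by
  refine S3.zero_st (fun N => ?_) l
  have h1 := S3.stp_st hk (rep_mkV N) (Nat.mul m (Nat.div (top N) 268435456)) (Nat.mul m o)
    (u := e) (w := fun r => 0 - e r) (fun r => S3.rng N
      (fun s => by have := S3.e_bd r s; omega)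
      (fun s => by have := S3.e_bd r s; rw [zero_sub, Pi.neg_apply]; omega))
    (by simpa only [S3.lin_sub, S3.lin_e, S3.lin_zero] using S3.lO_ok)
    (Nat.div (Nat.mod (top N) 268435456) 16)
  refine ((ins_st (vk T) (key tO (Nat.mod (top N) 268435456) (mkV N)) _ _).seq' h1).of_eq ?_
  simp only [kO hT _ _ _ _ (rep_mkV N), S3.sum6, zero_sub, ← sub_eq_add_neg, h]
  ring

theorem u_st {tb : ℕ} (hk : KOK T tb T)
    (h : ∀ x y, ∑ r, ∑ t, T (x + e r - e t) y = 6 * T x y) (W m o : ℕ) (l : List ℕ) :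
    St (vk T) (eL W (itU tb m o) l) 0 := by
  refine S3.zero_st (fun N => ?_) l
  refine (S3.stp_st hk (rep_mkV N) _ _ (u := fun r : Fin 6 × Fin 6 => e r.1 - e r.2)
    (w := fun _ => 0) (fun r => S3.rng N
      (fun s => by have := S3.e_bd r.1 s; have := S3.e_bd r.2 s; rw [Pi.sub_apply]; omega)
      (fun s => by simp))
    (by simpa only [S3.lin_sub, S3.lin_e, S3.lin_zero] using S3.lU_ok) _).of_eq ?_
  simp only [add_zero, ← add_sub_assoc]
  rw [S3.sum30 fun r t => T (iX N + e r - e t) (iY N), h]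
  simp

theorem gC_st (hT : Prm T) (p n : ℕ) : St (vk T) (gC p n) (((p : ℝ) - n) * T 0 0) :=
  (ins_st (vk T) _ p n).of_eq (by rw [kR hT _ _ _ _ rep_V00])

end Vale.Agent.P355.K3
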