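import Vale.Agent.P355.Ax
import Vale.Agent.P355.K3Defs

/-! Meaning of the checker's data. -/

namespace Vale.Agent.P355.K3

open Finset

/-- invariance under coordinate permutations -/
def Prm (T : V → V → ℝ) : Prop :=
  ∀ φ : Fin 6 → Fin 6, Function.Bijective φ → ∀ a b, T (a ∘ φ) (b ∘ φ) = T a b

def InR (a : V) : Prop := ∀ r, -20 ≤ a r ∧ a r ≤ 20

def cdv (a b : V) : ℕ := ∑ r, 7 ^ (41 * (a r + 20).toNat + (b r + 20).toNat)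

open Classical in
noncomputable def vk (T : V → V → ℝ) (n : ℕ) : ℝ :=
  if h : ∃ p : V × V, InR p.1 ∧ InR p.2 ∧ cdv p.1 p.2 = n then T h.choose.1 h.choose.2 else 0

noncomputable def ev (v : ℕ → ℝ) : Tr → ℝ
  | Tr.lf k s => ((s : ℝ) - OFF) * v k
  | Tr.nd l _ r => ev v l + ev v r

def St (v : ℕ → ℝ) (f : Gen) (δ : ℝ) : Prop :=
  ∀ t c, f t c = true → ∃ t', c t' = true ∧ ev v t' = ev v t + δ

def items (W : ℕ) (l : List ℕ) : List ℕ :=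
  l.flatMap fun N => (List.range 32).map fun k => N / W ^ k % W

def lin (a : V) : ℤ := ∑ r, a r * 2048 ^ (r : ℕ)

def p6 (a : V) : ℤ := ∑ r, (a r + 20) * 2048 ^ (r : ℕ)

def Rep (N : ℕ) (x y : V) : Prop :=
  InR x ∧ InR y ∧ InR (x + y) ∧
    (N : ℤ) = p6 x + 2 ^ 66 * p6 y + 2 ^ 132 * p6 (-x - y) + 2 ^ 198 * p6 (-x) +
      2 ^ 264 * p6 (-y) + 2 ^ 330 * p6 (x + y) + 2 ^ 396 * p6 0

def dv (N : ℕ) : V := fun r => ((N / 17 ^ (r : ℕ) % 17 : ℕ) : ℤ) - 8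

def iX (N : ℕ) : V := dv N

def iY (N : ℕ) : V := dv (N / 24137569)

def KOK (T : V → V → ℝ) (tb : ℕ) (U : V → V → ℝ) : Prop :=
  ∀ h N x y, Rep N x y → vk T (key tb h N) = U x y

noncomputable def dSum (U : V → V → ℝ) (W m o : ℕ) (l : List ℕ) : ℝ :=
  ((items W l).map fun N => (m : ℝ) * (((top N / 256 : ℕ) : ℝ) - o) * U (iX N) (iY N)).sum

noncomputable def lv (N k : ℕ) : ℤ :=
  if k < N % 256 then (ld N k : ℤ) - 2 ^ 28 else if k = N % 256 then 1 else 0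

noncomputable def dotv (N M : ℕ) : ℤ := ∑ k ∈ range 176, lv N k * lv M k

deriving instance DecidableEq for W

def W.get (w : W) : Fin 6 → ℕ := ![w.x0, w.x1, w.x2, w.x3, w.x4, w.x5]

def φ (p : W) (r : Fin 6) : Fin 6 := ⟨p.get r % 6, Nat.mod_lt _ (by norm_num)⟩

def GB (G : List W) : Prop := ∀ g ∈ G, ∀ r, g.get r < 6

def mulW (p q : W) : W :=
  ⟨q.get (φ p 0), q.get (φ p 1), q.get (φ p 2), q.get (φ p 3), q.get (φ p 4), q.get (φ p 5)⟩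

def lab (Gp Gm : List W) : List (W × Bool) :=
  Gp.map (fun g => (g, true)) ++ Gm.map fun g => (g, false)

/-- `Gp ++ Gm` is a permutation group and the labels form a character -/
def GOK (Gp Gm : List W) : Prop :=
  Gp ≠ [] ∧ (∀ g ∈ lab Gp Gm, Function.Bijective (φ g.1)) ∧
    ∀ g ∈ lab Gp Gm, ((lab Gp Gm).map fun h => (mulW g.1 h.1, g.2 == h.2)).Perm (lab Gp Gm)

def RowOK (rs : List Row) : Prop :=
  ∀ r ∈ rs, r.j0 % 256 ≤ 175 ∧ r.j1 % 256 ≤ 175 ∧ r.j2 % 256 ≤ 175 ∧ r.j3 % 256 ≤ 175 ∧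
    r.s0 % 256 ≤ 175 ∧ r.s1 % 256 ≤ 175 ∧ r.s2 % 256 ≤ 175 ∧ r.s3 % 256 ≤ 175

def CfOK (cf : Cf) (σ : ℝ) : Prop :=
  ∀ a b : ℕ, (cf.p a b : ℝ) - cf.n a b = ((a : ℝ) - 2 ^ 67) + σ * ((b : ℝ) - 2 ^ 67)

noncomputable def Eg (T : V → V → ℝ) (ε : ℝ) (G : List W) (a b : V) : ℝ :=
  (G.map fun g => T a (-(b ∘ φ g)) + ε * T a (b ∘ φ g)).sum

noncomputable def Eb (T : V → V → ℝ) (χ ε : ℝ) (Gp Gm : List W) (a b : V) : ℝ :=
  Eg T ε Gp a b + χ * Eg T ε Gm a b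

noncomputable def KK (T : V → V → ℝ) (σ : ℝ) (Gp Gm : List W) (r s : Row) : ℝ :=
  ((dotv r.j0 s.j0 : ℝ) + σ * dotv r.s0 s.s0) * Eb T 1 1 Gp Gm (dv r.a) (dv s.a) +
  ((dotv r.j1 s.j1 : ℝ) + σ * dotv r.s1 s.s1) * Eb T 1 (-1) Gp Gm (dv r.a) (dv s.a) +
  ((dotv r.j2 s.j2 : ℝ) + σ * dotv r.s2 s.s2) * Eb T (-1) 1 Gp Gm (dv r.a) (dv s.a) +
  ((dotv r.j3 s.j3 : ℝ) + σ * dotv r.s3 s.s3) * Eb T (-1) (-1) Gp Gm (dv r.a) (dv s.a)

noncomputable def XX (K : Row → Row → ℝ) (l m : List Row) : ℝ :=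
  (l.map fun r => (m.map fun s => K r s).sum).sum

noncomputable def TT (K : Row → Row → ℝ) : List Row → ℕ → ℝ
  | r :: l, k + 1 => K r r + 2 * (l.map fun s => K r s).sum + TT K l k
  | _, _ => 0

end Vale.Agent.P355.K3
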