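import Vale.Agent.P355.Defs

open Matrix Finset
open scoped ComplexOrder

namespace Vale.Agent.P355

namespace Wei

abbrev M := Matrix (Fin 6) (Fin 6) ℂ

/-- the projectors of six mutually unbiased bases -/
structure Pr (p : Fin 6 → Fin 6 → M) : Prop where
  herm : ∀ i k x y, star (p i k x y) = p i k y x
  rk : ∀ i k x y z w, p i k w z * p i k x y = p i k w y * p i k x z
  sum : ∀ i, ∑ k, p i k = 1
  tr : ∀ i k j l, trace (p i k * p j l) = if i = j then (if k = l then 1 else 0) else 1 / 6

/-- the projection onto the matrices unbiased to all bases -/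
noncomputable def E (p : Fin 6 → Fin 6 → M) (X : M) : M :=
  X + trace X • (1 : M) - ∑ i, ∑ k, trace (p i k * X) • p i k

/-- a Parseval frame -/
noncomputable def a (p : Fin 6 → Fin 6 → M) (j : Fin 6 × Fin 6) : M := E p (single j.1 j.2 1)

variable {p : Fin 6 → Fin 6 → M}

theorem a_apply (z w x y : Fin 6) : a p (z, w) x y =
    (if z = x ∧ w = y then 1 else 0) + (if z = w ∧ x = y then 1 else 0) -
      ∑ i, ∑ k, p i k w z * p i k x y := by
  have e : trace (single z w (1 : ℂ)) * (if x = y then 1 else 0) =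
      if z = w ∧ x = y then 1 else 0 := by
    by_cases h : z = w
    · simp [h]
    · simp [h, trace_single_eq_of_ne]
  simp only [a, E, Matrix.sub_apply, Matrix.add_apply, Matrix.smul_apply, Matrix.sum_apply,
    trace_mul_single, one_apply, smul_eq_mul, e, op_smul_eq_mul, mul_one, single_apply]

theorem E_eq (X : M) (x y : Fin 6) : E p X x y = ∑ z, ∑ w, a p (z, w) x y * X z w := by
  have e1 : ∑ z, ∑ w, (if z = x ∧ w = y then 1 else 0) * X z w = X x y := by
    simp [ite_and]
  have e2 : ∑ z, ∑ w, (if z = w ∧ x = y then 1 else 0) * X z w =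
      trace X * if x = y then 1 else 0 := by
    by_cases h : x = y <;> simp [h, trace]
  have e3 : ∑ z, ∑ w, (∑ i, ∑ k, p i k w z * p i k x y) * X z w =
      ∑ i, ∑ k, trace (p i k * X) * p i k x y := by
    simp only [trace, diag_apply, mul_apply, sum_mul]
    rw [sum_comm]
    simp only [sum_comm (γ := Fin 6) (α := Fin 6) (s := univ) (t := univ)
      (f := fun z i => ∑ k, p i k _ z * p i k x y * X z _)]
    rw [sum_comm]
    refine sum_congr rfl fun i _ => ?_
    simp only [sum_comm (γ := Fin 6) (α := Fin 6) (s := univ) (t := univ)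
      (f := fun z k => p i k _ z * p i k x y * X z _)]
    rw [sum_comm]
    exact sum_congr rfl fun _ _ => sum_congr rfl fun _ _ => sum_congr rfl fun _ _ => by ring
  simp only [a_apply, sub_mul, add_mul, sum_sub_distrib, sum_add_distrib, e1, e2, e3]
  simp only [E, Matrix.sub_apply, Matrix.add_apply, Matrix.smul_apply, Matrix.sum_apply, one_apply,
    smul_eq_mul]

theorem tr_pE (h : Pr p) (X : M) (j l : Fin 6) : trace (p j l * E p X) = trace X / 6 := by
  have h1 : trace (p j l) = 1 := by
    have := congrArg (fun Y => trace (p j l * Y)) (h.sum j)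
    simpa [Matrix.mul_sum, trace_sum, h.tr] using this.symm
  have h2 : ∀ i, ∑ k, trace (p i k * X) * trace (p j l * p i k) =
      trace X / 6 + if j = i then trace (p j l * X) - trace X / 6 else 0 := fun i => by
    simp only [h.tr]
    split_ifs with e
    · simp [e]
    · rw [← sum_mul, ← trace_sum, ← Matrix.sum_mul, h.sum, Matrix.one_mul]
      ring
  simp only [E, Matrix.mul_sub, Matrix.mul_add, Matrix.mul_smul, Matrix.mul_sum, trace_sub,
    trace_add, trace_smul, trace_sum, Matrix.mul_one, smul_eq_mul, h1, h2, sum_add_distrib,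
    sum_ite_eq, mem_univ, if_true, sum_const, card_univ, Fintype.card_fin, nsmul_eq_mul]
  push_cast
  ring

theorem E_fix (h : Pr p) {X : M} (hX : ∀ j l, trace (p j l * X) = trace X / 6) : E p X = X := by
  simp only [E, hX, ← smul_sum, h.sum, sum_const, card_univ, Fintype.card_fin]
  rw [← Nat.cast_smul_eq_nsmul ℂ, smul_smul]
  have : trace X / 6 * ((6 : ℕ) : ℂ) = trace X := by push_cast; ring
  rw [this, add_sub_cancel_right]

theorem tr_E (h : Pr p) (X : M) : trace (E p X) = trace X := by
  rw [← Matrix.one_mul (E p X), ← h.sum 0, Matrix.sum_mul, trace_sum]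
  simp only [tr_pE h, sum_const, card_univ, Fintype.card_fin, nsmul_eq_mul]
  push_cast
  ring

theorem E_a (h : Pr p) (j : Fin 6 × Fin 6) : E p (a p j) = a p j :=
  E_fix h fun i l => by rw [a, tr_pE h, tr_E h]

theorem E_one (h : Pr p) : E p 1 = 1 := E_fix h fun j l => by
  have := congrArg (fun Y => trace (p j l * Y)) (h.sum j)
  simpa [Matrix.mul_sum, trace_sum, h.tr] using this.symm

theorem a_star (h : Pr p) (z w x y : Fin 6) : star (a p (z, w) x y) = a p (x, y) z w := by
  simp only [a_apply, star_sub, star_add, star_sum, star_mul', h.herm, apply_ite star, star_one,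
    star_zero]
  congr 1
  · congr 1
    · simp only [eq_comm]
    · simp only [and_comm]
  · exact sum_congr rfl fun _ _ => sum_congr rfl fun _ _ => mul_comm _ _

theorem a_ct (h : Pr p) (j : Fin 6 × Fin 6) : (a p j)ᴴ = a p j.swap := by
  ext x y
  obtain ⟨z, w⟩ := j
  simp only [conjTranspose_apply, Prod.swap_prod_mk, a_apply, star_sub, star_add, star_sum,
    star_mul', h.herm, apply_ite star, star_one, star_zero]
  congr 2
  · simp only [and_comm]
  · simp only [eq_comm]

theorem a_shuf (h : Pr p) (z w x y : Fin 6) : a p (z, w) x y = a p (y, w) x z := by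
  simp only [a_apply, h.rk _ _ x y z w]
  congr 1
  rw [add_comm]
  congr 1
  · simp only [eq_comm, and_comm]
  · simp only [eq_comm, and_comm]

theorem kraus (h : Pr p) (X : M) : ∑ j, a p j * X * (a p j)ᴴ = E p X := by
  ext x z
  have e : ∀ y w, ∑ j, a p j x y * star (a p j z w) = a p (y, w) x z := fun y w => by
    rw [← a_shuf h z w x y, ← E_a h (z, w), E_eq, Fintype.sum_prod_type]
    simp only [a_star h]
  rw [E_eq]
  simp only [← e, Matrix.sum_apply, mul_apply, conjTranspose_apply, sum_mul]
  rw [sum_comm, sum_comm (s := univ) (t := univ) (f := fun y w => ∑ j, _ * _ * X y w)]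
  refine sum_congr rfl fun w _ => ?_
  rw [sum_comm]
  exact sum_congr rfl fun _ _ => sum_congr rfl fun _ _ => by ring

theorem kraus' (h : Pr p) (X : M) : ∑ j, (a p j)ᴴ * X * a p j = E p X := by
  rw [← kraus h, ← (Equiv.prodComm _ _).sum_comp]
  simp only [a_ct h, Equiv.prodComm_apply, Prod.swap_swap]

theorem a_comm (h : Pr p) (j k : Fin 6 × Fin 6) : a p j * a p k = a p k * a p j := by
  have s1 : ∑ j, (a p j)ᴴ * a p j = 1 := by
    simpa only [Matrix.mul_one, E_one h] using kraus' h 1
  have s2 : ∑ j, ∑ k, (a p k)ᴴ * ((a p j)ᴴ * a p j) * a p k = 1 := by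
    rw [sum_comm]
    simp only [← Matrix.sum_mul, ← Matrix.mul_sum, s1, Matrix.mul_one]
  have s3 : ∑ j, ∑ k, (a p k)ᴴ * (a p j)ᴴ * a p k * a p j = 1 := by
    simp only [← Matrix.sum_mul, kraus' h]
    simpa only [a_ct h, E_a h] using s1
  have s4 : ∑ j, ∑ k, (a p j * a p k - a p k * a p j)ᴴ * (a p j * a p k - a p k * a p j) = 0 := by
    simp only [conjTranspose_sub, conjTranspose_mul, Matrix.sub_mul, Matrix.mul_sub,
      sum_sub_distrib, Matrix.mul_assoc] at s2 s3 ⊢
    rw [s2, s3, sum_comm, s3, sum_comm, s2]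
    simp
  have nn : ∀ X : M, 0 ≤ trace (Xᴴ * X) := fun X =>
    (posSemidef_conjTranspose_mul_self X).trace_nonneg
  have s5 := congrArg trace s4
  simp only [trace_sum, trace_zero] at s5
  have s6 := (sum_eq_zero_iff_of_nonneg fun j _ => sum_nonneg fun k _ => nn _).1 s5 j (mem_univ _)
  have s7 := (sum_eq_zero_iff_of_nonneg fun k _ => nn _).1 s6 k (mem_univ _)
  exact sub_eq_zero.1 (trace_conjTranspose_mul_self_eq_zero_iff.1 s7)

/-- simultaneous diagonalisation -/
theorem diag {ι : Type} (T : ι → M) (hT : ∀ i, (T i).IsHermitian)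
    (hc : ∀ i j, T i * T j = T j * T i) :
    ∃ q : ONB, ∀ k i, ∃ μ : ℂ, T i *ᵥ (q k).ofLp = μ • (q k).ofLp := by
  classical
  have hS : ∀ i, (toEuclideanLin (T i)).IsSymmetric := fun i =>
    isSymmetric_toEuclideanLin_iff.2 (hT i)
  have hI := LinearMap.IsSymmetric.directSum_isInternal_of_pairwise_commute hS fun i j _ => by
    change toEuclideanLin (T i) ∘ₗ toEuclideanLin (T j) = toEuclideanLin (T j) ∘ₗ toEuclideanLin (T i)
    rw [← toLpLin_mul_same, ← toLpLin_mul_same, hc]
  have hO := hI.collectedBasis_orthonormal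
    (LinearMap.IsSymmetric.orthogonalFamily_iInf_eigenspaces hS)
    (v_family := fun α => (stdOrthonormalBasis ℂ _).toBasis)
    fun α => (stdOrthonormalBasis ℂ _).orthonormal
  have hm := hI.collectedBasis_mem fun α => (stdOrthonormalBasis ℂ _).toBasis
  generalize hI.collectedBasis (fun α => (stdOrthonormalBasis ℂ _).toBasis) = b at hO hm
  let := FiniteDimensional.fintypeBasisIndex b
  have hcard := Module.finrank_eq_card_basis b
  rw [finrank_euclideanSpace_fin] at hcard
  refine ⟨(b.toOrthonormalBasis hO).reindex (Fintype.equivFinOfCardEq hcard.symm), fun k i => ?_⟩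
  rw [OrthonormalBasis.reindex_apply, Module.Basis.coe_toOrthonormalBasis]
  have := (Submodule.mem_iInf _).1 (hm ((Fintype.equivFinOfCardEq hcard.symm).symm k)) i
  exact ⟨_, congrArg WithLp.ofLp (Module.End.mem_eigenspace_iff.1 this)⟩

theorem tr_proj (u v : EuclideanSpace ℂ (Fin 6)) :
    trace (vecMulVec u.ofLp (star u.ofLp) * vecMulVec v.ofLp (star v.ofLp)) =
      ((‖inner ℂ u v‖ ^ 2 : ℝ) : ℂ) := by
  rw [vecMulVec_mul_vecMulVec, trace_vecMulVec, dotProduct_smul, Complex.ofReal_pow,
    ← Complex.mul_conj', inner_conj_symm, EuclideanSpace.inner_eq_star_dotProduct,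
    EuclideanSpace.inner_eq_star_dotProduct, dotProduct_comm v.ofLp, smul_eq_mul]

theorem pr_of (B : Fin 6 → ONB) (h : MU B) :
    Pr fun i k => vecMulVec (B i k).ofLp (star (B i k).ofLp) where
  herm i k x y := by simp [vecMulVec_apply, mul_comm]
  rk i k x y z w := by simp only [vecMulVec_apply]; ring
  sum i := by
    ext x y
    have := (B i).sum_inner_mul_inner (EuclideanSpace.single x 1) (EuclideanSpace.single y 1)
    simpa [Matrix.sum_apply, vecMulVec_apply, one_apply, EuclideanSpace.inner_single_left,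
      EuclideanSpace.inner_single_right, Pi.single_apply, eq_comm] using this
  tr i k j l := by
    rw [tr_proj]
    split_ifs with e1 e2
    · rw [e1, e2, inner_self_eq_norm_sq_to_K, (B j).orthonormal.1]; simp
    · rw [e1, (B j).orthonormal.2 e2]; simp
    · rw [h i j e1]; simp

theorem unbiased (h : Pr p) {v : Fin 6 → ℂ} (hv : v ⬝ᵥ star v = 1)
    (he : ∀ j, ∃ μ : ℂ, a p j *ᵥ v = μ • v) (j l : Fin 6) :
    trace (p j l * vecMulVec v (star v)) = 1 / 6 := by
  choose μ hμ using he
  have e : E p (vecMulVec v (star v)) = (∑ j, μ j * star (μ j)) • vecMulVec v (star v) := by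
    rw [← kraus h, sum_smul]
    refine sum_congr rfl fun j _ => ?_
    rw [mul_vecMulVec, vecMulVec_mul, ← star_mulVec, hμ, star_smul, smul_vecMulVec,
      vecMulVec_smul, smul_smul]
  have h1 := tr_E h (vecMulVec v (star v))
  have h2 := tr_pE h (vecMulVec v (star v)) j l
  rw [e, trace_smul, trace_vecMulVec, hv, smul_eq_mul, mul_one] at h1
  rwa [e, h1, one_smul, trace_vecMulVec, hv] at h2

end Wei

open Wei in
theorem extend (B : Fin 6 → ONB) (h : MU B) : ∃ B' : Fin 7 → ONB, MU B' := by
  have hp := pr_of B h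
  generalize hp' : (fun i k => vecMulVec (B i k).ofLp (star (B i k).ofLp)) = p at hp
  obtain ⟨q, hq⟩ := diag (ι := (Fin 6 × Fin 6) × ℂ)
    (fun j => j.2 • a p j.1 + star j.2 • (a p j.1)ᴴ)
    (fun j => by simp [IsHermitian, add_comm]) fun i j => by
      simp only [a_ct hp, Matrix.mul_add, Matrix.add_mul, Matrix.smul_mul, Matrix.mul_smul,
        a_comm hp i.1, a_comm hp i.1.swap]
      module
  have key : ∀ i k l, ‖inner ℂ (B i k) (q l)‖ ^ 2 = 1 / 6 := fun i k l => by
    have h1 := unbiased hp (v := (q l).ofLp) (by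
      rw [← EuclideanSpace.inner_eq_star_dotProduct, inner_self_eq_norm_sq_to_K, q.orthonormal.1]
      simp) (fun j => by
        obtain ⟨μ, h1⟩ := hq l (j, 1)
        obtain ⟨ν, h2⟩ := hq l (j, Complex.I)
        simp only [add_mulVec, smul_mulVec, star_one, one_smul, Complex.star_def,
          Complex.conj_I] at h1 h2
        refine ⟨(μ - Complex.I * ν) / 2, ?_⟩
        funext x
        have h3 := congrFun h1 x
        have h4 := congrFun h2 x
        simp only [Pi.add_apply, Pi.smul_apply, smul_eq_mul] at h3 h4 ⊢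
        linear_combination (1 / 2 : ℂ) * h3 - (Complex.I / 2) * h4 +
          ((a p j *ᵥ (q l).ofLp) x - ((a p j)ᴴ *ᵥ (q l).ofLp) x) / 2 * Complex.I_mul_I) i k
    rw [← hp', tr_proj] at h1
    exact Complex.ofReal_injective (h1.trans (by simp))
  refine ⟨Fin.cons q B, fun i j hij a b => ?_⟩
  refine Fin.cases (fun hij => ?_) (fun i hij => ?_) i hij <;>
    refine Fin.cases (fun hij => ?_) (fun j hij => ?_) j hij
  · exact absurd rfl hij
  · rw [Fin.cons_zero, Fin.cons_succ, norm_inner_symm]; exact key _ _ _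
  · exact key _ _ _
  · exact h i j (fun e => hij (by rw [e])) a b

end Vale.Agent.P355
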