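import Vale.Agent.P355.CkS3
import Vale.Agent.P355.CkRunA
import Vale.Agent.P355.CkRunB
import Vale.Agent.P355.CkRunC
import Vale.Agent.P355.LinP
import Vale.Agent.P355.PosP
import Vale.Agent.P355.Bases
import Vale.Agent.P355.Weiner

namespace Vale.Agent.P355

namespace Ck

noncomputable instance (G : List SW) : Decidable (GOK G) := by unfold GOK; infer_instance

noncomputable instance (rs : List Row) : Decidable (RowOK rs) := by unfold RowOK; infer_instance

theorem gFp_ok : GOK gFp := by decide +kernel
theorem gFm_ok : GOK gFm := by decide +kernel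
theorem gT_ok : GOK gT := by decide +kernel

theorem blks_ok : BlkOK blks := by
  intro b hb
  simp only [blks, List.mem_cons, List.not_mem_nil, or_false] at hb
  rcases hb with rfl | rfl | rfl | rfl | rfl | rfl
  exacts [⟨gFp_ok, by decide +kernel⟩, ⟨gFp_ok, by decide +kernel⟩, ⟨gFm_ok, by decide +kernel⟩,
    ⟨gFm_ok, by decide +kernel⟩, ⟨gT_ok, by decide +kernel⟩, ⟨gT_ok, by decide +kernel⟩]

theorem no_cfg (c : Cfg 6) : False := by
  have h := sound (lin_of_cfg c) (pos_of_cfg c) (van_of_cfg c) blks_ok (oA := loA) (oB := loB)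
    (uB := luB) (uC := luC) (z := lz) (by decide +kernel) (by decide +kernel) (by decide +kernel)
    (by decide +kernel) (by decide +kernel) runA runB runC
  revert h
  decide +kernel

end Ck

theorem le_five (k : ℕ) (B : Fin k → ONB) (h : MU B) : k ≤ 5 := by
  by_contra hk
  obtain ⟨B', h'⟩ := extend _ (MU.restrict B h (show 6 ≤ k by omega))
  obtain ⟨c⟩ := cfg_of_bases (m := 6) B' h'
  exact Ck.no_cfg c

end Vale.Agent.P355
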